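import Vale.Agent.P002.Irreducible

/-!
Irreducible families span all matrices.
-/

namespace Vale.Agent.P002

open Matrix

variable {r : ℕ} {κ : Type*}

/-- Only the trivial subspaces are invariant. -/
def Irred (g : κ → Mat r) : Prop :=
  ∀ U : Submodule ℂ (Fin r → ℂ), (∀ k, ∀ u ∈ U, g k *ᵥ u ∈ U) → U = ⊥ ∨ U = ⊤

/-- Burnside's theorem. -/
lemma Irred.full [NeZero r] {g : κ → Mat r} (h : Irred g) : Full g := by
  classical
  let e := Matrix.toLinAlgEquiv' (R := ℂ) (n := Fin r)
  let S : Subalgebra ℂ (Mat r) := Algebra.adjoin ℂ (Set.range g)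
  let T : Subalgebra ℂ (Module.End ℂ (Fin r → ℂ)) := S.map e.toAlgHom
  have : IsSimpleModule T (Fin r → ℂ) := by
    refine isSimpleModule_iff _ _ |>.2 ?_
    refine @IsSimpleOrder.mk _ _ _ inferInstance fun U => ?_
    have hinv : ∀ k, ∀ u ∈ U.restrictScalars ℂ, g k *ᵥ u ∈ U.restrictScalars ℂ := fun k u hu => by
      have hm : e (g k) ∈ T := ⟨g k, Algebra.subset_adjoin ⟨k, rfl⟩, rfl⟩
      have h2 := U.smul_mem ⟨e (g k), hm⟩ hu
      rwa [show (⟨e (g k), hm⟩ : T) • u = g k *ᵥ u from Matrix.toLinAlgEquiv'_apply _ _] at h2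
    rcases h _ hinv with h' | h'
    · exact Or.inl (by rwa [Submodule.restrictScalars_eq_bot_iff] at h')
    · exact Or.inr (by rwa [Submodule.restrictScalars_eq_top_iff] at h')
  have hbij := IsSimpleModule.algebraMap_end_bijective_of_isAlgClosed (A := T) (V := Fin r → ℂ) ℂ
  have hST : ∀ A : Mat r, A ∈ S := by
    intro A
    obtain ⟨⟨t, ht⟩, hteq⟩ := jacobson_density (R := T) (M := Fin r → ℂ)
      { toFun := fun v => A *ᵥ v
        map_add' := fun v w => Matrix.mulVec_add A v w
        map_smul' := fun φ v => by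
          obtain ⟨c, rfl⟩ := hbij.2 φ
          simp [Matrix.mulVec_smul] }
      (Finset.univ.image fun i : Fin r => (Pi.single i 1 : Fin r → ℂ))
    obtain ⟨B, hB, rfl⟩ := ht
    have : A = B := Matrix.ext_of_mulVec_single fun i => by
      have h1 := hteq (Pi.single i 1) (Finset.mem_image.2 ⟨i, Finset.mem_univ _, rfl⟩)
      exact h1.trans (Matrix.toLinAlgEquiv'_apply B (Pi.single i 1))
    exact this ▸ hB
  refine eq_top_iff.2 fun A _ => ?_
  have hA : A ∈ Subalgebra.toSubmodule S := hST A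
  rw [show Subalgebra.toSubmodule S = _ from Algebra.adjoin_eq_span ℂ (Set.range g)] at hA
  refine Submodule.span_mono (fun x hx => ?_) hA
  obtain ⟨l, hl, rfl⟩ := Submonoid.exists_list_of_mem_closure hx
  clear hA
  induction l with
  | nil => exact ⟨[], rfl⟩
  | cons a l ih =>
    obtain ⟨k, rfl⟩ := hl a (List.mem_cons_self ..)
    obtain ⟨l', hl'⟩ := ih (fun b hb => hl b (List.mem_cons_of_mem _ hb))
      (list_prod_mem fun b hb => Submonoid.subset_closure (hl b (List.mem_cons_of_mem _ hb)))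
    exact ⟨k :: l', by simpa using congrArg (g k * ·) hl'⟩

end Vale.Agent.P002
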