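import Vale.Agent.P002.Generic

/-!
Rotation of the handles, and absence of idempotents commuting with the last handles at points
where the rank of their commutation map is locally maximal.
-/

namespace Vale.Agent.P002

open Matrix Filter Topology

variable {r n : ℕ}

/-- Cyclic relabelling of the handles. -/
def rot {G : Type*} (σ : Handles n G) : Handles n G :=
  (σ.1 ∘ finRotate (n + 1), σ.2 ∘ finRotate (n + 1))

/-- The inverse relabelling. -/
def rotInv {G : Type*} (σ : Handles n G) : Handles n G :=
  (σ.1 ∘ (finRotate (n + 1)).symm, σ.2 ∘ (finRotate (n + 1)).symm)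

lemma rot_rotInv {G : Type*} (σ : Handles n G) : rot (rotInv σ) = σ := by
  simp [rot, rotInv, Function.comp_assoc]

lemma rotInv_rot {G : Type*} (σ : Handles n G) : rotInv (rot σ) = σ := by
  simp [rot, rotInv, Function.comp_assoc]

lemma rot_relator {G : Type*} [Group G] {σ : Handles n G} (h : relator σ = 1) :
    relator (rot σ) = 1 := by
  rw [relator_ofFn] at h ⊢
  have e : (List.ofFn fun i => (rot σ).1 i * (rot σ).2 i * ((rot σ).1 i)⁻¹ * ((rot σ).2 i)⁻¹) =
      (List.ofFn fun i => σ.1 i * σ.2 i * (σ.1 i)⁻¹ * (σ.2 i)⁻¹).rotate 1 := by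
    refine List.ext_getElem (by simp) fun i h1 h2 => ?_
    simp only [List.getElem_ofFn, List.getElem_rotate, rot, Function.comp_apply, List.length_ofFn]
    have hi : finRotate (n + 1) ⟨i, by simpa using h1⟩ = ⟨(i + 1) % (n + 1), Nat.mod_lt _ n.succ_pos⟩ := by
      rw [finRotate_apply]
      ext
      simp [Fin.val_add]
    rw [hi]
  rw [e]
  exact List.prod_rotate_eq_one_of_prod_eq_one h 1

lemma rot_iterate {G : Type*} [Group G] {σ : Handles n G} (h : relator σ = 1) :
    ∀ k : ℕ, relator (rot^[k] σ) = 1
  | 0 => h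
  | k + 1 => by rw [Function.iterate_succ_apply']; exact rot_relator (rot_iterate h k)

lemma rotInv_eq_iterate {G : Type*} (σ : Handles n G) : rotInv σ = rot^[n] σ := by
  have key : ∀ k : ℕ, rot^[k] σ =
      (σ.1 ∘ (finRotate (n + 1))^[k], σ.2 ∘ (finRotate (n + 1))^[k]) := by
    intro k
    induction k with
    | zero => rfl
    | succ k ih =>
      rw [Function.iterate_succ_apply', ih, Function.iterate_succ]
      simp [rot, Function.comp_assoc]
  have hs : ((finRotate (n + 1))^[n] : Fin (n + 1) → Fin (n + 1)) = (finRotate (n + 1)).symm := by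
    funext i
    rw [Equiv.eq_symm_apply, ← Function.iterate_succ_apply' (finRotate (n + 1))]
    have : ∀ k : ℕ, ((finRotate (n + 1))^[k] i : ℕ) = (i + k) % (n + 1) := by
      intro k
      induction k with
      | zero => simp [Nat.mod_eq_of_lt i.isLt]
      | succ k ih => simp [Function.iterate_succ_apply', Fin.val_add, ih, add_assoc]
    ext
    rw [this]
    simp [Nat.mod_eq_of_lt i.isLt]
  rw [key, hs]
  rfl

lemma rotInv_relator {G : Type*} [Group G] {σ : Handles n G} (h : relator σ = 1) :
    relator (rotInv σ) = 1 := by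
  rw [rotInv_eq_iterate]; exact rot_iterate h n

lemma gens_rot (σ : Handles n (SLC r)) (v : Fin (n + 1) × Bool) :
    gens (rot σ) v = gens σ (finRotate (n + 1) v.1, v.2) := rfl

/-- The generators as elements of the group. -/
def gensU (σ : Handles n (SLC r)) (v : Fin (n + 1) × Bool) : SLC r :=
  if v.2 then σ.2 v.1 else σ.1 v.1

lemma gensU_val (σ : Handles n (SLC r)) (v : Fin (n + 1) × Bool) :
    (gensU σ v).val = gens σ v := by
  simp only [gensU, gens]; split_ifs <;> rfl

/-- Variations of the last handles preserve the kernel of their commutation map. -/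
def FirstOrd (σ : Handles n (SLC r)) : Prop :=
  ∀ τ : Var n r → ℂ, relD σ τ = 0 → ∀ e : Mat r, (∀ v, Commute (tgens σ v) e) →
    ∀ φ : (Fin n × Bool → Mat r) →ₗ[ℂ] ℂ, (∀ u, φ (commL (tgens σ) u) = 0) →
      φ (fun v => e * (tgens σ v * tl (matOf τ (v.1.succ, v.2))) -
        tgens σ v * tl (matOf τ (v.1.succ, v.2)) * e) = 0

lemma commute_inv_val {g : SLC r} {Y : Mat r} (h : Commute g.val Y) : Commute g⁻¹.val Y := by
  refine adj_fix ?_
  rw [inv_inv, h.eq, Matrix.mul_assoc, val_mul_inv, Matrix.mul_one]

lemma commute_comm {a b : SLC r} {Y : Mat r} (ha : Commute a.val Y) (hb : Commute b.val Y) :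
    Commute (a * b * a⁻¹ * b⁻¹).val Y := by
  simp only [Matrix.SpecialLinearGroup.coe_mul]
  exact ((ha.mul_left hb).mul_left (commute_inv_val ha)).mul_left (commute_inv_val hb)

lemma commute_list_prod : ∀ {k : ℕ} (f : Fin k → SLC r) {Y : Mat r},
    (∀ i, Commute (f i).val Y) → Commute (List.ofFn f).prod.val Y
  | 0, _, _, _ => by simp
  | k + 1, f, Y, h => by
    rw [List.ofFn_succ, List.prod_cons, Matrix.SpecialLinearGroup.coe_mul]
    exact (h 0).mul_left (commute_list_prod _ fun i => h i.succ)

lemma commute_comm_zero {σ : Handles n (SLC r)} (hσ : relator σ = 1) {Y : Mat r}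
    (h : ∀ v, Commute (tgens σ v) Y) : Commute (comm σ 0).val Y := by
  rw [relator_comm, List.ofFn_succ, List.prod_cons, mul_eq_one_iff_eq_inv] at hσ
  rw [hσ]
  exact commute_inv_val (commute_list_prod _ fun i =>
    commute_comm (h (i, false)) (h (i, true)))

/-- The commutator of the first handle is not scalar. -/
def NonScalar (σ : Handles n (SLC r)) : Prop := ∀ c : ℂ, (comm σ 0).val ≠ c • 1

/-- The corner map. -/
def cornerL (e : Mat r) : Mat r →ₗ[ℂ] Mat r :=
  LinearMap.mulLeft ℂ e ∘ₗ LinearMap.mulRight ℂ (1 - e)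

lemma corner_adj {g : SLC r} {e X : Mat r} (hg : Commute g.val e)
    (h : e * X = X ∧ X * e = 0) : e * adj g X = adj g X ∧ adj g X * e = 0 := by
  rw [adj_apply]
  refine ⟨?_, ?_⟩
  · rw [← Matrix.mul_assoc, ← Matrix.mul_assoc, ← hg.eq, Matrix.mul_assoc g.val e, h.1]
  · rw [Matrix.mul_assoc _ g⁻¹.val e, (commute_inv_val hg).eq, ← Matrix.mul_assoc,
      Matrix.mul_assoc g.val X e, h.2, Matrix.mul_zero, Matrix.zero_mul]

lemma corner_prodD : ∀ {k : ℕ} (C : Fin k → SLC r) (X : Fin k → Mat r) {e : Mat r},
    (∀ i, Commute (C i).val e) → (∀ i, e * X i = X i ∧ X i * e = 0) →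
      e * prodD C X = prodD C X ∧ prodD C X * e = 0
  | 0, _, _, _, _, _ => by simp [prodD]
  | k + 1, C, X, e, hC, hX => by
    obtain ⟨h1, h2⟩ := corner_adj (hC 0) (corner_prodD (fun i => C i.succ) (fun i => X i.succ)
      (fun i => hC i.succ) fun i => hX i.succ)
    exact ⟨by rw [prodD, mul_add, (hX 0).1, h1], by rw [prodD, add_mul, (hX 0).2, h2, add_zero]⟩

/-- No nontrivial idempotent commutes with the last handles and the first commutator. -/
theorem no_idem_of [NeZero r] (hn : 1 ≤ n) {σ : Handles n (SLC r)}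
    (hNS : 2 ≤ n ∨ ∀ c : ℂ, (comm σ 1).val ≠ c • 1) (hFO : FirstOrd σ) {e : Mat r} (he : e * e = e)
    (hcomm : ∀ v, Commute (tgens σ v) e) (hC0 : Commute (comm σ 0).val e) : e = 0 ∨ e = 1 := by
  classical
  let W := LinearMap.range (cornerL e)
  have hW : ∀ X ∈ W, e * X = X ∧ X * e = 0 := by
    rintro _ ⟨X, rfl⟩
    simp only [cornerL, LinearMap.comp_apply, LinearMap.mulLeft_apply, LinearMap.mulRight_apply]
    refine ⟨by rw [← Matrix.mul_assoc, he], ?_⟩
    rw [Matrix.mul_assoc, Matrix.mul_assoc, sub_mul, Matrix.one_mul, he, sub_self, Matrix.mul_zero,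
      Matrix.mul_zero]
  have hW' : ∀ X, e * X = X → X * e = 0 → X ∈ W := fun X h1 h2 => ⟨X, by
    simp only [cornerL, LinearMap.comp_apply, LinearMap.mulLeft_apply, LinearMap.mulRight_apply]
    rw [mul_sub, Matrix.mul_one, h2, sub_zero, h1]⟩
  let tau : (Fin n × Bool → W) → Var n r → ℂ := fun α v =>
    Fin.cases (motive := fun _ => ℂ) 0 (fun i => (α (i, v.1.2) : Mat r) v.2.1 v.2.2) v.1.1
  have htau0 : ∀ α b, matOf (tau α) (0, b) = 0 := fun α b => by ext; simp [matOf, tau]
  have htau1 : ∀ α (i : Fin n) b, matOf (tau α) (i.succ, b) = (α (i, b) : Mat r) :=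
    fun α i b => by ext; simp [matOf, tau]
  have htr : ∀ X : W, (X : Mat r).trace = 0 := fun X => by
    rw [← (hW X X.2).1, Matrix.trace_mul_comm, (hW X X.2).2, Matrix.trace_zero]
  have hpair : ∀ (a b : SLC r), Commute a.val e → Commute b.val e → ∀ α β : W,
      e * pairD a b α β = pairD a b α β ∧ pairD a b α β * e = 0 := by
    intro a b ha hb α β
    have hab : Commute (a * b).val e := by
      rw [Matrix.SpecialLinearGroup.coe_mul]; exact ha.mul_left hb
    have haba : Commute (a * b * a⁻¹).val e := by
      rw [Matrix.SpecialLinearGroup.coe_mul]; exact hab.mul_left (commute_inv_val ha)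
    obtain ⟨p1, q1⟩ := corner_adj ha (hW α α.2)
    obtain ⟨p2, q2⟩ := corner_adj hab (hW β β.2)
    obtain ⟨p3, q3⟩ := corner_adj hab (hW α α.2)
    obtain ⟨p4, q4⟩ := corner_adj haba (hW β β.2)
    exact ⟨by simp only [pairD, mul_add, mul_sub, p1, p2, p3, p4],
      by simp [pairD, add_mul, sub_mul, q1, q2, q3, q4]⟩
  have hrel : ∀ α, relD σ (tau α) ∈ W := fun α => by
    have h0 : pairD (σ.1 0) (σ.2 0) (0 : Mat r) 0 = 0 := by simp [pairD]
    have hzero : tl (0 : Mat r) = 0 := by simp [tl]
    obtain ⟨h1, h2⟩ : e * relD σ (tau α) = relD σ (tau α) ∧ relD σ (tau α) * e = 0 := by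
      refine corner_prodD _ _ (Fin.cases hC0 fun i =>
        commute_comm (hcomm (i, false)) (hcomm (i, true))) (Fin.cases ?_ fun i => ?_)
      · simp [htau0, hzero, h0]
      · simp only [htau1, tl_of_trace (htr _)]
        exact hpair _ _ (hcomm (i, false)) (hcomm (i, true)) _ _
    exact hW' _ h1 h2
  have hadd : ∀ α β, relD σ (tau (α + β)) = relD σ (tau α) + relD σ (tau β) := fun α β => by
    rw [relD, relD, relD, ← prodD_add]
    congr 1
    funext i
    induction i using Fin.cases with
    | zero => simp [htau0, tl, pairD]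
    | succ i =>
      simp only [Pi.add_apply, htau1, tl_of_trace (htr _)]
      simp only [Submodule.coe_add, pairD, map_add]
      abel
  have hsmul : ∀ (c : ℂ) α, relD σ (tau (c • α)) = c • relD σ (tau α) := fun c α => by
    rw [relD, relD, ← prodD_smul]
    congr 1
    funext i
    induction i using Fin.cases with
    | zero => simp [htau0, tl, pairD]
    | succ i =>
      simp only [Pi.smul_apply, htau1, tl_of_trace (htr _)]
      simp only [Submodule.coe_smul, pairD, map_smul, smul_add, smul_sub]
  let L : (Fin n × Bool → W) →ₗ[ℂ] W :=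
    { toFun := fun α => ⟨relD σ (tau α), hrel α⟩
      map_add' := fun α β => Subtype.ext (hadd α β)
      map_smul' := fun c α => Subtype.ext (hsmul c α) }
  let Ψ : W →ₗ[ℂ] (Fin n × Bool → Mat r) :=
    { toFun := fun X v => (gensU σ (v.1.succ, v.2))⁻¹.val * commL (tgens σ) (X : Mat r) v
      map_add' := fun X Y => by funext v; simp [mul_add]
      map_smul' := fun c X => by funext v; simp }
  let ι : (Fin n × Bool → W) →ₗ[ℂ] (Fin n × Bool → Mat r) :=
    LinearMap.pi fun v => W.subtype ∘ₗ LinearMap.proj v
  have hι : Function.Injective ι := fun α β h => funext fun v => Subtype.ext (congrFun h v)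
  have hrange : Submodule.map ι (LinearMap.ker L) ≤ LinearMap.range Ψ := by
    rintro _ ⟨α, hα, rfl⟩
    have hα' : relD σ (tau α) = 0 := congrArg Subtype.val (LinearMap.mem_ker.1 hα)
    set g := tgens σ with hg
    obtain ⟨X, hX⟩ : (fun v => g v * (α v : Mat r)) ∈ LinearMap.range (commL g) := by
      by_contra hc
      obtain ⟨φ, hφ, hφ0⟩ := Submodule.exists_dual_map_eq_bot_of_notMem hc inferInstance
      refine hφ ?_
      have h := hFO (tau α) hα' e hcomm φ fun u => by
        have h := Submodule.mem_map_of_mem (f := φ) (LinearMap.mem_range_self (commL g) u)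
        rw [hφ0] at h
        simpa using h
      convert h using 2
      funext v
      rw [htau1, tl_of_trace (htr _), ← Matrix.mul_assoc e, ← (hcomm v).eq, Matrix.mul_assoc _ e,
        (hW _ (α v).2).1, Matrix.mul_assoc _ _ e, (hW _ (α v).2).2, Matrix.mul_zero, sub_zero]
    refine ⟨⟨cornerL e X, LinearMap.mem_range_self _ X⟩, funext fun v => ?_⟩
    have hv : X * g v - g v * X = g v * (α v : Mat r) := congrFun hX v
    have hc : cornerL e X * g v - g v * cornerL e X = g v * (α v : Mat r) := by
      have hge := hcomm v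
      have hge' : Commute (g v) (1 - e) := (Commute.one_right _).sub_right hge
      have e1 := congrArg (fun Z => e * (Z * (1 - e))) hv
      simp only [cornerL, LinearMap.comp_apply, LinearMap.mulLeft_apply, LinearMap.mulRight_apply]
      calc e * (X * (1 - e)) * g v - g v * (e * (X * (1 - e)))
          = e * ((X * g v - g v * X) * (1 - e)) := by
            generalize 1 - e = f at hge' ⊢
            simp only [Matrix.mul_assoc, sub_mul, mul_sub, ← hge'.eq]
            simp only [← Matrix.mul_assoc, hge.eq]
        _ = e * (g v * (α v : Mat r) * (1 - e)) := e1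
        _ = g v * (α v : Mat r) := by
          rw [mul_sub, Matrix.mul_one, Matrix.mul_assoc (g v) _ e, (hW _ (α v).2).2,
            Matrix.mul_zero, sub_zero, ← Matrix.mul_assoc e, ← hge.eq, Matrix.mul_assoc,
            (hW _ (α v).2).1]
    show (gensU σ (v.1.succ, v.2))⁻¹.val * commL (tgens σ) (cornerL e X) v = (α v : Mat r)
    change _ * (cornerL e X * g v - g v * cornerL e X) = _
    rw [hc, ← Matrix.mul_assoc, show g v = (gensU σ (v.1.succ, v.2)).val from (gensU_val _ _).symm,
      val_inv_mul, Matrix.one_mul]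
  have hd := Submodule.finrank_mono hrange
  rw [LinearEquiv.finrank_eq (Submodule.equivMapOfInjective ι hι _).symm] at hd
  have h1 := LinearMap.finrank_range_add_finrank_ker L
  have h2 := LinearMap.finrank_range_add_finrank_ker Ψ
  have h3 := Submodule.finrank_le (LinearMap.range L)
  rw [Module.finrank_pi_fintype, Finset.sum_const, Finset.card_univ, Fintype.card_prod,
    Fintype.card_fin, Fintype.card_bool, smul_eq_mul] at h1
  by_contra hcon
  push Not at hcon
  obtain ⟨p, i, hp⟩ : ∃ p i, e p i ≠ 0 := by
    by_contra h; push Not at h; exact hcon.1 (Matrix.ext h)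
  obtain ⟨j, q, hq⟩ : ∃ j q, (1 - e) j q ≠ 0 := by
    by_contra h; push Not at h
    exact hcon.2 (sub_eq_zero.1 (Matrix.ext h : (1 - e) = 0)).symm
  have hentry : ∀ (P Q : Mat r) (a x y b : Fin r),
      (P * Matrix.single x y (1 : ℂ) * Q) a b = P a x * Q y b := fun P Q a x y b => by
    rw [Matrix.mul_apply, Finset.sum_eq_single y (fun k _ hk => by
      rw [Matrix.mul_single_apply_of_ne (hbj := hk), zero_mul]) (by simp),
      Matrix.mul_single_apply_same, mul_one]
  rcases Nat.lt_or_ge n 2 with hn1 | hn2
  · obtain rfl : n = 1 := by omega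
    have hns := hNS.resolve_left (by omega)
    have hRle : Module.finrank ℂ (LinearMap.range Ψ) ≤
        Module.finrank ℂ (Submodule.map ι (LinearMap.ker L)) := by
      rw [LinearEquiv.finrank_eq (Submodule.equivMapOfInjective ι hι _).symm]
      omega
    have heqR := Submodule.eq_of_le_of_finrank_le hrange hRle
    have hfix : ∀ X : W, adj (comm σ 1) (X : Mat r) = (X : Mat r) := by
      intro X
      have hXm : Ψ X ∈ Submodule.map ι (LinearMap.ker L) :=
        heqR.symm ▸ LinearMap.mem_range_self Ψ X
      obtain ⟨α, hα, hαX⟩ := hXm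
      have h0 : relD σ (tau α) = 0 := congrArg Subtype.val (LinearMap.mem_ker.1 hα)
      have hval : ∀ b : Bool, (α (0, b) : Mat r) =
          adj (gensU σ (1, b))⁻¹ (X : Mat r) - (X : Mat r) := fun b => by
        have hg : gens σ (1, b) = (gensU σ (1, b)).val := (gensU_val σ _).symm
        have := congrFun hαX (0, b)
        change (α (0, b) : Mat r) = (gensU σ (1, b))⁻¹.val *
          ((X : Mat r) * gens σ (1, b) - gens σ (1, b) * (X : Mat r)) at this
        rw [this, adj_apply, inv_inv, hg, mul_sub, ← Matrix.mul_assoc, ← Matrix.mul_assoc,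
          val_inv_mul, Matrix.one_mul]
      simp only [relD, prodD, map_zero, add_zero, Fin.succ_zero_eq_one] at h0
      rw [htau0, htau0, ← Fin.succ_zero_eq_one, htau1, htau1, tl_of_trace (htr _),
        tl_of_trace (htr _), hval, hval, Fin.succ_zero_eq_one] at h0
      simp only [gensU, Bool.false_eq_true, if_false, if_true, tl, pairD, Matrix.trace_zero,
        zero_div, zero_smul, sub_zero, map_zero, add_zero, sub_self, zero_add] at h0
      have h1 := congrArg (adj (comm σ 0)⁻¹) h0
      have hcc : ∀ (g h : SLC r) (Z : Mat r), adj g (adj h Z) = adj (g * h) Z := fun g h Z => by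
        simp only [adj_apply, Matrix.SpecialLinearGroup.coe_mul, _root_.mul_inv_rev,
          Matrix.mul_assoc]
      simp only [map_sub, map_add, map_zero, hcc, ← mul_assoc, inv_mul_cancel, one_mul,
        mul_inv_cancel, mul_inv_cancel_right, inv_mul_cancel_right] at h1
      have hone : adj (1 : SLC r) (X : Mat r) = (X : Mat r) := by simp [adj_apply]
      rw [hone] at h1
      rw [comm, eq_comm, ← sub_eq_zero, ← h1]
      abel
    have hcW : ∀ Y : Mat r, (comm σ 1).val * (e * (Y * (1 - e))) =
        e * (Y * (1 - e)) * (comm σ 1).val := fun Y => by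
      have := hfix ⟨cornerL e Y, LinearMap.mem_range_self _ Y⟩
      simp only [cornerL, LinearMap.comp_apply, LinearMap.mulLeft_apply,
        LinearMap.mulRight_apply, adj_apply] at this
      conv_rhs => rw [← this]
      rw [Matrix.mul_assoc _ (comm σ 1)⁻¹.val, val_inv_mul, Matrix.mul_one]
    set c := (comm σ 1).val with hc
    have hce : Commute c e := commute_comm (hcomm (0, false)) (hcomm (0, true))
    have hent : ∀ a x y b, (c * e) a x * (1 - e) y b = e a x * ((1 - e) * c) y b := by
      intro a x y b
      have h := congrFun (congrFun (hcW (Matrix.single x y 1)) a) b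
      rw [← hentry (c * e) (1 - e), ← hentry e ((1 - e) * c)]
      simp only [Matrix.mul_assoc] at h ⊢
      exact h
    set lam := ((1 - e) * c) j q / (1 - e) j q with hlam
    have h1 : ∀ a x, (c * e) a x = e a x * lam := fun a x => by
      rw [hlam, ← mul_div_assoc, eq_div_iff hq]
      exact hent a x j q
    have h2 : ∀ y b, ((1 - e) * c) y b = lam * (1 - e) y b := fun y b => by
      refine mul_left_cancel₀ hp ?_
      rw [← hent, h1]
      ring
    have hcs : c = lam • (1 : Mat r) := by
      have hsum : c = c * e + (1 - e) * c := by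
        rw [sub_mul, Matrix.one_mul, hce.eq]; abel
      rw [hsum]
      ext a b
      rw [Matrix.add_apply, h1, h2, Matrix.smul_apply, smul_eq_mul, Matrix.sub_apply]
      ring
    exact hns lam hcs
  · have hmul : 4 * Module.finrank ℂ W ≤ n * 2 * Module.finrank ℂ W :=
      Nat.mul_le_mul_right _ (by omega)
    have hd0 : Module.finrank ℂ W = 0 := by omega
    rw [Submodule.finrank_eq_zero, LinearMap.range_eq_bot] at hd0
    have := congrFun (congrFun (LinearMap.congr_fun hd0 (Matrix.single i j 1)) p) q
    simp only [cornerL, LinearMap.comp_apply, LinearMap.mulLeft_apply, LinearMap.mulRight_apply,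
      LinearMap.zero_apply, Matrix.zero_apply] at this
    rw [← Matrix.mul_assoc, hentry] at this
    exact mul_ne_zero hp hq this

/-- With two handles the second commutator is not scalar if the first is not. -/
lemma nonScalar_one [NeZero r] (hn : n = 1) {σ : Handles n (SLC r)} (hσ : relator σ = 1)
    (h : NonScalar σ) (c : ℂ) : (comm σ 1).val ≠ c • 1 := by
  subst hn
  intro hc
  have hc1 : comm σ 0 * comm σ 1 = 1 := by
    rw [relator_comm, List.ofFn_succ, List.prod_cons, List.ofFn_succ, List.prod_cons,
      List.ofFn_zero, List.prod_nil, mul_one] at hσ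
    exact hσ
  have h' := congrArg Subtype.val hc1
  rw [Matrix.SpecialLinearGroup.coe_mul, Matrix.SpecialLinearGroup.coe_one, hc, mul_smul_comm,
    Matrix.mul_one] at h'
  rcases eq_or_ne c 0 with h0 | h0
  · rw [h0, zero_smul] at h'
    exact absurd (congrFun (congrFun h' 0) 0) (by simp)
  · exact h c⁻¹ (by rw [← h', inv_smul_smul₀ h0])

/-- No nontrivial idempotent commutes with the last handles. -/
theorem no_idem [NeZero r] (hn : 1 ≤ n) {σ : Handles n (SLC r)} (hσ : relator σ = 1)
    (hNS : 2 ≤ n ∨ NonScalar σ) (hFO : FirstOrd σ) {e : Mat r} (he : e * e = e)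
    (hcomm : ∀ v, Commute (tgens σ v) e) : e = 0 ∨ e = 1 :=
  no_idem_of hn
    ((le_or_gt 2 n).imp_right fun h2 c hc =>
      nonScalar_one (by omega) hσ (hNS.resolve_left (by omega)) c hc)
    hFO he hcomm (commute_comm_zero hσ hcomm)

end Vale.Agent.P002
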