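import Vale.Agent.P002.SeedTwo
import Vale.Agent.P002.NoIdem

/-!
Twist flows along powers and after rotating the handles, for two handles.
-/

namespace Vale.Agent.P002

open Matrix MvPolynomial
open scoped ContDiff Matrix.Norms.Operator

variable {r n : ℕ}

lemma commute_expT_pow (t : ℂ) (W : SLC r) (e : ℕ) : Commute W (expT t (W ^ e)) := by
  refine Subtype.ext ?_
  rw [Matrix.SpecialLinearGroup.coe_mul, Matrix.SpecialLinearGroup.coe_mul]
  have h : Commute W.val (W ^ e).val := by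
    rw [Matrix.SpecialLinearGroup.coe_pow]; exact (Commute.refl _).pow_right e
  exact ((h.sub_right ((Commute.one_right _).smul_right _)).smul_right t).exp_right

lemma twist_exp_pow_mem (hr : r ≠ 0) {ρ : Handles n (SLC r)} (hρ : ρ ∈ Zd n r)
    (hW : GoodW (ρ.1 0).val) (t : ℂ) (e : ℕ) : twist ρ (expT t (ρ.1 0 ^ e)) ∈ Zd n r := by
  refine ⟨by rw [twist_relator ρ (commute_expT_pow t _ e), hρ.1], fun P hP => ?_⟩
  obtain ⟨U, lam, hind, hW⟩ := hW
  let q : Var n r → MvPolynomial (Fin r) ℂ := fun v => if v.1 = (0, true) then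
    ∑ j, C (((ρ.2 0).val * U.val) v.2.1 j) * X j * C ((U⁻¹).val j v.2.2) else C (coord ρ v)
  have key : ∀ (μ : Fin r → ℂ) (z : SLC r), z.val = U.val * diagonal μ * (U⁻¹).val →
      eval μ (bind₁ q P) = eval (coord (twist ρ z)) P := by
    intro μ z hz
    rw [eval, eval₂Hom_bind₁]
    refine congrArg (fun f => eval₂Hom (RingHom.id ℂ) f P) (funext fun v => ?_)
    obtain ⟨⟨i, b⟩, a, c⟩ := v
    by_cases h : (i, b) = ((0 : Fin (n + 1)), true)
    · obtain ⟨rfl, rfl⟩ := Prod.mk.injEq .. ▸ h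
      simp only [q, if_true, coord, twist, Function.update_self, Matrix.SpecialLinearGroup.coe_mul,
        hz, map_sum, map_mul, eval₂Hom_C, eval₂Hom_X', RingHom.id_apply, ← Matrix.mul_assoc]
      rw [Matrix.mul_apply]
      simp [Matrix.mul_diagonal]
    · have hb : coord (twist ρ z) ((i, b), a, c) = coord ρ ((i, b), a, c) := by
        cases b
        · simp [coord, twist]
        · have : i ≠ 0 := fun e => h (by rw [e])
          simp [coord, twist, this]
      simp only [q, if_neg h, eval₂Hom_C, RingHom.id_apply, hb]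
  have hpow : ∀ m : ℕ, ((ρ.1 0) ^ m).val = U.val * diagonal (fun i => lam i ^ m) * (U⁻¹).val :=
    fun m => by
    rw [Matrix.SpecialLinearGroup.coe_pow, hW, Units.conj_pow, Matrix.diagonal_pow]
    rfl
  have hmem : ∀ m : ℕ, eval (fun i => lam i ^ m) (bind₁ q P) = 0 := fun m => by
    rw [key _ _ (hpow m)]
    exact (twist_pow_mem hρ m).2 P hP
  set ν : Fin r → ℂ := fun i => lam i ^ e with hν
  have hWe : (ρ.1 0 ^ e).val = U.val * diagonal ν * (U⁻¹).val := hpow e
  set μ : Fin r → ℂ := fun i => Complex.exp (t * (ν i - (∑ j, ν j) / r)) with hμ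
  have htl : (expT t (ρ.1 0 ^ e)).val = U.val * diagonal μ * (U⁻¹).val := by
    generalize ρ.1 0 ^ e = W at hWe ⊢
    have he : t • tl W.val =
        U.val * diagonal (fun i => t * (ν i - (∑ j, ν j) / r)) * (U⁻¹).val := by
      have htr : W.val.trace = ∑ j, ν j := by
        rw [hWe, Matrix.trace_mul_comm, ← Matrix.mul_assoc, Units.inv_mul, Matrix.one_mul,
          Matrix.trace_diagonal]
      rw [tl, htr, hWe, show (fun i => t * (ν i - (∑ j, ν j) / r)) =
        t • (fun i => ν i - (∑ j, ν j) / (r : ℂ)) from rfl, Matrix.diagonal_smul,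
        mul_smul_comm, smul_mul_assoc t (U.val * diagonal _), ← Matrix.diagonal_sub, mul_sub,
        sub_mul]
      congr 2
      rw [← Matrix.smul_one_eq_diagonal, mul_smul_comm, mul_one, smul_mul_assoc, Units.mul_inv]
    rw [show (expT t W).val = NormedSpace.exp (t • tl W.val) from rfl, he,
      Matrix.exp_units_conj, Matrix.exp_diagonal]
    congr 3
    funext i
    simp [hμ, Complex.exp_eq_exp_ℂ]
  rw [← key μ _ htl]
  refine eval_eq_zero_of_powers hind ?_ hmem
  rw [hμ, ← Complex.exp_sum, ← Finset.mul_sum, Finset.sum_sub_distrib, Finset.sum_const,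
    Finset.card_univ, Fintype.card_fin, nsmul_eq_mul,
    mul_div_cancel₀ _ (Nat.cast_ne_zero.2 hr), sub_self, mul_zero, Complex.exp_zero]

lemma rot_mem {ρ : Handles n (SLC r)} (hρ : ρ ∈ Zd n r) : rot ρ ∈ Zd n r :=
  polyCl_apply (T := fun σ => rot σ) (fun i => allS_id (finRotate (n + 1) i))
    (fun _ h => rot_relator h) (fun σ h => ⟨rot σ, rot_relator h, rfl⟩) hρ

lemma rot_iterate_mem {ρ : Handles n (SLC r)} (hρ : ρ ∈ Zd n r) : ∀ k : ℕ, rot^[k] ρ ∈ Zd n r
  | 0 => hρ
  | k + 1 => by rw [Function.iterate_succ_apply']; exact rot_mem (rot_iterate_mem hρ k)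

lemma rotInv_mem {ρ : Handles n (SLC r)} (hρ : ρ ∈ Zd n r) : rotInv ρ ∈ Zd n r := by
  rw [rotInv_eq_iterate]; exact rot_iterate_mem hρ n

/-- Bring the twisting curve to the first generator. -/
def pre2 {G : Type*} [Group G] : Mv → Handles 1 G → Handles 1 G
  | (some k, _), ρ => bwds (rep1 k) ρ
  | (none, _), ρ => rot ρ

/-- Undo it. -/
def post2 {G : Type*} [Group G] : Mv → Handles 1 G → Handles 1 G
  | (some k, _), ρ => fwds (rep1 k) ρ
  | (none, _), ρ => rotInv ρ

lemma post2_pre2 {G : Type*} [Group G] : ∀ (j : Mv) (ρ : Handles 1 G), post2 j (pre2 j ρ) = ρ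
  | (some k, _), ρ => fwds_bwds _ ρ
  | (none, _), ρ => rotInv_rot ρ

/-- A conjugated twist along a power. -/
noncomputable def stp2 (j : Mv) (t : ℂ) (ρ : Handles 1 (SLC r)) : Handles 1 (SLC r) :=
  post2 j (twist (pre2 j ρ) (expT t ((pre2 j ρ).1 0 ^ (j.2 + 1))))

/-- Successive conjugated twists along powers. -/
noncomputable def flow2 : ∀ {N : ℕ}, (Fin N → Mv) → (Fin N → ℂ) →
    Handles 1 (SLC r) → Handles 1 (SLC r)
  | 0, _, _, ρ => ρ
  | _ + 1, L, t, ρ => stp2 (L 0) (t 0) (flow2 (fun i => L i.succ) (fun i => t i.succ) ρ)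

lemma stp2_zero (j : Mv) (ρ : Handles 1 (SLC r)) : stp2 j 0 ρ = ρ := by
  rw [stp2, expT_zero, twist, mul_one, Function.update_eq_self]
  exact post2_pre2 j ρ

lemma flow2_zero : ∀ {N : ℕ} (L : Fin N → Mv) (ρ : Handles 1 (SLC r)), flow2 L 0 ρ = ρ
  | 0, _, _ => rfl
  | N + 1, L, ρ => by
    rw [flow2, Pi.zero_apply, stp2_zero]
    exact flow2_zero (fun i => L i.succ) ρ

lemma flow2_single : ∀ {N : ℕ} (L : Fin N → Mv) (k : Fin N) (s : ℂ) (ρ : Handles 1 (SLC r)),
    flow2 L (Pi.single k s) ρ = stp2 (L k) s ρ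
  | 0, _, k, _, _ => k.elim0
  | N + 1, L, k, s, ρ => by
    rw [flow2]
    induction k using Fin.cases with
    | zero =>
      rw [show (fun i : Fin N => (Pi.single 0 s : Fin (N + 1) → ℂ) i.succ) = 0 by
        funext i; simp [Fin.succ_ne_zero], flow2_zero, Pi.single_eq_same]
    | succ j =>
      rw [show (fun i : Fin N => (Pi.single j.succ s : Fin (N + 1) → ℂ) i.succ) = Pi.single j s by
        funext i; simp [Pi.single_apply], flow2_single, Pi.single_eq_of_ne (Fin.succ_ne_zero j).symm,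
        stp2_zero]

variable {X : Type*} [NormedAddCommGroup X] [NormedSpace ℂ X]

lemma smooth_pre2 {σ : X → Handles 1 (SLC r)} (hσ : SmoothH σ) :
    ∀ j : Mv, SmoothH fun x => pre2 j (σ x)
  | (some k, _) => smooth_stable.bwds (rep1 k) hσ
  | (none, _) => fun i => hσ (finRotate 2 i)

lemma smooth_post2 {σ : X → Handles 1 (SLC r)} (hσ : SmoothH σ) :
    ∀ j : Mv, SmoothH fun x => post2 j (σ x)
  | (some k, _) => smooth_stable.fwds (rep1 k) hσ
  | (none, _) => fun i => hσ ((finRotate 2).symm i)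

lemma smooth_pow {f : X → SLC r} (h : Smooth fun x => (f x).val) :
    ∀ e : ℕ, Smooth fun x => (f x ^ e).val
  | 0 => by simpa using Smooth.const (1 : Mat r)
  | e + 1 => by simp only [pow_succ]; exact (smooth_pow h e).mul h

lemma smooth_stp2 {σ : X → Handles 1 (SLC r)} (hσ : SmoothH σ) {t : X → ℂ}
    (ht : ContDiff ℂ ω t) (j : Mv) : SmoothH fun x => stp2 j (t x) (σ x) := by
  have hb := smooth_pre2 hσ j
  have hz : Smooth fun x => (expT (t x) ((pre2 j (σ x)).1 0 ^ (j.2 + 1))).val :=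
    Smooth.exp fun a b => ht.mul ((Smooth.tl (smooth_pow (hb 0).1 _)) a b)
  refine smooth_post2 (σ := fun x =>
    twist (pre2 j (σ x)) (expT (t x) ((pre2 j (σ x)).1 0 ^ (j.2 + 1))))
    (fun i => ⟨(hb i).1, ?_⟩) j
  by_cases h : i = 0
  · subst h
    simp only [twist, Function.update_self]
    exact smooth_stable.mul _ _ (hb 0).2 hz
  · simp only [twist, Function.update_of_ne h]
    exact (hb i).2

lemma smooth_flow2 : ∀ {N : ℕ} (L : Fin N → Mv) {σ : X → Handles 1 (SLC r)}
    {t : X → Fin N → ℂ}, SmoothH σ → (∀ k, ContDiff ℂ ω fun x => t x k) →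
    SmoothH fun x => flow2 L (t x) (σ x)
  | 0, _, _, _, h, _ => h
  | N + 1, L, σ, t, h, ht => by
    simp only [flow2]
    exact smooth_stp2 (smooth_flow2 (fun i => L i.succ) h fun k => ht k.succ) (ht 0) (L 0)

lemma pre2_mem {ρ : Handles 1 (SLC r)} (hρ : ρ ∈ Zd 1 r) : ∀ j : Mv, pre2 j ρ ∈ Zd 1 r
  | (some k, _) => bwds_mem (rep1 k) hρ
  | (none, _) => rot_mem hρ

lemma post2_mem {ρ : Handles 1 (SLC r)} (hρ : ρ ∈ Zd 1 r) : ∀ j : Mv, post2 j ρ ∈ Zd 1 r
  | (some k, _) => fwds_mem (rep1 k) hρ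
  | (none, _) => rotInv_mem hρ

lemma stp2_mem (hr : r ≠ 0) {σ : ℂ → Handles 1 (SLC r)} (hσ : SmoothH σ)
    (hmem : ∀ s, σ s ∈ Zd 1 r) (j : Mv) (h0 : Avoids ((pre2 j (σ 0)).1 0).val)
    (c : ℂ) (s : ℂ) : stp2 j (s * c) (σ s) ∈ Zd 1 r := by
  have hgood : ∀ u, GoodW ((pre2 j (σ u)).1 0).val → stp2 j (u * c) (σ u) ∈ Zd 1 r := fun u hu =>
    post2_mem (twist_exp_pow_mem hr (pre2_mem (hmem u) j) hu _ _) j
  have hsm := smooth_stp2 hσ (t := fun u : ℂ => u * c) (contDiff_id.mul contDiff_const) j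
  have hb := (smooth_pre2 hσ j 0).1
  have hd : Dense {u | ∀ q : {p : (Fin r → ℕ) × (Fin r → ℕ) // ¬ ConstDiff p.1 p.2},
      eval (fun p => ((pre2 j (σ u)).1 0).val p.1 p.2) (entryPoly q.1.1 q.1.2) ≠ 0} :=
    dense_avoid _ (fun q => (contDiff_eval
      (f := fun u (p : Fin r × Fin r) => ((pre2 j (σ u)).1 0).val p.1 p.2)
      (fun p => hb p.1 p.2) _).differentiable (by simp)) fun q => h0 q.1.1 q.1.2 q.2
  refine ⟨?_, fun P hP => ?_⟩
  · have hone : ∀ a b, (fun u : ℂ => (relator (stp2 j (u * c) (σ u))).val a b) =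
        fun _ : ℂ => (1 : SLC r).val a b := fun a b =>
      Continuous.ext_on hd ((smooth_relator hsm) a b).continuous continuous_const fun u hu => by
        beta_reduce
        rw [(hgood u (goodW_of_avoids fun d d' h => hu ⟨(d, d'), h⟩)).1]
    exact Subtype.ext (Matrix.ext fun a b => congrFun (hone a b) s)
  · refine congrFun ((contDiff_eval (contDiff_pi.1 (SmoothH.coord hsm)) P).continuous.ext_on hd
      continuous_const fun u hu => ?_) s
    exact (hgood u (goodW_of_avoids fun d d' h => hu ⟨(d, d'), h⟩)).2 P hP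

lemma rot_base {G : Type*} [Group G] (A : Fin 2 → G) :
    rot ((A, fun _ => 1) : Handles 1 G) = (A ∘ finRotate 2, fun _ => 1) := rfl

lemma flow2_mem (hr : r ≠ 0) {A : Fin 2 → SLC r} (hA : Seed2 A) :
    ∀ {N : ℕ} (L : Fin N → Mv) (t : Fin N → ℂ) {σ : ℂ → Handles 1 (SLC r)},
      SmoothH σ → (∀ s, σ s ∈ Zd 1 r) → σ 0 = (A, fun _ => 1) →
      ∀ s : ℂ, flow2 L (s • t) (σ s) ∈ Zd 1 r
  | 0, _, _, σ, _, h, _, s => h s
  | N + 1, L, t, σ, hσ, h, h0, s => by
    let σ' : ℂ → Handles 1 (SLC r) := fun u =>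
      flow2 (fun i => L i.succ) (u • fun i => t i.succ) (σ u)
    have hσ'0 : σ' 0 = (A, fun _ => 1) := by simp [σ', flow2_zero, h0]
    have hav : Avoids ((pre2 (L 0) (σ' 0)).1 0).val := by
      rw [hσ'0]
      rcases L 0 with ⟨_ | k, m⟩
      · simpa [pre2, rot_base] using hA.goodOne
      · simpa [pre2, bwds_base] using hA.good k
    exact stp2_mem hr (σ := σ') (smooth_flow2 _ hσ fun k => contDiff_id.smul contDiff_const)
      (flow2_mem hr hA _ _ hσ h h0) (L 0) hav (t 0) s

/-- First variation of a conjugated twist at the base point. -/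
lemma hasD_stp2 (A : Fin 2 → SLC r) : ∀ (j : Mv) (i : Fin 2),
    HasD (fun s => ((stp2 j s ((A, fun _ => 1) : Handles 1 (SLC r))).2 i).val) (dir2 A j i)
  | (some k, m), i => by
    set ρ₀ : Handles 1 (SLC r) := bwds (rep1 k) (A, fun _ => 1) with hρ₀
    have hσ : SmoothH fun s : ℂ => twist ρ₀ (expT s (ρ₀.1 0 ^ (m + 1))) := fun i => by
      refine ⟨Smooth.const (ρ₀.1 i).val, ?_⟩
      by_cases hi : i = 0
      · subst hi
        simp only [twist, Function.update_self]
        exact (Smooth.const _).mul (Smooth.exp fun a b => contDiff_id.mul contDiff_const)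
      · simp only [twist, Function.update_of_ne hi]
        exact Smooth.const _
    have h1 := fwds_deriv (rep1 k) hσ (A := Function.update A 0 (A 0 * vw A (rep1 k)))
      (β := Pi.single 0 (tl ((A 0 * vw A (rep1 k)) ^ (m + 1)).val))
      (by simp only [hρ₀, expT_zero, bwds_base, twist, mul_one, Function.update_eq_self])
      (fun j => by
        by_cases hj : j = 0
        · subst hj
          have e : (fun s : ℂ => ((twist ρ₀ (expT s (ρ₀.1 0 ^ (m + 1)))).2 0).val) =
              fun s => (expT s ((A 0 * vw A (rep1 k)) ^ (m + 1))).val :=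
            funext fun s => congrArg Subtype.val (by simp [twist, hρ₀, bwds_base]; rfl)
          rw [e, Pi.single_eq_same]
          exact hasD_exp _
        · simpa [twist, hρ₀, bwds_base, hj] using hasD_const (1 : Mat r)) i
    rw [steps_update] at h1
    exact h1
  | (none, m), i => by
    by_cases hi : i = 1
    · subst hi
      have e : (fun s : ℂ => ((stp2 (none, m) s ((A, fun _ => 1) : Handles 1 (SLC r))).2 1).val) =
          fun s => (expT s (A 1 ^ (m + 1))).val := funext fun s => congrArg Subtype.val (by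
        simp [stp2, pre2, post2, rot_base, rotInv, twist]; rfl)
      rw [e]
      simp only [dir2, Pi.single_eq_same]
      exact hasD_exp _
    · have hi0 : i = 0 := by omega
      subst hi0
      simpa [stp2, pre2, post2, rot_base, rotInv, twist, dir2] using hasD_const (1 : Mat r)

end Vale.Agent.P002
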