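import Vale.Agent.P002.Nbhd
import Vale.Agent.P002.FlowTwo
import Vale.Agent.P002.Burnside

/-!
The neighbourhood theorem for two handles.
-/

namespace Vale.Agent.P002

open Matrix MvPolynomial Filter Topology
open scoped ContDiff

variable {r : ℕ}

/-- The chart for two handles. -/
noncomputable def chart2 (A : Fin 2 → SLC r) {N : ℕ} (L : Fin N → Mv) (p : Par 1 r N) :
    Var 1 r → ℂ :=
  coord (flow2 L p.2 (base A p.1))

/-- With two handles some representation has a neighbourhood in the closure. -/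
theorem exists_nbhd_two (hr : 2 ≤ r) : ∃ A : Fin 2 → SLC r, Seed2 A ∧
    ∀ᶠ g in 𝓝 (coord ((A, fun _ => 1) : Handles 1 (SLC r))),
      ∀ ρ : Handles 1 (SLC r), relator ρ = 1 → coord ρ = g → ρ ∈ Zd 1 r := by
  obtain ⟨A, hseed⟩ := exists_seed2 hr
  refine ⟨A, hseed, ?_⟩
  have hr0 : r ≠ 0 := by omega
  have : NeZero r := ⟨hr0⟩
  obtain ⟨f, hfmem, hfspan, -⟩ :=
    Submodule.exists_fun_fin_finrank_span_eq ℂ (Set.range (dir2 A))
  generalize Module.finrank ℂ (Submodule.span ℂ (Set.range (dir2 A))) = N at f hfmem hfspan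
  choose L hL using hfmem
  let Φ : Par 1 r N → Var 1 r → ℂ := chart2 A L
  have hbase : ∀ p : Par 1 r N, base A p.1 ∈ Zd 1 r := fun p => slice_mem hr _
  have hmem : ∀ p : Par 1 r N, flow2 L p.2 (base A p.1) ∈ Zd 1 r := fun p => by
    have := flow2_mem hr0 hseed L p.2 (σ := fun s => base A (s • p.1))
      (smooth_base A fun i q => by simpa using contDiff_id.mul contDiff_const)
      (fun s => slice_mem hr _) (by rw [zero_smul]; exact base_zero A) 1
    simpa using this
  have hΦ0 : Φ 0 = coord ((A, fun _ => 1) : Handles 1 (SLC r)) := by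
    simp [Φ, chart2, flow2_zero, base_zero]
  have hsmooth : ContDiff ℂ ω Φ := SmoothH.coord <|
    smooth_flow2 L (smooth_base A fun i q => (contDiff_apply_apply ℂ ℂ i q).comp contDiff_fst)
      fun k => (contDiff_apply ℂ ℂ k).comp contDiff_snd
  have hΦd := hsmooth.contDiffAt.hasStrictFDerivAt (x := (0 : Par 1 r N)) (by simp)
  have hFd := (contDiff_cons' (n := 1) (r := r)).contDiffAt.hasStrictFDerivAt (x := Φ 0) (by simp)
  set Ld := fderiv ℂ Φ 0
  set D := fderiv ℂ (cons' (n := 1) (r := r)) (Φ 0)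
  have hconst : ∀ p, cons' (Φ p) = cons' (Φ 0) := fun p =>
    (cons'_coord (hmem p).1).trans (cons'_coord (hmem 0).1).symm
  have hDL : ∀ v, D (Ld v) = 0 := fun v => by
    have h1 : HasFDerivAt (cons' ∘ Φ) (D.comp Ld) 0 :=
      hFd.hasFDerivAt.comp 0 hΦd.hasFDerivAt
    have h2 : HasFDerivAt (cons' ∘ Φ)
        (0 : Par 1 r N →L[ℂ] (Fin 2 × Bool → ℂ) × (Fin r × Fin r → ℂ)) 0 := by
      rw [show cons' ∘ Φ = fun _ => cons' (Φ 0) from funext hconst]
      exact hasFDerivAt_const _ _
    exact congrArg (fun T => T v) (h1.unique h2)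
  have hline : ∀ v, HasDerivAt (fun s : ℂ => Φ (s • v)) (Ld v) 0 := fun v => by
    have h : HasDerivAt (fun s : ℂ => s • v) v 0 := by
      simpa using (hasDerivAt_id (0 : ℂ)).smul_const v
    exact hΦd.hasFDerivAt.comp_hasDerivAt_of_eq 0 h (zero_smul ℂ v).symm
  have hentry : ∀ v i b, HasD (fun s => matOf (Φ (s • v)) (i, b)) (matOf (Ld v) (i, b)) :=
    fun v i b p q => hasDerivAt_pi.1 (hline v) ((i, b), p, q)
  have hstp : ∀ k i, matOf (Ld (0, Pi.single k 1)) (i, true) = dir2 A (L k) i := fun k i => by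
    refine (hentry (0, Pi.single k 1) i true).unique ?_
    have e : ∀ s : ℂ, matOf (Φ (s • ((0 : Fin 2 → Fin r × Fin r → ℂ), Pi.single k 1)))
        (i, true) = ((stp2 (L k) s ((A, fun _ => 1) : Handles 1 (SLC r))).2 i).val := fun s => by
      rw [show s • ((0 : Fin 2 → Fin r × Fin r → ℂ), (Pi.single k 1 : Fin N → ℂ)) =
        (0, Pi.single k s) by simp [Prod.smul_mk, ← Pi.single_smul]]
      simp only [Φ, chart2, flow2_single, base_zero, (matOf_coord _ i).2]
    rw [show (fun s : ℂ => matOf (Φ (s • ((0 : Fin 2 → Fin r × Fin r → ℂ), Pi.single k 1)))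
      (i, true)) = fun s => ((stp2 (L k) s ((A, fun _ => 1) : Handles 1 (SLC r))).2 i).val
      from funext e]
    exact hasD_stp2 A (L k) i
  have hbaseD : ∀ (γ : Fin 2 → Fin r × Fin r → ℂ) i,
      matOf (Ld (γ, 0)) (i, true) = 0 ∧
        matOf (Ld (γ, 0)) (i, false) = (A i).val * tl (Matrix.of fun a b => γ i (a, b)) := by
    intro γ i
    have e : ∀ s : ℂ, Φ (s • (γ, (0 : Fin N → ℂ))) = coord (base A (s • γ)) := fun s => by
      simp [Φ, chart2, Prod.smul_mk, flow2_zero]
    refine ⟨(hentry (γ, 0) i true).unique ?_, (hentry (γ, 0) i false).unique ?_⟩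
    · simp only [e, (matOf_coord _ i).2]
      exact hasD_const _
    · have htl : ∀ s : ℂ, tl (Matrix.of fun a b => (s • γ) i (a, b)) =
          s • tl (Matrix.of fun a b => γ i (a, b)) := fun s => by
        rw [show (Matrix.of fun a b => (s • γ) i (a, b)) =
          s • Matrix.of (fun a b => γ i (a, b)) from rfl]
        simp [tl, Matrix.trace, Finset.mul_sum, Finset.sum_div, smul_sub, smul_smul, mul_div_assoc]
      simp only [e, (matOf_coord _ i).1]
      simp only [base, expM, htl]
      exact ((hasD_const (A i).val).mul (hasD_exp _)).congr (by simp)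
  have hker : ∀ w, D w = 0 → ∃ x, Ld x = w := fun w hw => by
    have hDA : HasStrictFDerivAt cons' D (coord ((A, fun _ => 1) : Handles 1 (SLC r))) := by
      rw [← hΦ0]; exact hFd
    obtain ⟨-, hK⟩ := ker_cons' A hDA hw
    have hb := inK_mem_span2 hseed hK
    rw [← hfspan, Submodule.mem_span_range_iff_exists_fun] at hb
    obtain ⟨c, hc⟩ := hb
    set w₁ := Ld (0, c) with hw₁
    have hw₁b : ∀ i, matOf w₁ (i, true) = matOf w (i, true) := fun i => by
      have e : ((0 : Fin 2 → Fin r × Fin r → ℂ), c) =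
          ∑ k, c k • ((0 : Fin 2 → Fin r × Fin r → ℂ), (Pi.single k 1 : Fin N → ℂ)) := by
        refine Prod.ext (by simp [Prod.fst_sum]) ?_
        simp [Prod.snd_sum, ← Pi.single_smul, Finset.univ_sum_single]
      rw [hw₁, e, map_sum]
      rw [show matOf w (i, true) = (∑ k, c k • f k) i by rw [hc]]
      ext a b
      simp only [map_smul, matOf, Matrix.of_apply, Finset.sum_apply, Pi.smul_apply,
        Matrix.sum_apply, Matrix.smul_apply]
      refine Finset.sum_congr rfl fun k _ => ?_
      rw [← hL k, ← hstp k i]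
      rfl
    obtain ⟨hA', -⟩ := ker_cons' A hDA (w := w - w₁) (by rw [map_sub, hw, hw₁, hDL, sub_zero])
    let γ : Fin 2 → Fin r × Fin r → ℂ := fun i p =>
      ((A i)⁻¹.val * matOf (w - w₁) (i, false)) p.1 p.2
    refine ⟨(γ, 0) + (0, c), ?_⟩
    rw [map_add, ← hw₁, ← eq_sub_iff_add_eq]
    funext v
    obtain ⟨⟨i, b⟩, p, q⟩ := v
    cases b
    · have h := congrFun (congrFun (hbaseD γ i).2 p) q
      simp only [tl, γ] at h
      rw [show Matrix.of (fun a b => ((A i)⁻¹.val * matOf (w - w₁) (i, false)) a b) =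
        (A i)⁻¹.val * matOf (w - w₁) (i, false) from rfl, hA', zero_div, zero_smul, sub_zero,
        ← Matrix.mul_assoc, val_mul_inv, Matrix.one_mul] at h
      exact h
    · have h := congrFun (congrFun (hbaseD γ i).1 p) q
      have h' := congrFun (congrFun (hw₁b i) p) q
      simp only [matOf, Matrix.of_apply, Matrix.zero_apply] at h h'
      simp [h, h']
  have hloc := local_image hΦd hFd hconst hker
  rw [hΦ0] at hloc
  filter_upwards [hloc] with g hg ρ hρ hρg
  refine ⟨hρ, ?_⟩
  have hF : cons' g = cons' (coord ((A, fun _ => 1) : Handles 1 (SLC r))) := by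
    rw [← hρg, ← hΦ0, cons'_coord hρ]
    exact (cons'_coord (hmem 0).1).symm
  obtain ⟨x, hx⟩ := hg hF
  rw [hρg, ← hx]
  exact (hmem x).2

/-- The base point is irreducible. -/
lemma Seed2.full [NeZero r] {A : Fin 2 → SLC r} (hA : Seed2 A) :
    Full (gens ((A, fun _ => 1) : Handles 1 (SLC r))) := by
  classical
  obtain ⟨ν, hν, hD⟩ := hA.diag
  have hinj := indep_inj hν
  have hν0 : ∀ i, ν i ≠ 0 := fun i e => by
    have h := (A 1)⁻¹.2
    rw [hD, Matrix.det_diagonal, Finset.prod_eq_zero (Finset.mem_univ i) e] at h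
    exact zero_ne_one h
  have hA1 : (A 1).val = Matrix.diagonal fun i => (ν i)⁻¹ := by
    have h := val_mul_inv (A 1)
    rw [hD] at h
    refine (left_inv_eq_right_inv h ?_)
    rw [Matrix.diagonal_mul_diagonal, ← Matrix.diagonal_one]
    congr 1; funext i; exact mul_inv_cancel₀ (hν0 i)
  refine Irred.full fun U hU => ?_
  by_cases hU0 : U = ⊥
  · exact Or.inl hU0
  refine Or.inr ?_
  have hpoly : ∀ p : Polynomial ℂ, ∀ u ∈ U, Polynomial.aeval (A 1).val p *ᵥ u ∈ U := by
    intro p
    induction p using Polynomial.induction_on with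
    | C a => intro u hu; simp only [Polynomial.aeval_C, Algebra.algebraMap_eq_smul_one,
        Matrix.smul_mulVec, Matrix.one_mulVec]; exact U.smul_mem a hu
    | add p q hp hq => intro u hu; rw [map_add, Matrix.add_mulVec]; exact add_mem (hp u hu) (hq u hu)
    | monomial k a ih =>
      intro u hu
      rw [pow_succ, ← mul_assoc, map_mul, Polynomial.aeval_X, ← Matrix.mulVec_mulVec]
      exact ih _ (by simpa [gens] using hU (1, false) u hu)
  let μ : Fin r → ℂ := fun i => (ν i)⁻¹
  have hμ : Function.Injective μ := fun a b e => hinj (inv_injective e)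
  have hproj : ∀ a, ∀ u ∈ U, (Pi.single a (u a) : Fin r → ℂ) ∈ U := by
    intro a u hu
    have h := hpoly (Lagrange.basis Finset.univ μ a) u hu
    have e := Polynomial.aeval_algHom_apply (Matrix.diagonalAlgHom ℂ (n := Fin r) (α := ℂ)) μ
      (Lagrange.basis Finset.univ μ a)
    simp only [Matrix.diagonalAlgHom_apply] at e
    rw [hA1, e] at h
    convert h using 1
    funext b
    rw [Matrix.mulVec_diagonal, Polynomial.aeval_pi_apply]
    by_cases hb : b = a
    · subst hb
      simp [Polynomial.coe_aeval_eq_eval,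
        Lagrange.eval_basis_self hμ.injOn (Finset.mem_univ b)]
    · simp [Polynomial.coe_aeval_eq_eval, hb,
        Lagrange.eval_basis_of_ne (v := μ) (s := Finset.univ) (Ne.symm hb) (Finset.mem_univ b)]
  obtain ⟨u, hu, hu0⟩ := Submodule.exists_mem_ne_zero_of_ne_bot hU0
  obtain ⟨a, ha⟩ := Function.ne_iff.1 hu0
  have hall : ∀ b, (Pi.single b (1 : ℂ) : Fin r → ℂ) ∈ U := fun b => by
    have h1 : (Pi.single a (u a) : Fin r → ℂ) ∈ U := hproj a u hu
    have h2 := hproj b _ (hU (0, false) _ h1)
    simp only [gens, Bool.false_eq_true, if_false] at h2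
    rw [Matrix.mulVec_single] at h2
    have hne : (A 0).val b a * u a ≠ 0 := mul_ne_zero (hA.entry b a) ha
    have h3 := U.smul_mem ((A 0).val b a * u a)⁻¹ h2
    convert h3 using 1
    funext c
    simp [Pi.single_apply]
    split_ifs with hcb
    · field_simp [show u a ≠ 0 by simpa using ha, hA.entry b a]
    · rfl
  refine eq_top_iff.2 fun z _ => ?_
  rw [← Finset.univ_sum_single z]
  refine Submodule.sum_mem _ fun b _ => ?_
  have := U.smul_mem (z b) (hall b)
  simpa [← Pi.single_smul] using this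

end Vale.Agent.P002
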