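import Vale.Agent.P002.Global
import Vale.Agent.P002.NbhdTwo

/-!
Every representation whose generators span all matrices lies in the closure of the integral ones.
-/

namespace Vale.Agent.P002

open Matrix Filter Topology

variable {r n : ℕ}

lemma exists_good_base_many [NeZero r] (hr : 2 ≤ r) (hn : 2 ≤ n) :
    ∃ ρ : Handles n (SLC r), relator ρ = 1 ∧ GoodPair (ρ.1 0) (ρ.2 0) ∧
      ∀ᶠ g in 𝓝 (coord ρ), ∀ ρ' : Handles n (SLC r), relator ρ' = 1 → coord ρ' = g →
        ρ' ∈ Zd n r := by
  obtain ⟨A, hspan, hA⟩ := exists_nbhd_span (r := r) (n := n) hr hn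
  set σ : Handles n (SLC r) := (A, fun _ => 1) with hσ
  have hrel : relator σ = 1 := by simp [relator, tailComm, σ, commutatorElement_def]
  have hT : Triv (tgens σ) := by
    intro Y hY
    have hl : ∀ l, Commute (vw A l).val Y := by
      intro l
      induction l with
      | nil => simp [vw]
      | cons k l ih =>
        simp only [vw, Matrix.SpecialLinearGroup.coe_mul]
        refine ih.mul_left ?_
        have h : Commute (A k.succ).val Y := hY (k, false)
        show _ = _
        calc (A k.succ)⁻¹.val * Y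
            = (A k.succ)⁻¹.val * (Y * (A k.succ).val) * (A k.succ)⁻¹.val := by
              rw [Matrix.mul_assoc, Matrix.mul_assoc, val_mul_inv, Matrix.mul_one]
          _ = Y * (A k.succ)⁻¹.val := by
              rw [← h.eq, ← Matrix.mul_assoc, val_inv_mul, Matrix.one_mul]
    have hall : ∀ P : Mat r, Commute P Y := by
      intro P
      have hP : P ∈ Submodule.span ℂ (Set.range fun l => (vw A l).val) := hspan ▸ Submodule.mem_top
      induction hP using Submodule.span_induction with
      | mem x hx => obtain ⟨l, rfl⟩ := hx; exact hl l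
      | zero => exact Commute.zero_left _
      | add _ _ _ _ ha hb => exact ha.add_left hb
      | smul c _ _ ha => exact ha.smul_left c
    obtain ⟨c, hc⟩ := Matrix.mem_range_scalar_iff_commute_single'.2 fun i j => hall _
    exact ⟨c, by rw [← hc, Matrix.scalar_apply, Matrix.smul_one_eq_diagonal]⟩
  obtain ⟨ε, hε, hball⟩ := Metric.eventually_nhds_iff.1 (eventually_eventually_nhds.2 hA)
  obtain ⟨ρ, hρ, hd, hg⟩ := exists_near_good hr hrel hT hε
  exact ⟨ρ, hρ, hg, hball hd⟩

lemma exists_good_base_two [NeZero r] (hr : 2 ≤ r) :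
    ∃ ρ : Handles 1 (SLC r), relator ρ = 1 ∧ GoodPair (ρ.1 0) (ρ.2 0) ∧
      ∀ᶠ g in 𝓝 (coord ρ), ∀ ρ' : Handles 1 (SLC r), relator ρ' = 1 → coord ρ' = g →
        ρ' ∈ Zd 1 r := by
  obtain ⟨A, hseed, hA⟩ := exists_nbhd_two (r := r) hr
  set σ : Handles 1 (SLC r) := (A, fun _ => 1) with hσ
  have hrel : relator σ = 1 := by simp [relator, tailComm, σ, commutatorElement_def]
  obtain ⟨ε, hε, hball⟩ := Metric.eventually_nhds_iff.1 (eventually_eventually_nhds.2 hA)
  obtain ⟨σ', h1, h2, h3⟩ := exists_near_triv le_rfl hrel hseed.full (half_pos hε)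
  obtain ⟨ρ, hρ, hd, hg⟩ := exists_near_good hr h1 h3 (half_pos hε)
  exact ⟨ρ, hρ, hg, hball ((dist_triangle _ _ _).trans_lt (by linarith))⟩

lemma exists_good_base [NeZero r] (hr : 2 ≤ r) (hn : 1 ≤ n) :
    ∃ ρ : Handles n (SLC r), relator ρ = 1 ∧ GoodPair (ρ.1 0) (ρ.2 0) ∧
      ∀ᶠ g in 𝓝 (coord ρ), ∀ ρ' : Handles n (SLC r), relator ρ' = 1 → coord ρ' = g →
        ρ' ∈ Zd n r := by
  rcases Nat.lt_or_ge n 2 with h | h
  · obtain rfl : n = 1 := by omega
    exact exists_good_base_two hr
  · exact exists_good_base_many hr h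

lemma continuous_eval_coord (P : MvPolynomial (Var n r) ℂ) :
    Continuous fun x : Var n r → ℂ => MvPolynomial.eval x P :=
  MvPolynomial.continuous_eval P

/-- The closure is closed. -/
lemma mem_of_near {σ : Handles n (SLC r)} (hσ : relator σ = 1)
    (h : ∀ ε : ℝ, 0 < ε → ∃ σ' : Handles n (SLC r), dist (coord σ') (coord σ) < ε ∧ σ' ∈ Zd n r) :
    σ ∈ Zd n r := by
  refine ⟨hσ, fun P hP => ?_⟩
  by_contra hne
  obtain ⟨ε, hε, hball⟩ := Metric.eventually_nhds_iff.1
    ((continuous_eval_coord P).continuousAt.eventually_ne hne)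
  obtain ⟨σ', hd, hσ'⟩ := h ε hε
  exact hball hd (hσ'.2 P hP)

/-- Representations whose last handles have scalar centraliser lie in the closure. -/
theorem mem_of_triv [NeZero r] (hr : 2 ≤ r) (hn : 1 ≤ n) {σ : Handles n (SLC r)}
    (hσ : relator σ = 1) (hT : Triv (tgens σ)) : σ ∈ Zd n r := by
  obtain ⟨ρ, hρ, hg, hnb⟩ := exists_good_base (r := r) hr hn
  refine mem_of_near hσ fun ε hε => ?_
  obtain ⟨σ', h1, h2, h3⟩ := exists_near_good hr hσ hT hε
  exact ⟨σ', h2, mem_of_goodPair hr hρ hg hnb h1 h3⟩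

/-- Absolutely irreducible representations lie in the closure. -/
theorem mem_of_full [NeZero r] (hr : 2 ≤ r) (hn : 1 ≤ n) {σ : Handles n (SLC r)}
    (hσ : relator σ = 1) (hF : Full (gens σ)) : σ ∈ Zd n r := by
  refine mem_of_near hσ fun ε hε => ?_
  obtain ⟨σ', h1, h2, h3⟩ := exists_near_triv hn hσ hF hε
  exact ⟨σ', h2, mem_of_triv hr hn h1 h3⟩

end Vale.Agent.P002
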