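import Vale.Agent.P002.Extension

/-!
Block diagonal matrices as tuples of square matrices.
-/

namespace Vale.Agent.P002

open Matrix
open scoped commutatorElement

variable {r k : ℕ} (blk : Fin r → Fin k)

/-- Size of a block. -/
abbrev bsz (j : Fin k) : ℕ := Fintype.card {a // blk a = j}

/-- Enumeration of a block. -/
noncomputable def benum (j : Fin k) : Fin (bsz blk j) ≃ {a // blk a = j} :=
  (Fintype.equivFin _).symm

/-- All indices, sorted by block. -/
noncomputable def bE : (Σ j, Fin (bsz blk j)) ≃ Fin r :=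
  (Equiv.sigmaCongrRight (benum blk)).trans (Equiv.sigmaFiberEquiv blk)

lemma bE_apply (j : Fin k) (p : Fin (bsz blk j)) : bE blk ⟨j, p⟩ = (benum blk j p).1 := rfl

lemma blk_bE (j : Fin k) (p : Fin (bsz blk j)) : blk (bE blk ⟨j, p⟩) = j := (benum blk j p).2

lemma bsz_pos {blk : Fin r → Fin k} (h : Function.Surjective blk) (j : Fin k) :
    0 < bsz blk j := by
  obtain ⟨a, ha⟩ := h j
  exact Fintype.card_pos_iff.2 ⟨⟨a, ha⟩⟩

lemma sum_bsz : ∑ j, bsz blk j = r := by
  have := Fintype.card_congr (bE blk)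
  simpa using this

/-- Assembling blocks. -/
noncomputable def bdiag (M : ∀ j, Mat (bsz blk j)) : Mat r :=
  (Matrix.blockDiagonal' M).submatrix (bE blk).symm (bE blk).symm

lemma bdiag_apply (M : ∀ j, Mat (bsz blk j)) (x y : Σ j, Fin (bsz blk j)) :
    bdiag blk M (bE blk x) (bE blk y) = Matrix.blockDiagonal' M x y := by
  simp [bdiag]

lemma bdiag_mul (M N : ∀ j, Mat (bsz blk j)) :
    bdiag blk (M * N) = bdiag blk M * bdiag blk N := by
  rw [bdiag, bdiag, bdiag, Matrix.submatrix_mul_equiv, ← Matrix.blockDiagonal'_mul]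
  rfl

lemma bdiag_one : bdiag blk 1 = 1 := by
  rw [bdiag, Matrix.blockDiagonal'_one, Matrix.submatrix_one_equiv]

/-- Assembling blocks, as a homomorphism. -/
noncomputable def bdiagHom : (∀ j, Mat (bsz blk j)) →* Mat r where
  toFun := bdiag blk
  map_one' := bdiag_one blk
  map_mul' := bdiag_mul blk

/-- A block. -/
noncomputable def bproj (g : Mat r) (j : Fin k) : Mat (bsz blk j) :=
  g.submatrix (fun p => bE blk ⟨j, p⟩) (fun p => bE blk ⟨j, p⟩)

lemma bproj_bdiag (M : ∀ j, Mat (bsz blk j)) (j : Fin k) : bproj blk (bdiag blk M) j = M j := by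
  ext p q
  simp [bproj, bdiag_apply, Matrix.blockDiagonal'_apply_eq]

lemma bd_bdiag (M : ∀ j, Mat (bsz blk j)) : BD blk (bdiag blk M) := by
  intro a b hab
  obtain ⟨⟨i, p⟩, rfl⟩ := (bE blk).surjective a
  obtain ⟨⟨j, q⟩, rfl⟩ := (bE blk).surjective b
  rw [blk_bE blk, blk_bE blk] at hab
  rw [bdiag_apply]
  exact Matrix.blockDiagonal'_apply_ne _ _ _ hab

variable {blk}

lemma bdiag_bproj {g : Mat r} (h : BD blk g) : bdiag blk (bproj blk g) = g := by
  ext a b
  obtain ⟨⟨i, p⟩, rfl⟩ := (bE blk).surjective a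
  obtain ⟨⟨j, q⟩, rfl⟩ := (bE blk).surjective b
  rw [bdiag_apply]
  by_cases hij : i = j
  · subst hij
    simp [bproj, Matrix.blockDiagonal'_apply_eq]
  · rw [Matrix.blockDiagonal'_apply_ne _ _ _ hij, h _ _ (by rwa [blk_bE blk, blk_bE blk])]

lemma det_eq_prod {g : Mat r} (h : BD blk g) : g.det = ∏ j, (bproj blk g j).det := by
  rw [Matrix.BlockTriangular.det_fintype (b := blk) fun a b hab => h a b (ne_of_gt hab)]
  refine Finset.prod_congr rfl fun j _ => ?_
  rw [← Matrix.det_submatrix_equiv_self (benum blk j)]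
  rfl

lemma det_bdiag (M : ∀ j, Mat (bsz blk j)) : (bdiag blk M).det = ∏ j, (M j).det := by
  simp only [det_eq_prod (bd_bdiag blk M), bproj_bdiag]

variable (blk)

/-- Assembling invertible blocks. -/
noncomputable def bdiagU : (∀ j, (Mat (bsz blk j))ˣ) →* (Mat r)ˣ :=
  (Units.map (bdiagHom blk)).comp MulEquiv.piUnits.symm.toMonoidHom

lemma bdiagU_val (M : ∀ j, (Mat (bsz blk j))ˣ) :
    (bdiagU blk M).val = bdiag blk fun j => (M j).val := rfl

lemma bdiagU_injective : Function.Injective (bdiagU blk) := fun M N h => funext fun j =>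
  Units.ext (by
    have := congrArg (fun U : (Mat r)ˣ => bproj blk U.val j) h
    simpa [bdiagU_val, bproj_bdiag] using this)

/-- A block as a vector space. -/
noncomputable def bincl (j : Fin k) : (Fin (bsz blk j) → ℂ) →ₗ[ℂ] (Fin r → ℂ) where
  toFun x a := if h : blk a = j then x ((benum blk j).symm ⟨a, h⟩) else 0
  map_add' x y := by ext a; by_cases h : blk a = j <;> simp [h]
  map_smul' c x := by ext a; by_cases h : blk a = j <;> simp [h]

lemma bincl_bE (j : Fin k) (x : Fin (bsz blk j) → ℂ) (p : Fin (bsz blk j)) :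
    bincl blk j x (bE blk ⟨j, p⟩) = x p := by
  show dite _ _ _ = _
  rw [dif_pos (blk_bE blk j p)]
  simp [bE_apply]

variable {blk}

lemma mulVec_bincl {g : Mat r} (h : BD blk g) (j : Fin k) (x : Fin (bsz blk j) → ℂ) :
    g *ᵥ bincl blk j x = bincl blk j (bproj blk g j *ᵥ x) := by
  funext a
  rw [Matrix.mulVec, dotProduct, ← (bE blk).sum_comp, Fintype.sum_sigma,
    Finset.sum_eq_single j (fun i _ hi => Finset.sum_eq_zero fun p _ => by
      show g a _ * dite _ _ _ = _
      rw [dif_neg (by rwa [blk_bE blk]), mul_zero]) (by simp)]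
  simp only [bincl_bE]
  by_cases ha : blk a = j
  · obtain ⟨p, hp⟩ : ∃ p, bE blk ⟨j, p⟩ = a := ⟨(benum blk j).symm ⟨a, ha⟩, by simp [bE_apply]⟩
    subst hp
    rw [bincl_bE]
    rfl
  · show _ = dite _ _ _
    rw [dif_neg ha]
    exact Finset.sum_eq_zero fun p _ => by rw [h _ _ (by rwa [blk_bE blk]), zero_mul]

/-- Only block scalars commute with separated blocks. -/
lemma commute_bdiag_iff (M : ∀ j, Mat (bsz blk j)) {Y : Mat r} (h : Commute (bdiag blk M) Y)
    (i j : Fin k) :
    M i * Y.submatrix (fun p => bE blk ⟨i, p⟩) (fun q => bE blk ⟨j, q⟩) =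
      Y.submatrix (fun p => bE blk ⟨i, p⟩) (fun q => bE blk ⟨j, q⟩) * M j := by
  ext p q
  have := congrFun (congrFun h.eq (bE blk ⟨i, p⟩)) (bE blk ⟨j, q⟩)
  simp only [Matrix.mul_apply] at this ⊢
  rw [← (bE blk).sum_comp, ← (bE blk).sum_comp, Fintype.sum_sigma, Fintype.sum_sigma,
    Finset.sum_eq_single i (fun l _ hl => Finset.sum_eq_zero fun u _ => by
      rw [bdiag_apply, Matrix.blockDiagonal'_apply_ne _ _ _ (Ne.symm hl), zero_mul]) (by simp),
    Finset.sum_eq_single j (fun l _ hl => Finset.sum_eq_zero fun u _ => by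
      rw [bdiag_apply, Matrix.blockDiagonal'_apply_ne _ _ _ hl, mul_zero]) (by simp)] at this
  simpa [bdiag_apply, Matrix.blockDiagonal'_apply_eq] using this

section Central

variable {G : Type*} [Group G] {n : ℕ}

lemma commutator_central (a b : G) {z w : G} (hz : z ∈ Subgroup.center G)
    (hw : w ∈ Subgroup.center G) : ⁅z * a, w * b⁆ = ⁅a, b⁆ := by
  rw [Subgroup.mem_center_iff] at hz hw
  simp only [commutatorElement_def]
  calc z * a * (w * b) * (z * a)⁻¹ * (w * b)⁻¹
      = z * (a * (w * b) * a⁻¹) * z⁻¹ * b⁻¹ * w⁻¹ := by group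
    _ = a * w * b * a⁻¹ * b⁻¹ * w⁻¹ := by rw [← hz]; group
    _ = w * (a * b * a⁻¹ * b⁻¹) * w⁻¹ := by rw [hw a]; group
    _ = a * b * a⁻¹ * b⁻¹ := by rw [← hw]; group

lemma relator_central (z ρ : Handles n G) (hz : ∀ i, z.1 i ∈ Subgroup.center G)
    (hw : ∀ i, z.2 i ∈ Subgroup.center G) : relator (z * ρ) = relator ρ := by
  simp only [relator, tailComm, Prod.fst_mul, Prod.snd_mul, Pi.mul_apply,
    commutator_central _ _ (hz _) (hw _)]

end Central

end Vale.Agent.P002
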