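import Vale.Agent.P002.BlockDecomp

/-!
Representations with irreducible diagonal blocks are limits of separated ones.
-/

namespace Vale.Agent.P002

open Matrix Filter Topology

variable {r n k : ℕ}

/-- The generator as an element of the group. -/
def sgen (σ : Handles n (SLC r)) (v : Fin (n + 1) × Bool) : SLC r :=
  if v.2 then σ.2 v.1 else σ.1 v.1

lemma gens_eq_sgen (σ : Handles n (SLC r)) (v : Fin (n + 1) × Bool) :
    gens σ v = (sgen σ v).val := by
  obtain ⟨i, b⟩ := v
  cases b <;> simp [gens, sgen]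

/-- Tuples from a family. -/
def mkH {G : Type*} (f : Fin (n + 1) × Bool → G) : Handles n G :=
  (fun i => f (i, false), fun i => f (i, true))

lemma sgen_mkH (f : Fin (n + 1) × Bool → SLC r) (v : Fin (n + 1) × Bool) :
    sgen (mkH f) v = f v := by
  obtain ⟨i, b⟩ := v
  cases b <;> simp [sgen, mkH]

lemma mapH_mkH {G H : Type*} [Group G] [Group H] (φ : G →* H) (f : Fin (n + 1) × Bool → G) :
    mapH φ (mkH f) = mkH fun v => φ (f v) := rfl

lemma mkH_sgen (σ : Handles n (SLC r)) : mkH (sgen σ) = σ := by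
  simp [mkH, sgen]

/-- An invertible scalar matrix. -/
noncomputable def scU {m : ℕ} (c : ℂ) (hc : c ≠ 0) : (Mat m)ˣ :=
  Units.map (algebraMap ℂ (Mat m)).toMonoidHom (Units.mk0 c hc)

lemma scU_center {m : ℕ} (c : ℂ) (hc : c ≠ 0) : scU (m := m) c hc ∈ Subgroup.center (Mat m)ˣ :=
  Subgroup.mem_center_iff.2 fun g => Units.ext (Algebra.commutes c g.val).symm

lemma scU_mul_val {m : ℕ} (c : ℂ) (hc : c ≠ 0) (A : SLC m) :
    (scU c hc * Matrix.SpecialLinearGroup.toGL A).val = c • A.val := by
  show algebraMap ℂ (Mat m) c * A.val = _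
  rw [Algebra.smul_def]

/-- Scalars do not change the relator. -/
lemma relator_scalar {m : ℕ} (c : Fin (n + 1) × Bool → ℂ) (hc : ∀ v, c v ≠ 0)
    (f : Fin (n + 1) × Bool → SLC m) :
    relator (mkH fun v => scU (c v) (hc v) * Matrix.SpecialLinearGroup.toGL (f v)) = 1 ↔
      relator (mkH f) = 1 := by
  rw [show (mkH fun v => scU (c v) (hc v) * Matrix.SpecialLinearGroup.toGL (f v)) =
    mkH (fun v => scU (c v) (hc v)) * mapH Matrix.SpecialLinearGroup.toGL (mkH f) from rfl,
    relator_central _ _ (fun i => scU_center _ _) fun i => scU_center _ _, mapH_relator,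
    map_eq_one_iff _ Matrix.SpecialLinearGroup.toGL_injective]

/-- The scalar weights separating the blocks. -/
noncomputable def sepW (blk : Fin r → Fin k) (j : Fin k) : ℝ :=
  (j : ℕ) - (∑ l, (bsz blk l : ℝ) * (l : ℕ)) / r

lemma sum_sepW [NeZero r] (blk : Fin r → Fin k) : ∑ j, (bsz blk j : ℝ) * sepW blk j = 0 := by
  have hr : (r : ℝ) ≠ 0 := Nat.cast_ne_zero.2 (NeZero.ne r)
  have hs : ∑ j, (bsz blk j : ℝ) = r := by exact_mod_cast sum_bsz blk
  simp only [sepW, mul_sub, Finset.sum_sub_distrib, ← Finset.sum_mul, hs]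
  field_simp
  ring

/-- Irreducible blocks. -/
def IrredBlocks (blk : Fin r → Fin k) (σ : Handles n (SLC r)) : Prop :=
  ∀ (j : Fin k) (U : Submodule ℂ (Fin r → ℂ)), U ≠ ⊥ →
    (∀ u ∈ U, ∀ a, blk a ≠ j → u a = 0) → (∀ v, ∀ u ∈ U, gens σ v *ᵥ u ∈ U) →
    ∀ w : Fin r → ℂ, (∀ a, blk a ≠ j → w a = 0) → w ∈ U

lemma full_block {blk : Fin r → Fin k} {σ : Handles n (SLC r)}
    (hBD : ∀ v, BD blk (gens σ v)) (hirr : IrredBlocks blk σ) (j : Fin k)
    [NeZero (bsz blk j)] {g : Fin (n + 1) × Bool → Mat (bsz blk j)}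
    (hg : ∀ v, ∃ c : ℂ, bproj blk (gens σ v) j = c • g v) : Full g := by
  refine Irred.full fun U hU => ?_
  by_cases h0 : U = ⊥
  · exact Or.inl h0
  obtain ⟨u, hu, hu0⟩ := Submodule.exists_mem_ne_zero_of_ne_bot h0
  refine Or.inr (eq_top_iff.2 fun x _ => ?_)
  have hsupp : ∀ x a, blk a ≠ j → bincl blk j x a = 0 := fun x a ha => by
    show dite _ _ _ = _
    rw [dif_neg ha]
  have hinj : Function.Injective (bincl blk j) := fun x y h => funext fun p => by
    rw [← bincl_bE blk j x p, ← bincl_bE blk j y p, h]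
  have hmem := hirr j (U.map (bincl blk j)) (fun e => hu0 (hinj (by
      rw [map_zero, ← Submodule.mem_bot ℂ, ← e]
      exact Submodule.mem_map_of_mem hu)))
    (by rintro _ ⟨y, -, rfl⟩; exact hsupp y)
    (by
      rintro v _ ⟨y, hy, rfl⟩
      obtain ⟨c, hc⟩ := hg v
      rw [mulVec_bincl (hBD v), hc, Matrix.smul_mulVec]
      exact Submodule.mem_map_of_mem (U.smul_mem c (hU v y hy)))
    (bincl blk j x) (hsupp x)
  obtain ⟨y, hy, hyx⟩ := hmem
  rwa [← hinj hyx]

/-- Block diagonal representations with irreducible blocks. -/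
theorem eval_zero_of_irred_blocks [NeZero r] (hr : 2 ≤ r) (hn : 1 ≤ n) {blk : Fin r → Fin k}
    (hsurj : Function.Surjective blk) {σ : Handles n (SLC r)} (hσ : relator σ = 1)
    (hBD : ∀ v, BD blk (gens σ v)) (hirr : IrredBlocks blk σ)
    {P : MvPolynomial (Var n r) ℂ} (hP : ConjInv P)
    (hP0 : ∀ y ∈ intPts n r, MvPolynomial.eval y P = 0) :
    MvPolynomial.eval (coord σ) P = 0 := by
  classical
  have i₀ : Fin k := blk 0
  have hm : ∀ j, NeZero (bsz blk j) := fun j => ⟨(bsz_pos hsurj j).ne'⟩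
  set M : Fin (n + 1) × Bool → ∀ j, Mat (bsz blk j) := fun v => bproj blk (gens σ v) with hM
  have hdetM : ∀ v, ∏ j, (M v j).det = 1 := fun v => by
    rw [← det_eq_prod (hBD v), gens_eq_sgen]
    exact (sgen σ v).2
  have hd0 : ∀ v j, (M v j).det ≠ 0 := fun v j => by
    have := hdetM v
    intro e
    rw [Finset.prod_eq_zero (Finset.mem_univ j) e] at this
    exact zero_ne_one this
  choose lam hlam using fun v j => IsAlgClosed.exists_pow_nat_eq (M v j).det (bsz_pos hsurj j)
  have hlam0 : ∀ v j, lam v j ≠ 0 := fun v j e => by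
    have := hlam v j
    rw [e, zero_pow (bsz_pos hsurj j).ne'] at this
    exact hd0 v j this.symm
  let A : Fin (n + 1) × Bool → ∀ j, SLC (bsz blk j) := fun v j => ⟨(lam v j)⁻¹ • M v j, by
    rw [Matrix.det_smul, Fintype.card_fin, inv_pow, hlam, inv_mul_cancel₀ (hd0 v j)]⟩
  have hMA : ∀ v j, M v j = lam v j • (A v j).val := fun v j => (smul_inv_smul₀ (hlam0 v j) _).symm
  let σb : ∀ j, Handles n (SLC (bsz blk j)) := fun j => mkH fun v => A v j
  -- the relation holds in each block
  let U : Fin (n + 1) × Bool → ∀ j, (Mat (bsz blk j))ˣ := fun v j =>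
    scU (lam v j) (hlam0 v j) * Matrix.SpecialLinearGroup.toGL (A v j)
  have hUval : ∀ v, (fun j => (U v j).val) = M v := fun v => funext fun j => by
    simp only [U, scU_mul_val, hMA]
  have hU : relator (mkH U) = 1 := by
    refine bdiagU_injective blk ?_
    rw [map_one, ← mapH_relator, show mapH (bdiagU blk) (mkH U) =
      mapH Matrix.SpecialLinearGroup.toGL σ from ?_, mapH_relator, hσ, map_one]
    rw [← mkH_sgen σ, mapH_mkH, mapH_mkH]
    refine congrArg mkH (funext fun v => Units.ext ?_)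
    rw [bdiagU_val, hUval, hM]
    show bdiag blk (bproj blk (gens σ v)) = (sgen σ v).val
    rw [bdiag_bproj (hBD v), gens_eq_sgen]
  have hσb : ∀ j, relator (σb j) = 1 := fun j => by
    refine (relator_scalar (fun v => lam v j) (fun v => hlam0 v j) fun v => A v j).1 ?_
    have := congrArg (Pi.evalMonoidHom (fun j => (Mat (bsz blk j))ˣ) j) hU
    rwa [← mapH_relator, map_one, mapH_mkH] at this
  have hfull : ∀ j, Full (gens (σb j)) := fun j => by
    have := hm j
    exact full_block hBD hirr j fun v => ⟨lam v j, by rw [gens_eq_sgen (σb j), sgen_mkH]; exact hMA v j⟩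
  -- the deformation
  let v₀ : Fin n × Bool := (⟨0, by omega⟩, false)
  let w₀ : Fin (n + 1) × Bool := (v₀.1.succ, v₀.2)
  let μ : ℝ → Fin (n + 1) × Bool → Fin k → ℂ := fun ε v j =>
    if v = w₀ ∨ v = (0, false) then ((Real.exp (ε * sepW blk j) : ℝ) : ℂ) else 1
  let F : ℝ × (∀ j, Var n (bsz blk j) → ℂ) → Var n r → ℂ := fun q u =>
    bdiag blk (fun j => (lam u.1 j * μ q.1 u.1 j) • matOf (q.2 j) u.1) u.2.1 u.2.2
  have hFcont : Continuous F := by
    have hμ : ∀ v j, Continuous fun ε : ℝ => μ ε v j := fun v j => by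
      simp only [μ]
      split_ifs
      · exact Complex.continuous_ofReal.comp (Real.continuous_exp.comp (continuous_id.mul continuous_const))
      · exact continuous_const
    refine continuous_pi fun u => ?_
    have hb : Continuous fun q : ℝ × (∀ j, Var n (bsz blk j) → ℂ) =>
        Matrix.blockDiagonal' (fun j => (lam u.1 j * μ q.1 u.1 j) • matOf (q.2 j) u.1) := by
      refine Continuous.matrix_blockDiagonal' (continuous_pi fun j => ?_)
      refine continuous_matrix fun p q => ?_
      simp only [Matrix.smul_apply, smul_eq_mul, matOf, Matrix.of_apply]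
      exact (continuous_const.mul ((hμ _ _).comp continuous_fst)).mul
        ((continuous_apply (u.1, p, q)).comp ((continuous_apply j).comp continuous_snd))
    exact (hb.matrix_submatrix _ _).matrix_elem _ _
  have hF0 : F (0, fun j => coord (σb j)) = coord σ := by
    funext ⟨v, a, b⟩
    have e : (fun j => (lam v j * μ 0 v j) • matOf (coord (σb j)) v) = M v := funext fun j => by
      rw [matOf_eq_gens, gens_eq_sgen, sgen_mkH, hMA]
      simp [μ]
    simp only [F]
    rw [e, hM, bdiag_bproj (hBD v), ← matOf_eq_gens]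
    simp [matOf]
  by_contra hne
  obtain ⟨δ, hδ, hball⟩ := Metric.eventually_nhds_iff.1
    (((MvPolynomial.continuous_eval P).comp hFcont).continuousAt.eventually_ne
      (x := ((0 : ℝ), fun j => coord (σb j))) (y := 0) (by simpa [Function.comp, hF0] using hne))
  choose σ' hσ' hd' hT' using fun j => by
    have := hm j
    exact exists_near_triv hn (hσb j) (hfull j) hδ
  -- a good value of the parameter
  let u₀ : Fin (n + 1) × Bool := (0, false)
  let T : (Fin (n + 1) × Bool) → ∀ i j,
      Module.End ℂ (Matrix (Fin (bsz blk i)) (Fin (bsz blk j)) ℂ) := fun u i j =>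
    { toFun := fun Y => (sgen (σ' i) u).val * Y * (sgen (σ' j) u)⁻¹.val
      map_add' := fun Y Z => by simp [Matrix.mul_add, Matrix.add_mul]
      map_smul' := fun c Y => by simp [Matrix.mul_smul, Matrix.smul_mul] }
  let cst : (Fin (n + 1) × Bool) → Fin k → Fin k → ℝ → ℂ := fun u i j ε =>
    lam u j * μ ε u j / (lam u i * μ ε u i)
  let bad : Set ℝ := ⋃ u, ⋃ (_ : u = w₀ ∨ u = u₀), ⋃ i, ⋃ j, ⋃ (_ : i ≠ j),
    {ε | (T u i j).HasEigenvalue (cst u i j ε)}
  have hbad : bad.Finite := by
    refine Set.finite_iUnion fun u => Set.finite_iUnion fun hu => Set.finite_iUnion fun i =>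
      Set.finite_iUnion fun j => Set.finite_iUnion fun hij => ?_
    refine Set.Finite.preimage ?_ (Module.End.finite_hasEigenvalue (T u i j))
    intro x _ y _ hxy
    simp only [cst, μ, u₀] at hxy hu
    simp only [if_pos hu, ← div_mul_div_comm, ← Complex.ofReal_div, ← Real.exp_sub] at hxy
    have := Real.exp_injective (Complex.ofReal_injective
      (mul_left_cancel₀ (div_ne_zero (hlam0 _ _) (hlam0 _ _)) hxy))
    have hw : sepW blk j - sepW blk i ≠ 0 := by
      simp only [sepW, sub_sub_sub_cancel_right, ne_eq, sub_eq_zero, Nat.cast_inj]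
      exact fun e => hij (Fin.ext e).symm
    exact mul_right_cancel₀ hw (by linarith)
  obtain ⟨ε, hε, hεbad⟩ := ((Set.Ioo_infinite hδ).diff hbad).nonempty
  let c : Fin (n + 1) × Bool → Fin k → ℂ := fun v j => lam v j * μ ε v j
  have hc0 : ∀ v j, c v j ≠ 0 := fun v j => mul_ne_zero (hlam0 v j) (by
    simp only [μ]; split_ifs <;> simp [Real.exp_ne_zero])
  let V : Fin (n + 1) × Bool → ∀ j, (Mat (bsz blk j))ˣ := fun v j =>
    scU (c v j) (hc0 v j) * Matrix.SpecialLinearGroup.toGL (sgen (σ' j) v)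
  have hVval : ∀ v, (fun j => (V v j).val) = fun j => c v j • (sgen (σ' j) v).val :=
    fun v => funext fun j => scU_mul_val _ _ _
  have hdet : ∀ v, (bdiag blk fun j => c v j • (sgen (σ' j) v).val).det = 1 := fun v => by
    simp only [det_bdiag, Matrix.det_smul, Fintype.card_fin, Matrix.SpecialLinearGroup.det_coe,
      mul_one, c, mul_pow, hlam, Finset.prod_mul_distrib, hdetM, one_mul, μ]
    split_ifs
    · rw [← Complex.ofReal_one, ← Real.exp_zero]
      simp only [← Complex.ofReal_pow, ← Complex.ofReal_prod, ← Real.exp_nat_mul, ← Real.exp_sum]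
      congr 2
      rw [← mul_zero ε, ← sum_sepW blk, Finset.mul_sum]
      exact Finset.sum_congr rfl fun j _ => by ring
    · simp
  let ρ : Handles n (SLC r) := mkH fun v => ⟨_, hdet v⟩
  have hρg : ∀ v, gens ρ v = bdiag blk fun j => c v j • (sgen (σ' j) v).val := fun v => by
    rw [gens_eq_sgen]
    exact congrArg Subtype.val (sgen_mkH _ v)
  have hρ : relator ρ = 1 := by
    refine Matrix.SpecialLinearGroup.toGL_injective ?_
    rw [map_one, ← mapH_relator, show mapH Matrix.SpecialLinearGroup.toGL ρ =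
      mapH (bdiagU blk) (mkH V) from ?_, mapH_relator, show relator (mkH V) = 1 from ?_, map_one]
    · refine funext fun j => ?_
      rw [show relator (mkH V) j =
        Pi.evalMonoidHom (fun j => (Mat (bsz blk j))ˣ) j (relator (mkH V)) from rfl,
        ← mapH_relator, mapH_mkH]
      exact (relator_scalar (fun v => c v j) (fun v => hc0 v j) (sgen (σ' j))).2
        (by rw [mkH_sgen]; exact hσ' j)
    · have key : ∀ v, (bdiagU blk (V v)).val = bdiag blk fun j => c v j • (sgen (σ' j) v).val :=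
        fun v => by rw [bdiagU_val, hVval]
      exact Prod.ext (funext fun i => Units.ext (key (i, false)).symm)
        (funext fun i => Units.ext (key (i, true)).symm)
  have hρBD : ∀ v, BD blk (gens ρ v) := fun v => by rw [hρg]; exact bd_bdiag blk _
  have hkill : ∀ u, (u = w₀ ∨ u = u₀) → ∀ i j, i ≠ j →
      ∀ B : Matrix (Fin (bsz blk i)) (Fin (bsz blk j)) ℂ,
        (c u i • (sgen (σ' i) u).val) * B = B * (c u j • (sgen (σ' j) u).val) → B = 0 := by
    intro u hu i j hij B h
    by_contra hB0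
    refine hεbad (Set.mem_iUnion.2 ⟨u, Set.mem_iUnion.2 ⟨hu, Set.mem_iUnion.2 ⟨i,
      Set.mem_iUnion.2 ⟨j, Set.mem_iUnion.2 ⟨hij, ?_⟩⟩⟩⟩⟩)
    refine Module.End.hasEigenvalue_of_hasEigenvector (x := B)
      ⟨Module.End.mem_eigenspace_iff.2 ?_, hB0⟩
    rw [Matrix.smul_mul, Matrix.mul_smul] at h
    show (sgen (σ' i) u).val * B * (sgen (σ' j) u)⁻¹.val = _
    have h' : (sgen (σ' i) u).val * B = cst u i j ε • (B * (sgen (σ' j) u).val) := by
      show _ = (c u j / c u i) • _
      rw [div_eq_inv_mul, ← smul_smul, ← h, inv_smul_smul₀ (hc0 _ _)]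
    rw [h', Matrix.smul_mul, Matrix.mul_assoc, val_mul_inv, Matrix.mul_one]
  have hSep : Sep blk ρ := by
    refine ⟨?_, fun Y hY a b hab => ?_⟩
    swap
    · obtain ⟨⟨i, p⟩, rfl⟩ := (bE blk).surjective a
      obtain ⟨⟨j, q⟩, rfl⟩ := (bE blk).surjective b
      rw [blk_bE blk, blk_bE blk] at hab
      rw [← gens_zero, hρg] at hY
      exact congrFun (congrFun (hkill u₀ (Or.inr rfl) i j hab _
        (commute_bdiag_iff _ hY i j)) p) q
    intro Y hY
    set B : ∀ i j, Matrix (Fin (bsz blk i)) (Fin (bsz blk j)) ℂ := fun i j =>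
      Y.submatrix (fun p => bE blk ⟨i, p⟩) (fun q => bE blk ⟨j, q⟩) with hB
    have hcomm : ∀ (v : Fin n × Bool) i j, (c (v.1.succ, v.2) i • (sgen (σ' i) (v.1.succ, v.2)).val)
        * B i j = B i j * (c (v.1.succ, v.2) j • (sgen (σ' j) (v.1.succ, v.2)).val) := by
      intro v i j
      refine commute_bdiag_iff (fun l => c (v.1.succ, v.2) l • (sgen (σ' l) (v.1.succ, v.2)).val) ?_ i j
      rw [← hρg]
      exact hY v
    have hoff : ∀ i j, i ≠ j → B i j = 0 := fun i j hij =>
      hkill w₀ (Or.inl rfl) i j hij (B i j) (hcomm v₀ i j)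
    have hdiag : ∀ j, ∃ d : ℂ, B j j = d • 1 := fun j => by
      refine hT' j (B j j) fun v => ?_
      have h := hcomm v j j
      rw [Matrix.smul_mul, Matrix.mul_smul] at h
      show gens (σ' j) (v.1.succ, v.2) * B j j = B j j * gens (σ' j) (v.1.succ, v.2)
      rw [gens_eq_sgen]
      exact smul_right_injective _ (hc0 _ _) h
    choose d hd using hdiag
    refine ⟨d, ?_⟩
    ext a b
    obtain ⟨⟨i, p⟩, rfl⟩ := (bE blk).surjective a
    obtain ⟨⟨j, q⟩, rfl⟩ := (bE blk).surjective b
    show B i j p q = _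
    rw [Matrix.diagonal_apply, Function.comp_apply, blk_bE blk]
    by_cases hij : i = j
    · subst hij
      rw [hd, Matrix.smul_apply, Matrix.one_apply, smul_eq_mul, mul_ite, mul_one, mul_zero]
      simp [(bE blk).injective.eq_iff]
    · rw [hoff i j hij, Matrix.zero_apply, if_neg]
      exact fun e => hij (congrArg Sigma.fst ((bE blk).injective e))
  have hclose : dist (ε, fun j => coord (σ' j)) ((0 : ℝ), fun j => coord (σb j)) < δ := by
    rw [Prod.dist_eq, max_lt_iff]
    refine ⟨by rw [dist_zero_right, Real.norm_eq_abs, abs_of_pos hε.1]; exact hε.2, ?_⟩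
    exact (dist_pi_lt_iff hδ).2 hd'
  refine hball hclose ?_
  have hFε : F (ε, fun j => coord (σ' j)) = coord ρ := by
    funext ⟨v, a, b⟩
    have e := congrFun (congrFun ((matOf_eq_gens ρ v).trans (hρg v)) a) b
    simp only [F, matOf_eq_gens, gens_eq_sgen]
    exact e.symm
  show MvPolynomial.eval (F _) P = 0
  rw [hFε]
  exact eval_zero_of_sep hρBD hr hn hρ hsurj hSep i₀ hP hP0

end Vale.Agent.P002
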