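import Vale.Agent.P002.Span

/-!
Derivatives of matrix-valued curves, entrywise.
-/

namespace Vale.Agent.P002

open Matrix
open scoped ContDiff

variable {r n : ℕ}

/-- Entrywise derivative of a matrix curve at `0`. -/
def HasD (M : ℂ → Mat r) (v : Mat r) : Prop := ∀ i j, HasDerivAt (fun s => M s i j) (v i j) 0

/-- Entrywise smooth matrix-valued maps. -/
def Smooth {X : Type*} [NormedAddCommGroup X] [NormedSpace ℂ X] (f : X → Mat r) : Prop :=
  ∀ i j, ContDiff ℂ ω fun x => f x i j

variable {M N : ℂ → Mat r} {v w : Mat r}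

lemma hasD_const (C : Mat r) : HasD (fun _ => C) 0 := fun _ _ => hasDerivAt_const _ _

lemma HasD.congr (h : HasD M v) (e : v = w) : HasD M w := e ▸ h

lemma HasD.mul (h : HasD M v) (h' : HasD N w) :
    HasD (fun s => M s * N s) (v * N 0 + M 0 * w) := fun i j => by
  simp only [Matrix.mul_apply, Matrix.add_apply]
  rw [← Finset.sum_add_distrib]
  exact HasDerivAt.fun_sum fun k _ => (h i k).mul (h' k j)

lemma HasD.add (h : HasD M v) (h' : HasD N w) : HasD (fun s => M s + N s) (v + w) :=
  fun i j => (h i j).add (h' i j)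

lemma HasD.sub (h : HasD M v) (h' : HasD N w) : HasD (fun s => M s - N s) (v - w) :=
  fun i j => (h i j).sub (h' i j)

lemma HasD.unique (h : HasD M v) (h' : HasD M w) : v = w :=
  Matrix.ext fun i j => (h i j).unique (h' i j)

lemma HasD.prod_ofFn : ∀ {k : ℕ} (f : Fin k → ℂ → Mat r) (v : Fin k → Mat r),
    (∀ i, HasD (f i) (v i)) → (∀ i, f i 0 = 1) →
    HasD (fun s => (List.ofFn fun i => f i s).prod) (∑ i, v i)
  | 0, _, _, _, _ => by simpa using hasD_const (1 : Mat r)
  | k + 1, f, v, h, h1 => by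
    simp only [List.ofFn_succ, List.prod_cons, Fin.sum_univ_succ]
    have hp : (List.ofFn fun i : Fin k => f i.succ 0).prod = 1 := by
      simp [h1, List.ofFn_const]
    refine ((h 0).mul (HasD.prod_ofFn (fun i => f i.succ) (fun i => v i.succ)
      (fun i => h i.succ) fun i => h1 i.succ)).congr ?_
    rw [hp, h1, mul_one, one_mul]

lemma hasDerivAt_det_one (h : HasD M v) (h1 : M 0 = 1) :
    HasDerivAt (fun s => (M s).det) v.trace 0 := by
  have hk := HasDerivAt.fun_sum (u := (Finset.univ : Finset (Equiv.Perm (Fin r)))) fun σ _ =>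
    (HasDerivAt.fun_finsetProd (u := Finset.univ) fun i _ => h (σ i) i).const_mul
      (((Equiv.Perm.sign σ : ℤˣ) : ℤ) : ℂ)
  simp_rw [Matrix.det_apply']
  refine hk.congr_deriv ?_
  rw [Finset.sum_eq_single 1 (fun σ _ hσ => ?_) (by simp)]
  · simp [Matrix.trace, h1]
  · refine mul_eq_zero_of_right _ (Finset.sum_eq_zero fun i _ => ?_)
    obtain ⟨j, hj, hji⟩ : ∃ j, j ≠ i ∧ σ j ≠ j := by
      by_contra hcon
      push Not at hcon
      refine hσ (Equiv.ext fun j => ?_)
      by_cases hji : j = i
      · subst hji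
        by_contra hne
        simp only [Equiv.Perm.coe_one, id_eq] at hne
        exact hne (σ.injective (hcon (σ j) hne))
      · exact hcon j hji
    refine smul_eq_zero_of_left
      (Finset.prod_eq_zero (Finset.mem_erase.2 ⟨hj, Finset.mem_univ j⟩) ?_) _
    simp [h1, hji]

variable {X : Type*} [NormedAddCommGroup X] [NormedSpace ℂ X]

lemma Smooth.const (C : Mat r) : Smooth fun _ : X => C := fun _ _ => contDiff_const

lemma Smooth.mul {f g : X → Mat r} (h : Smooth f) (h' : Smooth g) :
    Smooth fun x => f x * g x := fun i j => by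
  simp only [Matrix.mul_apply]
  exact ContDiff.sum fun k _ => (h i k).mul (h' k j)

lemma Smooth.sub {f g : X → Mat r} (h : Smooth f) (h' : Smooth g) :
    Smooth fun x => f x - g x := fun i j => (h i j).sub (h' i j)

lemma Smooth.det {f : X → Mat r} (h : Smooth f) : ContDiff ℂ ω fun x => (f x).det := by
  simp_rw [Matrix.det_apply']
  exact ContDiff.sum fun σ _ => contDiff_const.mul (contDiff_prod fun i _ => h _ _)

lemma Smooth.adjugate {f : X → Mat r} (h : Smooth f) : Smooth fun x => (f x).adjugate := by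
  intro i j
  simp_rw [Matrix.adjugate_apply]
  refine Smooth.det fun a b => ?_
  simp only [Matrix.updateRow_apply]
  split_ifs
  · exact contDiff_const
  · exact h a b

lemma Smooth.hasD {M : ℂ → Mat r} (h : Smooth M) : ∃ v, HasD M v :=
  ⟨Matrix.of fun i j => deriv (fun s => M s i j) 0,
    fun i j => ((h i j).differentiable (by simp) 0).hasDerivAt⟩

lemma smooth_stable : Stable fun f : X → SLC r => Smooth fun x => (f x).val where
  one := Smooth.const 1
  mul := fun _ _ h h' => h.mul h'
  inv := fun _ h => h.adjugate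

/-- Maps to handle tuples with smooth entries. -/
abbrev SmoothH (σ : X → Handles n (SLC r)) : Prop :=
  AllS (fun f : X → SLC r => Smooth fun x => (f x).val) σ

lemma SmoothH.coord {σ : X → Handles n (SLC r)} (h : SmoothH σ) :
    ContDiff ℂ ω fun x => coord (σ x) := by
  refine contDiff_pi.2 fun ⟨⟨i, b⟩, p, q⟩ => ?_
  cases b
  · exact (h i).1 p q
  · exact (h i).2 p q

/-- A curve equal to `1` at `0`: derivative of its inverse. -/
lemma hasD_inv_of_one {f : ℂ → SLC r} (hf : Smooth fun s => (f s).val)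
    (hv : HasD (fun s => (f s).val) v) (h1 : f 0 = 1) : HasD (fun s => (f s)⁻¹.val) (-v) := by
  obtain ⟨u, hu⟩ := Smooth.hasD (smooth_stable.inv f hf)
  have h := hv.mul hu
  simp only [h1, inv_one, Matrix.SpecialLinearGroup.coe_one, mul_one, one_mul, val_mul_inv] at h
  rw [← eq_neg_iff_add_eq_zero.2 (h.unique (hasD_const 1) |> fun e => by rwa [add_comm] at e)]
  exact hu

/-- Conjugating a curve through `1`. -/
lemma hasD_conj {f g : ℂ → SLC r} (hg : Smooth fun s => (g s).val)
    (hv : HasD (fun s => (f s).val) v) (h1 : f 0 = 1) :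
    HasD (fun s => (g s * f s * (g s)⁻¹).val) ((g 0).val * v * (g 0)⁻¹.val) := by
  obtain ⟨u, hu⟩ := hg.hasD
  obtain ⟨u', hu'⟩ := Smooth.hasD (smooth_stable.inv g hg)
  have h0 : (f 0).val - 1 = 0 := by rw [h1, Matrix.SpecialLinearGroup.coe_one, sub_self]
  have h := ((hu.mul (hv.sub (hasD_const 1))).mul hu').add (hasD_const 1)
  simp only [h0, mul_zero, zero_mul, sub_zero, add_zero, zero_add] at h
  have e : (fun s => (g s * f s * (g s)⁻¹).val) =
      fun s => (g s).val * ((f s).val - 1) * (g s)⁻¹.val + 1 := funext fun s => by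
    rw [mul_sub, sub_mul, Matrix.mul_one, val_mul_inv, sub_add_cancel]
    rfl
  rw [e]
  exact h

lemma hasD_conj' {f g : ℂ → SLC r} (hg : Smooth fun s => (g s).val)
    (hv : HasD (fun s => (f s).val) v) (h1 : f 0 = 1) :
    HasD (fun s => ((g s)⁻¹ * f s * g s).val) ((g 0)⁻¹.val * v * (g 0).val) := by
  simpa only [inv_inv] using hasD_conj (smooth_stable.inv g hg) hv h1

end Vale.Agent.P002
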