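import Mathlib

/-!
A map into a level set whose derivative covers the kernel of the constraint covers a neighbourhood
in the level set.
-/

namespace Vale.Agent.P002

open Filter Topology

variable {X W V : Type*} [NormedAddCommGroup X] [NormedSpace ℂ X] [FiniteDimensional ℂ X]
  [NormedAddCommGroup W] [NormedSpace ℂ W] [FiniteDimensional ℂ W]
  [NormedAddCommGroup V] [NormedSpace ℂ V] [FiniteDimensional ℂ V]

/-- Covering of the level set near a point. -/
theorem local_image {Φ : X → W} {F : W → V} {L : X →L[ℂ] W} {D : W →L[ℂ] V}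
    (hΦ : HasStrictFDerivAt Φ L 0) (hF : HasStrictFDerivAt F D (Φ 0))
    (hconst : ∀ x, F (Φ x) = F (Φ 0))
    (hker : ∀ w, D w = 0 → ∃ x, L x = w) :
    ∀ᶠ g in 𝓝 (Φ 0), F g = F (Φ 0) → ∃ x, Φ x = g := by
  have : CompleteSpace X := FiniteDimensional.complete ℂ X
  have : CompleteSpace W := FiniteDimensional.complete ℂ W
  have : CompleteSpace V := FiniteDimensional.complete ℂ V
  let Ker : Submodule ℂ W := LinearMap.ker (D : W →ₗ[ℂ] V)
  obtain ⟨Ker', hcompl⟩ := Ker.exists_isCompl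
  let π : W →L[ℂ] Ker := LinearMap.toContinuousLinearMap (Ker.projectionOnto Ker' hcompl)
  have hπ : ∀ z : Ker, π z = z := fun z => Submodule.projectionOnto_apply_left hcompl z
  let M : W →L[ℂ] Ker × V := π.prod D
  have hM : LinearMap.ker (M : W →ₗ[ℂ] Ker × V) = ⊥ := by
    rw [LinearMap.ker_eq_bot']
    intro w hw
    obtain ⟨h1, h2⟩ := Prod.mk.injEq .. ▸ (show (π w, D w) = (0, 0) from hw)
    have := hπ ⟨w, h2⟩
    rw [h1] at this
    exact (congrArg Subtype.val this).symm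
  obtain ⟨J, hJ⟩ := LinearMap.exists_leftInverse_of_injective _ hM
  let J' : Ker × V →L[ℂ] W := LinearMap.toContinuousLinearMap J
  let e : W → W := fun g => J' (π g, F g)
  have he : HasStrictFDerivAt e ((ContinuousLinearEquiv.refl ℂ W : W →L[ℂ] W)) (Φ 0) := by
    have h := J'.hasStrictFDerivAt.comp (Φ 0)
      ((π.hasStrictFDerivAt (x := Φ 0)).prodMk hF)
    refine h.congr_fderiv ?_
    ext w
    exact LinearMap.congr_fun hJ w
  have hinj : ∀ᶠ g in 𝓝 (Φ 0), he.localInverse _ _ _ (e g) = g := he.eventually_left_inverse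
  have hsur : ((π.comp L : X →L[ℂ] Ker) : X →ₗ[ℂ] Ker).range = ⊤ := by
    rw [LinearMap.range_eq_top]
    intro z
    obtain ⟨x, hx⟩ := hker z z.2
    exact ⟨x, by simp [hx, hπ]⟩
  have hmap : Filter.map (fun x => π (Φ x)) (𝓝 0) = 𝓝 (π (Φ 0)) :=
    (π.hasStrictFDerivAt.comp 0 hΦ).map_nhds_eq_of_surj hsur
  have hU : ∀ᶠ x in 𝓝 (0 : X), he.localInverse _ _ _ (e (Φ x)) = Φ x :=
    hΦ.continuousAt.eventually hinj
  have hV : (fun x => π (Φ x)) '' {x | he.localInverse _ _ _ (e (Φ x)) = Φ x} ∈ 𝓝 (π (Φ 0)) := by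
    rw [← hmap]
    exact Filter.image_mem_map hU
  filter_upwards [hinj, π.continuous.continuousAt.preimage_mem_nhds hV] with g hg hg' hFg
  obtain ⟨x, hx, hxg⟩ := hg'
  refine ⟨x, ?_⟩
  have : e (Φ x) = e g := by
    simp only [e, hconst, hFg]
    rw [show π (Φ x) = π g from hxg]
  rw [← hx, this, hg]

end Vale.Agent.P002
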