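import Vale.Agent.P002.Span

/-!
A handlebody representation to which the spanning argument applies.
-/

namespace Vale.Agent.P002

open Matrix

variable {r n : ℕ}

/-- The nilpotent shift. -/
def shiftM (r : ℕ) : Mat r := Matrix.of fun i j => if (j : ℕ) = i + 1 then 1 else 0

lemma det_one_add_shift : (1 + shiftM r).det = 1 := by
  rw [Matrix.det_of_isUpperTriangular fun i j (h : j < i) => ?_]
  · simp [shiftM]
  · simp [shiftM, h.ne']
    omega

/-- The upper unipotent generator. -/
noncomputable def upU (r : ℕ) : SLC r := ⟨1 + shiftM r, det_one_add_shift⟩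

/-- The lower unipotent generator. -/
noncomputable def loU (r : ℕ) : SLC r :=
  ⟨(1 + shiftM r)ᵀ, by rw [Matrix.det_transpose, det_one_add_shift]⟩

lemma shift_pow (a : ℕ) (i j : Fin r) :
    (shiftM r ^ a) i j = if (j : ℕ) = i + a then 1 else 0 := by
  induction a generalizing j with
  | zero => simp [Matrix.one_apply, Fin.ext_iff, eq_comm]
  | succ a ih =>
    rw [pow_succ, Matrix.mul_apply]
    by_cases h : (i : ℕ) + a < r
    · rw [Finset.sum_eq_single ⟨i + a, h⟩ (fun k _ hk => ?_) (by simp)]
      · rw [ih, if_pos rfl]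
        simp [shiftM, add_assoc]
      · have hk' : (k : ℕ) ≠ i + a := fun e => hk (Fin.ext e)
        simp [ih, hk']
    · rw [Finset.sum_eq_zero fun k _ => ?_, if_neg (by omega)]
      rw [ih, if_neg (by omega), zero_mul]

lemma span_mul {A : Fin (n + 1) → SLC r} {P Q : Mat r}
    (hP : P ∈ Submodule.span ℂ (Set.range fun l => (vw A l).val))
    (hQ : Q ∈ Submodule.span ℂ (Set.range fun l => (vw A l).val)) :
    P * Q ∈ Submodule.span ℂ (Set.range fun l => (vw A l).val) := by
  induction hP using Submodule.span_induction with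
  | mem x hx =>
    obtain ⟨l, rfl⟩ := hx
    induction hQ using Submodule.span_induction with
    | mem y hy =>
      obtain ⟨l', rfl⟩ := hy
      exact Submodule.subset_span ⟨l' ++ l, by simp [vw_append]⟩
    | zero => simp
    | add y z _ _ hy hz => rw [mul_add]; exact add_mem hy hz
    | smul c y _ hy => rw [mul_smul_comm]; exact Submodule.smul_mem _ _ hy
  | zero => simp
  | add y z _ _ hy hz => rw [add_mul]; exact add_mem hy hz
  | smul c y _ hy => rw [smul_mul_assoc]; exact Submodule.smul_mem _ _ hy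

lemma span_top_of_shifts {A : Fin (n + 1) → SLC r} {k₀ k₁ : Fin n}
    (h₀ : A k₀.succ = (upU r)⁻¹) (h₁ : A k₁.succ = (loU r)⁻¹) :
    Submodule.span ℂ (Set.range fun l => (vw A l).val) = ⊤ := by
  set S := Submodule.span ℂ (Set.range fun l => (vw A l).val) with hS
  have h1 : (1 : Mat r) ∈ S := Submodule.subset_span ⟨[], by simp [vw]⟩
  have hU : shiftM r ∈ S := by
    have h : 1 + shiftM r ∈ S := Submodule.subset_span ⟨[k₀], by simp only [vw, h₀, one_mul, inv_inv]; rfl⟩
    simpa using sub_mem h h1
  have hL : (shiftM r)ᵀ ∈ S := by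
    have h : (1 + shiftM r)ᵀ ∈ S := Submodule.subset_span ⟨[k₁], by simp only [vw, h₁, one_mul, inv_inv]; rfl⟩
    simpa using sub_mem h h1
  have hpow : ∀ {M : Mat r}, M ∈ S → ∀ a : ℕ, M ^ a ∈ S := by
    intro M hM a
    induction a with
    | zero => simpa using h1
    | succ a ih => rw [pow_succ]; exact span_mul ih hM
  rw [eq_top_iff]
  intro P _
  rw [Matrix.matrix_eq_sum_single P]
  refine sum_mem fun i _ => sum_mem fun j _ => ?_
  rw [show Matrix.single i j (P i j) = P i j • Matrix.single i j (1 : ℂ) by simp [Matrix.smul_single]]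
  refine Submodule.smul_mem _ _ ?_
  have hr : 0 < r := i.pos
  let last : Fin r := ⟨r - 1, by omega⟩
  have hE : 1 - shiftM r * (shiftM r)ᵀ = Matrix.single last last 1 := by
    ext p q
    rw [Matrix.sub_apply, Matrix.mul_apply]
    by_cases hp : (p : ℕ) + 1 < r
    · rw [Finset.sum_eq_single ⟨(p : ℕ) + 1, hp⟩ (fun k _ hk => ?_) (by simp)]
      · have : p ≠ last := fun e => by have := congrArg Fin.val e; simp [last] at this; omega
        simp [shiftM, Matrix.one_apply, Fin.ext_iff, Matrix.single_apply, last]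
        omega
      · have : (k : ℕ) ≠ p + 1 := fun e => hk (Fin.ext e)
        simp [shiftM, this]
    · rw [Finset.sum_eq_zero fun k _ => ?_]
      · have hpl : p = last := by
          have := p.isLt
          exact Fin.ext (show (p : ℕ) = r - 1 by omega)
        subst hpl
        simp [Matrix.one_apply, Matrix.single_apply]
      · simp [shiftM]
        omega
  have hfin : Matrix.single i j (1 : ℂ) = shiftM r ^ (r - 1 - (i : ℕ)) *
      (1 - shiftM r * (shiftM r)ᵀ) * (shiftM r)ᵀ ^ (r - 1 - (j : ℕ)) := by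
    ext p q
    rw [hE, ← Matrix.transpose_pow, Matrix.mul_apply, Finset.sum_eq_single last
      (fun k _ hk => by rw [Matrix.mul_single_apply_of_ne (hbj := hk), zero_mul]) (by simp)]
    simp [shift_pow, Matrix.single_apply, Fin.ext_iff, last]
    have := i.isLt
    have := j.isLt
    have := p.isLt
    have := q.isLt
    split_ifs <;> simp <;> omega
  rw [hfin]
  exact span_mul (span_mul (hpow hU _) (sub_mem h1 (span_mul hU hL))) (hpow hL _)

lemma vw_congr {A B : Fin (n + 1) → SLC r} (h : ∀ k : Fin n, A k.succ = B k.succ) :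
    ∀ l, vw A l = vw B l
  | [] => rfl
  | k :: l => by simp [vw, h, vw_congr h l]

/-- Existence of a suitable handlebody representation. -/
lemma exists_seed (hr : 2 ≤ r) (hn : 2 ≤ n) : ∃ A : Fin (n + 1) → SLC r,
    Submodule.span ℂ (Set.range fun l => (vw A l).val) = ⊤ ∧
      ∀ l, Avoids (A 0 * vw A l).val := by
  let k₀ : Fin n := ⟨0, by omega⟩
  let k₁ : Fin n := ⟨1, by omega⟩
  let A' : Fin n → SLC r := fun k =>
    if k = k₀ then (upU r)⁻¹ else if k = k₁ then (loU r)⁻¹ else 1
  obtain ⟨A₀, hA₀⟩ := exists_good (r := r) (by omega)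
    fun l => vw (Fin.cons (1 : SLC r) A') l
  refine ⟨Fin.cons A₀ A', span_top_of_shifts (k₀ := k₀) (k₁ := k₁) ?_ ?_, fun l => ?_⟩
  · simp [A']
  · rw [Fin.cons_succ]
    simp [A', k₀, k₁]
  · rw [vw_congr (B := Fin.cons (1 : SLC r) A') (by simp)]
    simpa using hA₀ l

end Vale.Agent.P002
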