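import Vale.Agent.P002.Flow
import Vale.Agent.P002.Seed
import Vale.Agent.P002.LocalImage

/-!
A neighbourhood of a handlebody representation lies in the closure of the integral representations.
-/

namespace Vale.Agent.P002

open Matrix MvPolynomial
open scoped ContDiff

variable {r n : ℕ}

section Exp

open scoped Matrix.Norms.Operator

lemma Smooth.exp {X : Type*} [NormedAddCommGroup X] [NormedSpace ℂ X] {f : X → Mat r}
    (h : Smooth f) : Smooth fun x => NormedSpace.exp (f x) := by
  have hf : ContDiff ℂ ω f := by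
    have e : f = fun x => ∑ i, ∑ j, f x i j • Matrix.single i j (1 : ℂ) := funext fun x => by
      conv_lhs => rw [Matrix.matrix_eq_sum_single (f x)]
      simp [Matrix.smul_single]
    rw [e]
    exact ContDiff.sum fun i _ => ContDiff.sum fun j _ => (h i j).smul contDiff_const
  have hexp : ContDiff ℂ ω (NormedSpace.exp : Mat r → Mat r) :=
    contDiff_iff_contDiffAt.2 fun x => (NormedSpace.exp_analytic x).contDiffAt
  intro i j
  exact (LinearMap.toContinuousLinearMap (Matrix.entryLinearMap ℂ ℂ i j)).contDiff.comp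
    (hexp.comp hf)

lemma hasD_exp (M : Mat r) : HasD (fun s => NormedSpace.exp (s • M)) M := fun i j => by
  have hlin := hasDerivAt_exp_smul_const (𝕂 := ℂ) M (0 : ℂ)
  rw [zero_smul, NormedSpace.exp_zero, one_mul] at hlin
  exact (LinearMap.toContinuousLinearMap (Matrix.entryLinearMap ℂ ℂ i j)).hasFDerivAt.comp_hasDerivAt
    0 hlin

end Exp

/-- Exponential of the traceless part. -/
noncomputable def expM (W : Mat r) : SLC r :=
  ⟨NormedSpace.exp (tl W), by
    rcases eq_or_ne r 0 with rfl | hr
    · exact Matrix.det_isEmpty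
    · rw [det_exp_eq, trace_tl hr, Complex.exp_zero]⟩

/-- The handlebody family. -/
noncomputable def base (A : Fin (n + 1) → SLC r) (x : Fin (n + 1) → Fin r × Fin r → ℂ) :
    Handles n (SLC r) :=
  (fun i => A i * expM (Matrix.of fun a b => x i (a, b)), fun _ => 1)

/-- A twist conjugated by a substitution. -/
noncomputable def stp (l : List (Fin n)) (t : ℂ) (ρ : Handles n (SLC r)) : Handles n (SLC r) :=
  fwds l (twist (bwds l ρ) (expT t ((bwds l ρ).1 0)))

/-- Successive conjugated twists. -/
noncomputable def flow : ∀ {N : ℕ}, (Fin N → List (Fin n)) → (Fin N → ℂ) →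
    Handles n (SLC r) → Handles n (SLC r)
  | 0, _, _, ρ => ρ
  | _ + 1, L, t, ρ => stp (L 0) (t 0) (flow (fun i => L i.succ) (fun i => t i.succ) ρ)

lemma stp_zero (l : List (Fin n)) (ρ : Handles n (SLC r)) : stp l 0 ρ = ρ := by
  rw [stp, expT_zero, twist, mul_one, Function.update_eq_self]
  exact fwds_bwds l ρ

lemma flow_zero : ∀ {N : ℕ} (L : Fin N → List (Fin n)) (ρ : Handles n (SLC r)), flow L 0 ρ = ρ
  | 0, _, _ => rfl
  | N + 1, L, ρ => by
    rw [flow, Pi.zero_apply, stp_zero]
    exact flow_zero (fun i => L i.succ) ρ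

lemma flow_single : ∀ {N : ℕ} (L : Fin N → List (Fin n)) (k : Fin N) (s : ℂ)
    (ρ : Handles n (SLC r)), flow L (Pi.single k s) ρ = stp (L k) s ρ
  | 0, _, k, _, _ => k.elim0
  | N + 1, L, k, s, ρ => by
    rw [flow]
    induction k using Fin.cases with
    | zero =>
      rw [show (fun i : Fin N => (Pi.single 0 s : Fin (N + 1) → ℂ) i.succ) = 0 by
        funext i; simp [Fin.succ_ne_zero], flow_zero, Pi.single_eq_same]
    | succ j =>
      rw [show (fun i : Fin N => (Pi.single j.succ s : Fin (N + 1) → ℂ) i.succ) = Pi.single j s by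
        funext i; simp [Pi.single_apply], flow_single, Pi.single_eq_of_ne (Fin.succ_ne_zero j).symm,
        stp_zero]

lemma base_zero (A : Fin (n + 1) → SLC r) : base A 0 = (A, fun _ => 1) := by
  have h : expM (0 : Mat r) = 1 := Subtype.ext (by simp [expM, tl])
  have e : (Matrix.of fun a b : Fin r => (0 : ℂ)) = (0 : Mat r) := rfl
  simp [base, e, h]

variable {X : Type*} [NormedAddCommGroup X] [NormedSpace ℂ X]

lemma Smooth.tl {f : X → Mat r} (h : Smooth f) : Smooth fun x => P002.tl (f x) := by
  intro i j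
  simp only [P002.tl, Matrix.trace, Matrix.diag, Matrix.sub_apply, Matrix.smul_apply, smul_eq_mul]
  exact (h i j).sub (((ContDiff.sum fun k _ => h k k).div_const _).mul contDiff_const)

lemma smooth_stp {σ : X → Handles n (SLC r)} (hσ : SmoothH σ) {t : X → ℂ} (ht : ContDiff ℂ ω t)
    (l : List (Fin n)) : SmoothH fun x => stp l (t x) (σ x) := by
  have hb := smooth_stable.bwds l hσ
  have hz : Smooth fun x => (expT (t x) ((bwds l (σ x)).1 0)).val :=
    Smooth.exp fun i j => ht.mul ((Smooth.tl (hb 0).1) i j)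
  refine smooth_stable.fwds l fun i => ⟨(hb i).1, ?_⟩
  by_cases h : i = 0
  · subst h
    simp only [twist, Function.update_self]
    exact smooth_stable.mul _ _ (hb 0).2 hz
  · simp only [twist, Function.update_of_ne h]
    exact (hb i).2

lemma smooth_flow : ∀ {N : ℕ} (L : Fin N → List (Fin n)) {σ : X → Handles n (SLC r)}
    {t : X → Fin N → ℂ}, SmoothH σ → (∀ k, ContDiff ℂ ω fun x => t x k) →
    SmoothH fun x => flow L (t x) (σ x)
  | 0, _, _, _, h, _ => h
  | N + 1, L, σ, t, h, ht => by
    simp only [flow]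
    exact smooth_stp (smooth_flow (fun i => L i.succ) h fun k => ht k.succ) (ht 0) (L 0)

lemma smooth_base (A : Fin (n + 1) → SLC r) {x : X → Fin (n + 1) → Fin r × Fin r → ℂ}
    (hx : ∀ i p, ContDiff ℂ ω fun s => x s i p) : SmoothH fun s => base A (x s) := fun i =>
  ⟨(Smooth.const _).mul (Smooth.exp (Smooth.tl fun a b => hx i (a, b))), Smooth.const _⟩

lemma contDiff_eval {ι : Type*} {f : X → ι → ℂ} (h : ∀ i, ContDiff ℂ ω fun x => f x i)
    (P : MvPolynomial ι ℂ) : ContDiff ℂ ω fun x => eval (f x) P := by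
  induction P using MvPolynomial.induction_on with
  | C a => simpa using contDiff_const
  | add p q hp hq => simpa using hp.add hq
  | mul_X p i hp => simpa using hp.mul (h i)

/-- Conjugated twists of a curve in the closure stay in the closure. -/
lemma stp_mem (hr : r ≠ 0) {σ : ℂ → Handles n (SLC r)} (hσ : SmoothH σ)
    (hmem : ∀ s, σ s ∈ Zd n r) (l : List (Fin n)) (h0 : Avoids ((bwds l (σ 0)).1 0).val)
    (c : ℂ) (s : ℂ) : stp l (s * c) (σ s) ∈ Zd n r := by
  refine ⟨?_, fun P hP => ?_⟩
  · rw [stp, fwds_relator, twist_relator _ (commute_expT _ _), bwds_relator, (hmem s).1]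
  · have hb := smooth_stable.bwds l hσ
    have hs : Smooth fun u => ((bwds l (σ u)).1 0).val := (hb 0).1
    have hsm : ∀ Q : MvPolynomial (Fin r × Fin r) ℂ,
        Differentiable ℂ fun u => eval (fun p => ((bwds l (σ u)).1 0).val p.1 p.2) Q := fun Q =>
      (contDiff_eval (f := fun u (p : Fin r × Fin r) => ((bwds l (σ u)).1 0).val p.1 p.2)
        (fun p => hs p.1 p.2) Q).differentiable (by simp)
    have hne : ∀ q : {p : (Fin r → ℕ) × (Fin r → ℕ) // ¬ ConstDiff p.1 p.2},
        eval (fun p => ((bwds l (σ 0)).1 0).val p.1 p.2) (entryPoly q.1.1 q.1.2) ≠ 0 :=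
      fun q => h0 q.1.1 q.1.2 q.2
    have hd : Dense {u | ∀ q : {p : (Fin r → ℕ) × (Fin r → ℕ) // ¬ ConstDiff p.1 p.2},
        eval (fun p => ((bwds l (σ u)).1 0).val p.1 p.2) (entryPoly q.1.1 q.1.2) ≠ 0} :=
      dense_avoid _ (fun q => hsm _) hne
    have hg : ContDiff ℂ ω fun u => eval (coord (stp l (u * c) (σ u))) P :=
      contDiff_eval (contDiff_pi.1 (SmoothH.coord
        (smooth_stp hσ (contDiff_id.mul contDiff_const) l))) P
    refine congrFun (hg.continuous.ext_on hd continuous_const fun u hu => ?_) s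
    have hgood : GoodW ((bwds l (σ u)).1 0).val :=
      goodW_of_avoids fun d d' h => hu ⟨(d, d'), h⟩
    exact (fwds_mem l (twist_exp_mem hr (bwds_mem l (hmem u)) hgood _)).2 P hP

lemma flow_mem (hr : r ≠ 0) {A : Fin (n + 1) → SLC r} (hA : ∀ l, Avoids (A 0 * vw A l).val) :
    ∀ {N : ℕ} (L : Fin N → List (Fin n)) (t : Fin N → ℂ) {σ : ℂ → Handles n (SLC r)},
      SmoothH σ → (∀ s, σ s ∈ Zd n r) → σ 0 = (A, fun _ => 1) →
      ∀ s : ℂ, flow L (s • t) (σ s) ∈ Zd n r
  | 0, _, _, σ, _, h, _, s => h s
  | N + 1, L, t, σ, hσ, h, h0, s => by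
    let σ' : ℂ → Handles n (SLC r) := fun u =>
      flow (fun i => L i.succ) (u • fun i => t i.succ) (σ u)
    have hσ'0 : σ' 0 = (A, fun _ => 1) := by simp [σ', flow_zero, h0]
    have := stp_mem hr (σ := σ') (smooth_flow _ hσ fun k => contDiff_id.smul contDiff_const)
      (flow_mem hr hA _ _ hσ h h0) (L 0) (by rw [hσ'0, bwds_base]; simpa using hA (L 0)) (t 0) s
    exact this

/-- The constraints. -/
def matOf (g : Var n r → ℂ) (v : Fin (n + 1) × Bool) : Mat r := Matrix.of fun a b => g (v, a, b)

/-- The relator as a polynomial map. -/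
def relMat (g : Var n r → ℂ) : Mat r :=
  (List.ofFn fun i => matOf g (i, false) * matOf g (i, true) *
    (matOf g (i, false)).adjugate * (matOf g (i, true)).adjugate).prod

/-- The constraint map. -/
def cons' (g : Var n r → ℂ) : (Fin (n + 1) × Bool → ℂ) × (Fin r × Fin r → ℂ) :=
  (fun v => (matOf g v).det, fun p => relMat g p.1 p.2)

lemma matOf_coord (ρ : Handles n (SLC r)) (i : Fin (n + 1)) :
    matOf (coord ρ) (i, false) = (ρ.1 i).val ∧ matOf (coord ρ) (i, true) = (ρ.2 i).val :=
  ⟨by ext; simp [matOf, coord], by ext; simp [matOf, coord]⟩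

lemma relator_ofFn {G : Type*} [Group G] (ρ : Handles n G) :
    relator ρ = (List.ofFn fun i => ρ.1 i * ρ.2 i * (ρ.1 i)⁻¹ * (ρ.2 i)⁻¹).prod := by
  rw [List.ofFn_succ, List.prod_cons]
  rfl

lemma cons'_coord {ρ : Handles n (SLC r)} (h : relator ρ = 1) :
    cons' (coord ρ) = (fun _ => 1, fun p => (1 : Mat r) p.1 p.2) := by
  refine Prod.ext (funext fun v => ?_) (funext fun p => ?_)
  · obtain ⟨i, b⟩ := v
    cases b
    · simp [cons', (matOf_coord ρ i).1]
    · simp [cons', (matOf_coord ρ i).2]
  · have e : relMat (coord ρ) = (1 : SLC r).val := by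
      let φ : SLC r →* Mat r :=
        { toFun := Subtype.val
          map_one' := Matrix.SpecialLinearGroup.coe_one
          map_mul' := Matrix.SpecialLinearGroup.coe_mul }
      rw [← h, relator_ofFn]
      change _ = φ _
      rw [map_list_prod, List.map_ofFn]
      simp only [relMat, matOf_coord]
      congr
    simp only [cons', e]
    rfl

lemma smooth_matOf (v : Fin (n + 1) × Bool) : Smooth fun g : Var n r → ℂ => matOf g v :=
  fun a b => contDiff_apply ℂ ℂ (v, a, b)

lemma smooth_relMat : Smooth fun g : Var n r → ℂ => relMat g := by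
  have : ∀ {k : ℕ} (f : Fin k → (Var n r → ℂ) → Mat r), (∀ i, Smooth (f i)) →
      Smooth fun g => (List.ofFn fun i => f i g).prod := by
    intro k
    induction k with
    | zero => exact fun f _ => by simpa using Smooth.const (1 : Mat r)
    | succ k ih =>
      intro f hf
      simp only [List.ofFn_succ, List.prod_cons]
      exact (hf 0).mul (ih _ fun i => hf i.succ)
  exact this _ fun i => (((smooth_matOf _).mul (smooth_matOf _)).mul
    (smooth_matOf _).adjugate).mul (smooth_matOf _).adjugate

lemma contDiff_cons' : ContDiff ℂ ω (cons' (n := n) (r := r)) :=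
  (contDiff_pi.2 fun v => (smooth_matOf v).det).prodMk (contDiff_pi.2 fun p => smooth_relMat p.1 p.2)

/-- The kernel of the linearised constraints at `(A, 1)`. -/
lemma ker_cons' (A : Fin (n + 1) → SLC r)
    {D : (Var n r → ℂ) →L[ℂ] (Fin (n + 1) × Bool → ℂ) × (Fin r × Fin r → ℂ)}
    (hD : HasStrictFDerivAt cons' D (coord (A, fun _ => 1))) {w : Var n r → ℂ} (hw : D w = 0) :
    (∀ i, ((A i)⁻¹.val * matOf w (i, false)).trace = 0) ∧ InK A (fun i => matOf w (i, true)) := by
  set g : ℂ → Var n r → ℂ := fun s => coord (A, fun _ => 1) + s • w with hg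
  have hg0 : g 0 = coord ((A, fun _ => 1) : Handles n (SLC r)) := by simp [hg]
  have hc : HasDerivAt (cons' ∘ g) 0 0 := by
    have h1 : HasDerivAt g w 0 := by
      simpa [hg] using ((hasDerivAt_id (0 : ℂ)).smul_const w).const_add (coord (A, fun _ => 1))
    rw [← hw]
    exact hD.hasFDerivAt.comp_hasDerivAt_of_eq 0 h1 hg0.symm
  have hgM : ∀ v, HasD (fun s => matOf (g s) v) (matOf w v) := fun v a b => by
    simpa [matOf, hg] using
      ((hasDerivAt_id (0 : ℂ)).mul_const (w (v, a, b))).const_add (coord (A, fun _ => 1) (v, a, b))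
  have hga : ∀ i, matOf (g 0) (i, false) = (A i).val := fun i => by rw [hg0, (matOf_coord _ i).1]
  have hgb : ∀ i, matOf (g 0) (i, true) = 1 := fun i => by
    rw [hg0, (matOf_coord _ i).2, Matrix.SpecialLinearGroup.coe_one]
  have hdet : ∀ v, HasDerivAt (fun s => (matOf (g s) v).det) 0 0 := fun v => by
    have := ((ContinuousLinearMap.proj (R := ℂ) v).comp
      (ContinuousLinearMap.fst ℂ (Fin (n + 1) × Bool → ℂ) (Fin r × Fin r → ℂ))).hasFDerivAt
      (x := cons' (g 0)) |>.comp_hasDerivAt 0 hc
    simpa [cons', Function.comp_def] using this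
  have hA : ∀ i, ((A i)⁻¹.val * matOf w (i, false)).trace = 0 := fun i => by
    have h := hasDerivAt_det_one ((hasD_const (A i)⁻¹.val).mul (hgM (i, false)))
      (by rw [hga, val_inv_mul])
    simp only [zero_mul, zero_add, Matrix.det_mul, Matrix.SpecialLinearGroup.det_coe, one_mul] at h
    exact h.unique (hdet _)
  have hB : ∀ i, (matOf w (i, true)).trace = 0 := fun i =>
    (hasDerivAt_det_one (hgM (i, true)) (hgb i)).unique (hdet _)
  refine ⟨hA, hB, ?_⟩
  have hfac : ∀ i, HasD (fun s => matOf (g s) (i, false) * matOf (g s) (i, true) *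
      (matOf (g s) (i, false)).adjugate * (matOf (g s) (i, true)).adjugate)
      ((A i).val * matOf w (i, true) * (A i)⁻¹.val - matOf w (i, true)) := fun i => by
    have hsm : ∀ v, Smooth fun s => (matOf (g s) v).adjugate := fun v => by
      refine Smooth.adjugate fun a b => ?_
      simp only [matOf, hg, Matrix.of_apply, Pi.add_apply, Pi.smul_apply, smul_eq_mul]
      exact contDiff_const.add (contDiff_id.mul contDiff_const)
    obtain ⟨u, hu⟩ := (hsm (i, false)).hasD
    obtain ⟨u', hu'⟩ := (hsm (i, true)).hasD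
    have hdz : ∀ v, HasD (fun s => (matOf (g s) v).det • (1 : Mat r)) 0 := fun v a b => by
      simpa using (hdet v).mul_const ((1 : Mat r) a b)
    have e1 := ((hgM (i, false)).mul hu).unique (by simpa only [Matrix.mul_adjugate] using hdz _)
    have e2 := ((hgM (i, true)).mul hu').unique (by simpa only [Matrix.mul_adjugate] using hdz _)
    rw [hgb, Matrix.adjugate_one, Matrix.mul_one, Matrix.one_mul] at e2
    rw [hga] at e1
    refine ((((hgM (i, false)).mul (hgM (i, true))).mul hu).mul hu').congr ?_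
    rw [hga, hgb, Matrix.adjugate_one]
    simp only [Matrix.mul_one, Matrix.SpecialLinearGroup.coe_inv, eq_neg_of_add_eq_zero_right e2,
      Matrix.mul_adjugate, Matrix.SpecialLinearGroup.det_coe, one_smul, Matrix.one_mul, add_mul]
    rw [← sub_eq_zero, ← e1]
    abel
  have hR := HasD.prod_ofFn _ _ hfac fun i => by
    rw [hga, hgb, Matrix.adjugate_one, Matrix.mul_one, Matrix.mul_one, Matrix.mul_adjugate,
      Matrix.SpecialLinearGroup.det_coe, one_smul]
  refine hR.unique fun a b => ?_
  have := ((ContinuousLinearMap.proj (R := ℂ) ((a, b) : Fin r × Fin r)).comp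
    (ContinuousLinearMap.snd ℂ (Fin (n + 1) × Bool → ℂ) (Fin r × Fin r → ℂ))).hasFDerivAt
    (x := cons' (g 0)) |>.comp_hasDerivAt 0 hc
  simpa [cons', relMat, Function.comp_def] using this

end Vale.Agent.P002
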