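import Vale.Agent.P002.Moves

/-!
The polynomial closure of the integral points of the surface relation.
-/

namespace Vale.Agent.P002

open Matrix MvPolynomial
open scoped commutatorElement

variable {r n : ℕ}

/-- The complex special linear group. -/
abbrev SLC (r : ℕ) := Matrix.SpecialLinearGroup (Fin r) ℂ

/-- The coordinates of a pair of tuples. -/
abbrev Var (n r : ℕ) := (Fin (n + 1) × Bool) × Fin r × Fin r

/-- The matrix entries. -/
def coord (ρ : Handles n (SLC r)) : Var n r → ℂ :=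
  fun v => (if v.1.2 then ρ.2 v.1.1 else ρ.1 v.1.1).val v.2.1 v.2.2

/-- Functoriality. -/
def mapH {G H : Type*} [Group G] [Group H] (φ : G →* H) (ρ : Handles n G) : Handles n H :=
  (φ ∘ ρ.1, φ ∘ ρ.2)

/-- Integral matrices as complex ones. -/
noncomputable def castSL (r : ℕ) : Matrix.SpecialLinearGroup (Fin r) ℤ →* SLC r :=
  Matrix.SpecialLinearGroup.map (Int.castRingHom ℂ)

/-- Points where every polynomial vanishing on `S` vanishes. -/
def polyCl {ι : Type*} (S : Set (ι → ℂ)) : Set (ι → ℂ) :=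
  {x | ∀ P : MvPolynomial ι ℂ, (∀ y ∈ S, eval y P = 0) → eval x P = 0}

lemma subset_polyCl {ι : Type*} (S : Set (ι → ℂ)) : S ⊆ polyCl S := fun _ hx _ h => h _ hx

lemma polyCl_sub {ι : Type*} {S T : Set (ι → ℂ)} (h : T ⊆ polyCl S) : polyCl T ⊆ polyCl S :=
  fun _ hx P hP => hx P fun y hy => h hy P hP

lemma polyCl_map {ι κ : Type*} {S : Set (ι → ℂ)} {T : Set (κ → ℂ)} (q : κ → MvPolynomial ι ℂ)
    (h : ∀ y ∈ S, (fun k => eval y (q k)) ∈ polyCl T) {x : ι → ℂ} (hx : x ∈ polyCl S) :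
    (fun k => eval x (q k)) ∈ polyCl T := by
  intro P hP
  have key : ∀ z : ι → ℂ, eval z (bind₁ q P) = eval (fun k => eval z (q k)) P := fun z => by
    rw [eval, eval₂Hom_bind₁]; rfl
  rw [← key]
  exact hx _ fun y hy => by rw [key]; exact h y hy P hP

/-- The integral points. -/
def intPts (n r : ℕ) : Set (Var n r → ℂ) :=
  {x | ∃ σ : Handles n (Matrix.SpecialLinearGroup (Fin r) ℤ),
    relator σ = 1 ∧ x = coord (mapH (castSL r) σ)}

/-- Representations at which all polynomials vanishing on integral representations vanish. -/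
def Zd (n r : ℕ) : Set (Handles n (SLC r)) :=
  {ρ | relator ρ = 1 ∧ coord ρ ∈ polyCl (intPts n r)}

/-- Properties of maps to a group closed under the group operations. -/
structure Stable {X G : Type*} [Group G] (S : (X → G) → Prop) : Prop where
  one : S fun _ => 1
  mul : ∀ f f', S f → S f' → S fun x => f x * f' x
  inv : ∀ f, S f → S fun x => (f x)⁻¹

variable {X G : Type*} [Group G] {S : (X → G) → Prop}

/-- All components satisfy the property. -/
def AllS (S : (X → G) → Prop) (ρ : X → Handles n G) : Prop :=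
  ∀ i, S (fun x => (ρ x).1 i) ∧ S fun x => (ρ x).2 i

lemma Stable.list_prod (hS : Stable S) :
    ∀ {k : ℕ} (f : Fin k → X → G), (∀ i, S (f i)) → S fun x => (List.ofFn fun i => f i x).prod
  | 0, _, _ => by simpa using hS.one
  | k + 1, f, h => by
    simp only [List.ofFn_succ, List.prod_cons]
    exact hS.mul _ _ (h 0) (hS.list_prod _ fun i => h i.succ)

lemma take_tail (ρ : Handles n G) (k : Fin n) : mid ρ k =
    (List.ofFn fun i : Fin (k : ℕ) =>
      ⁅ρ.1 (Fin.castLE k.isLt.le i).succ, ρ.2 (Fin.castLE k.isLt.le i).succ⁆).prod := by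
  simp only [mid]
  congr 1
  exact List.ext_getElem (by simp [tailComm]) fun i h1 h2 => by simp [tailComm, List.getElem_take]


lemma Stable.mid (hS : Stable S) {ρ : X → Handles n G} (h : AllS S ρ) (k : Fin n) :
    S fun x => P002.mid (ρ x) k := by
  simp only [take_tail]
  refine hS.list_prod _ fun i => ?_
  simp only [commutatorElement_def]
  exact hS.mul _ _ (hS.mul _ _ (hS.mul _ _ (h _).1 (h _).2) (hS.inv _ (h _).1)) (hS.inv _ (h _).2)

lemma Stable.slide (hS : Stable S) {θ : G → G → G → G → G × G × G × G}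
    (hθ : ∀ a b c d : X → G, S a → S b → S c → S d →
      S (fun x => (θ (a x) (b x) (c x) (d x)).1) ∧ S (fun x => (θ (a x) (b x) (c x) (d x)).2.1) ∧
      S (fun x => (θ (a x) (b x) (c x) (d x)).2.2.1) ∧ S fun x => (θ (a x) (b x) (c x) (d x)).2.2.2)
    {ρ : X → Handles n G} (h : AllS S ρ) (k : Fin n) : AllS S fun x => P002.slide θ k (ρ x) := by
  have hK := hS.mid h k
  obtain ⟨q1, q2, q3, q4⟩ := hθ _ _ _ _ (h 0).1 (h 0).2
    (hS.mul _ _ (hS.mul _ _ hK (h k.succ).1) (hS.inv _ hK))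
    (hS.mul _ _ (hS.mul _ _ hK (h k.succ).2) (hS.inv _ hK))
  intro i
  by_cases hk : i = k.succ
  · subst hk
    simp only [P002.slide, Function.update_self]
    exact ⟨hS.mul _ _ (hS.mul _ _ (hS.inv _ hK) q3) hK, hS.mul _ _ (hS.mul _ _ (hS.inv _ hK) q4) hK⟩
  · by_cases h0 : i = 0
    · subst h0
      simp only [P002.slide, Function.update_self, Function.update_of_ne hk]
      exact ⟨q1, q2⟩
    · simp only [P002.slide, Function.update_of_ne hk, Function.update_of_ne h0]
      exact h i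

lemma Stable.fwd (hS : Stable S) {ρ : X → Handles n G} (h : AllS S ρ) (k : Fin n) :
    AllS S fun x => P002.fwd k (ρ x) :=
  hS.slide (fun a b c d ha hb hc hd =>
    ⟨hS.mul _ _ ha hc, hS.mul _ _ (hS.mul _ _ (hS.inv _ hc) hb) hc,
      hS.mul _ _ (hS.mul _ _ (hS.mul _ _ (hS.mul _ _ (hS.inv _ hc) hb) hc) (hS.inv _ hb)) hc,
      hS.mul _ _ (hS.mul _ _ (hS.mul _ _ hd (hS.inv _ hc)) (hS.inv _ hb)) hc⟩) h k

lemma Stable.bwd (hS : Stable S) {ρ : X → Handles n G} (h : AllS S ρ) (k : Fin n) :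
    AllS S fun x => P002.bwd k (ρ x) :=
  hS.slide (fun a b c d ha hb hc _ =>
    have bxb := hS.mul _ _ (hS.mul _ _ (hS.inv _ hb) hc) hb
    ⟨hS.mul _ _ (hS.mul _ _ (hS.mul _ _ ha (hS.inv _ hb)) (hS.inv _ hc)) hb,
      hS.mul _ _ (hS.mul _ _ bxb (hS.inv _ hc)) hb, bxb, hS.mul _ _ (by assumption) hb⟩) h k

lemma Stable.fwds (hS : Stable S) : ∀ (l : List (Fin n)) {ρ : X → Handles n G}, AllS S ρ →
    AllS S fun x => P002.fwds l (ρ x)
  | [], _, h => h
  | k :: l, _, h => hS.fwds l (hS.fwd h k)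

lemma Stable.bwds (hS : Stable S) : ∀ (l : List (Fin n)) {ρ : X → Handles n G}, AllS S ρ →
    AllS S fun x => P002.bwds l (ρ x)
  | [], _, h => h
  | k :: l, _, h => hS.bwd (hS.bwds l h) k

lemma mapH_mid {H : Type*} [Group H] (φ : G →* H) (ρ : Handles n G) (k : Fin n) :
    mid (mapH φ ρ) k = φ (mid ρ k) := by
  simp [take_tail, mapH, map_list_prod, List.map_ofFn, Function.comp_def, map_commutatorElement]

lemma mapH_relator {H : Type*} [Group H] (φ : G →* H) (ρ : Handles n G) :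
    relator (mapH φ ρ) = φ (relator ρ) := by
  simp [relator, tailComm, mapH, map_list_prod, List.map_ofFn, Function.comp_def,
    map_commutatorElement]

lemma mapH_fwd {H : Type*} [Group H] (φ : G →* H) (ρ : Handles n G) (k : Fin n) :
    fwd k (mapH φ ρ) = mapH φ (fwd k ρ) := by
  have e : ∀ (f : Fin (n + 1) → G) i v, φ ∘ Function.update f i v =
      Function.update (φ ∘ f) i (φ v) := fun f i v => Function.comp_update _ _ _ _
  simp only [fwd, slide, theta, mapH_mid]
  simp [mapH, e]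

lemma mapH_bwd {H : Type*} [Group H] (φ : G →* H) (ρ : Handles n G) (k : Fin n) :
    bwd k (mapH φ ρ) = mapH φ (bwd k ρ) := by
  have e : ∀ (f : Fin (n + 1) → G) i v, φ ∘ Function.update f i v =
      Function.update (φ ∘ f) i (φ v) := fun f i v => Function.comp_update _ _ _ _
  simp only [bwd, slide, thetaInv, mapH_mid]
  simp [mapH, e]

/-- Matrix-valued maps with polynomial entries. -/
def IsPolyMap (f : Handles n (SLC r) → SLC r) : Prop :=
  ∃ Q : Matrix (Fin r) (Fin r) (MvPolynomial (Var n r) ℂ),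
    ∀ ρ, (f ρ).val = (eval (coord ρ)).mapMatrix Q

lemma isPolyMap_stable : Stable (IsPolyMap (n := n) (r := r)) where
  one := ⟨1, fun ρ => by simp⟩
  mul := fun f f' ⟨Q, h⟩ ⟨Q', h'⟩ => ⟨Q * Q', fun ρ => by
    rw [map_mul, ← h, ← h']; rfl⟩
  inv := fun f ⟨Q, h⟩ => ⟨Q.adjugate, fun ρ => by
    rw [RingHom.map_adjugate, ← h, Matrix.SpecialLinearGroup.coe_inv]⟩

lemma allS_id : AllS (IsPolyMap (n := n) (r := r)) (fun ρ => ρ) := fun i =>
  ⟨⟨Matrix.of fun a b => X ((i, false), a, b), fun ρ => by ext a b; simp [coord]⟩,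
    ⟨Matrix.of fun a b => X ((i, true), a, b), fun ρ => by ext a b; simp [coord]⟩⟩

lemma polyCl_apply {T : Handles n (SLC r) → Handles n (SLC r)} (hT : AllS IsPolyMap T)
    (hrel : ∀ ρ, relator ρ = 1 → relator (T ρ) = 1)
    (hint : ∀ σ : Handles n (Matrix.SpecialLinearGroup (Fin r) ℤ), relator σ = 1 →
      ∃ τ, relator τ = 1 ∧ T (mapH (castSL r) σ) = mapH (castSL r) τ)
    {ρ : Handles n (SLC r)} (hρ : ρ ∈ Zd n r) : T ρ ∈ Zd n r := by
  refine ⟨hrel _ hρ.1, ?_⟩
  choose QA hA using fun i => (hT i).1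
  choose QB hB using fun i => (hT i).2
  let q : Var n r → MvPolynomial (Var n r) ℂ := fun v =>
    if v.1.2 then QB v.1.1 v.2.1 v.2.2 else QA v.1.1 v.2.1 v.2.2
  have e : ∀ σ, coord (T σ) = fun v => eval (coord σ) (q v) := fun σ => by
    funext ⟨⟨i, b⟩, a, c⟩
    cases b <;> simp [coord, q, hA, hB]
  rw [e]
  refine polyCl_map q ?_ hρ.2
  rintro y ⟨σ, hσ, rfl⟩
  obtain ⟨τ, hτ, heq⟩ := hint σ hσ
  rw [← e, heq]
  exact subset_polyCl _ ⟨τ, hτ, rfl⟩

lemma fwd_mem {ρ : Handles n (SLC r)} (hρ : ρ ∈ Zd n r) (k : Fin n) : fwd k ρ ∈ Zd n r :=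
  polyCl_apply (isPolyMap_stable.fwd allS_id k) (fun σ h => by rw [fwd_relator, h])
    (fun σ h => ⟨fwd k σ, by rw [fwd_relator, h], mapH_fwd _ σ k⟩) hρ

lemma bwd_mem {ρ : Handles n (SLC r)} (hρ : ρ ∈ Zd n r) (k : Fin n) : bwd k ρ ∈ Zd n r :=
  polyCl_apply (isPolyMap_stable.bwd allS_id k) (fun σ h => by rw [bwd_relator, h])
    (fun σ h => ⟨bwd k σ, by rw [bwd_relator, h], mapH_bwd _ σ k⟩) hρ

lemma fwds_mem : ∀ (l : List (Fin n)) {ρ : Handles n (SLC r)}, ρ ∈ Zd n r → fwds l ρ ∈ Zd n r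
  | [], _, h => h
  | k :: l, _, h => fwds_mem l (fwd_mem h k)

lemma bwds_mem : ∀ (l : List (Fin n)) {ρ : Handles n (SLC r)}, ρ ∈ Zd n r → bwds l ρ ∈ Zd n r
  | [], _, h => h
  | k :: l, _, h => bwd_mem (bwds_mem l h) k

lemma twist_pow_mem {ρ : Handles n (SLC r)} (hρ : ρ ∈ Zd n r) (m : ℕ) :
    twist ρ (ρ.1 0 ^ m) ∈ Zd n r := by
  refine polyCl_apply (T := fun σ => twist σ (σ.1 0 ^ m)) (fun i => ?_)
    (fun σ h => by rw [twist_relator σ ((Commute.refl _).pow_right m), h]) (fun σ h => ?_) hρ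
  · refine ⟨(allS_id i).1, ?_⟩
    have hp : IsPolyMap fun σ : Handles n (SLC r) => σ.1 0 ^ m := by
      induction m with
      | zero => simpa using isPolyMap_stable.one
      | succ m ih => simp only [pow_succ]; exact isPolyMap_stable.mul _ _ ih (allS_id 0).1
    by_cases h0 : i = 0
    · subst h0
      simp only [twist, Function.update_self]
      exact isPolyMap_stable.mul _ _ (allS_id 0).2 hp
    · simp only [twist, Function.update_of_ne h0]
      exact (allS_id i).2
  · refine ⟨twist σ (σ.1 0 ^ m), by rw [twist_relator σ ((Commute.refl _).pow_right m), h], ?_⟩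
    simp [twist, mapH, Function.comp_update]

end Vale.Agent.P002
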