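import Vale.Agent.P002.Irreducible

/-!
Rational parametrisation of the first handle by companion matrices.
-/

namespace Vale.Agent.P002

open Matrix Polynomial

variable {r : ℕ}

/-- Companion matrix with last column `p`. -/
def comp' (p : Fin r → ℂ) : Mat r :=
  Matrix.of fun i j => if (j : ℕ) + 1 < r then (if (i : ℕ) = j + 1 then 1 else 0) else p i

/-- Krylov matrix. -/
def kry (y : Mat r) (v : Fin r → ℂ) : Mat r :=
  Matrix.of fun i j => (y ^ (j : ℕ) *ᵥ v) i

/-- The two determinants compared by the equations. -/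
def eqDet (h W : Mat r) (p : Fin r → ℂ) (j : ℂ) : ℂ :=
  (j • (W * h) - h * comp' p).det - (j • h - h * comp' p).det

/-- The affine equations on the companion column. -/
def eqs (h W : Mat r) (p : Fin r → ℂ) (j : Fin r) : ℂ :=
  if (j : ℕ) = 0 then (0 - h * comp' p).det - (0 - h).det
  else eqDet h W p (j : ℕ)

/-- Linear part of the equations. -/
def eqMat (h W : Mat r) : Mat r :=
  Matrix.of fun j l => eqs h W (Pi.single l 1) j - eqs h W 0 j

/-- The solution of the equations. -/
noncomputable def solP (h W : Mat r) : Fin r → ℂ :=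
  -(((eqMat h W).det)⁻¹ • ((eqMat h W).adjugate *ᵥ eqs h W 0))

lemma det_affine (A h : Mat r) (p : Fin r → ℂ) :
    (A - h * comp' p).det - (A - h * comp' 0).det =
      ∑ l, p l * ((A - h * comp' (Pi.single l 1)).det - (A - h * comp' 0).det) := by
  rcases Nat.eq_zero_or_pos r with rfl | hr
  · simp [Matrix.det_isEmpty]
  let last : Fin r := ⟨r - 1, by omega⟩
  set B := A - h * comp' 0 with hB
  have key : ∀ q : Fin r → ℂ, A - h * comp' q = B.updateCol last (fun i => B i last - (h *ᵥ q) i) := by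
    intro q
    ext i j
    by_cases hj : j = last
    · subst hj
      simp [hB, Matrix.mul_apply, comp', last, Matrix.mulVec, dotProduct, show ¬(r - 1 + 1 < r) by omega]
    · have : (j : ℕ) + 1 < r := by
        have := j.isLt
        have : (j : ℕ) ≠ r - 1 := fun e => hj (Fin.ext e)
        omega
      simp [hB, Matrix.updateCol_ne hj, Matrix.mul_apply, comp', this]
  have hdet : ∀ q : Fin r → ℂ, (A - h * comp' q).det = B.det - B.cramer (h *ᵥ q) last := fun q => by
    rw [key q, show (fun i => B i last - (h *ᵥ q) i) = (fun i => B i last) - h *ᵥ q from rfl,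
      ← Matrix.cramer_apply, map_sub, Pi.sub_apply, Matrix.cramer_apply,
      Matrix.updateCol_eq_self]
  simp only [hdet, sub_sub_cancel_left]
  have hlin : B.cramer (h *ᵥ p) last = ∑ l, p l * B.cramer (h *ᵥ Pi.single l 1) last := by
    conv_lhs => rw [← Finset.univ_sum_single p]
    rw [Matrix.mulVec_sum, map_sum, Finset.sum_apply]
    refine Finset.sum_congr rfl fun l _ => ?_
    rw [show (Pi.single l (p l) : Fin r → ℂ) = p l • Pi.single l 1 by simp [← Pi.single_smul],
      Matrix.mulVec_smul, map_smul, Pi.smul_apply, smul_eq_mul]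
  rw [hlin]
  simp [Finset.sum_neg_distrib]

lemma eqs_affine (h W : Mat r) (p : Fin r → ℂ) :
    eqs h W p = eqs h W 0 + eqMat h W *ᵥ p := by
  funext j
  simp only [eqMat, Pi.add_apply, Matrix.mulVec, dotProduct, Matrix.of_apply]
  rw [← sub_eq_iff_eq_add']
  simp only [eqs, eqDet]
  split_ifs
  · rw [sub_sub_sub_cancel_right, det_affine]
    exact Finset.sum_congr rfl fun l _ => by ring
  · rw [sub_sub_sub_comm, det_affine _ h p, det_affine _ h p, ← Finset.sum_sub_distrib]
    exact Finset.sum_congr rfl fun l _ => by ring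

lemma eqs_solP {h W : Mat r} (hM : (eqMat h W).det ≠ 0) : eqs h W (solP h W) = 0 := by
  rw [eqs_affine, solP, Matrix.mulVec_neg, Matrix.mulVec_smul, Matrix.mulVec_mulVec,
    Matrix.mul_adjugate, Matrix.smul_mulVec, Matrix.one_mulVec, smul_smul, inv_mul_cancel₀ hM,
    one_smul, add_neg_cancel]

lemma solP_unique {h W : Mat r} (hM : (eqMat h W).det ≠ 0) {p : Fin r → ℂ}
    (hp : eqs h W p = 0) : p = solP h W := by
  have hz : eqMat h W *ᵥ (p - solP h W) = 0 := by
    have h1 := eqs_affine h W p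
    have h2 := eqs_affine h W (solP h W)
    rw [hp] at h1
    rw [eqs_solP hM] at h2
    rw [Matrix.mulVec_sub, sub_eq_zero]
    exact add_left_cancel (h1.symm.trans h2)
  exact sub_eq_zero.1 (Matrix.eq_zero_of_mulVec_eq_zero hM hz)

lemma poly_eq_of_eval {f g : ℂ[X]} (hf : f.Monic) (hg : g.Monic) (hd : f.degree = g.degree)
    (hfd : f.natDegree = r) (h : ∀ j : Fin r, f.eval ((j : ℕ) : ℂ) = g.eval ((j : ℕ) : ℂ)) :
    f = g := by
  classical
  refine sub_eq_zero.1 (eq_zero_of_degree_lt_of_eval_finset_eq_zero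
    (Finset.univ.image fun j : Fin r => ((j : ℕ) : ℂ)) ?_ fun z hz => ?_)
  · rw [Finset.card_image_of_injective _ (fun a b e => Fin.ext (by exact_mod_cast e)),
      Finset.card_univ, Fintype.card_fin]
    refine lt_of_lt_of_le (degree_sub_lt_left hd hf.ne_zero
      (by rw [hf.leadingCoeff, hg.leadingCoeff])) ?_
    rw [degree_eq_natDegree hf.ne_zero, hfd]
  · obtain ⟨j, -, rfl⟩ := Finset.mem_image.1 hz
    rw [eval_sub, h, sub_self]

lemma det_smul_sub (h W : Mat r) (hh : h.det ≠ 0) (hW : W.det = 1) (p : Fin r → ℂ) (t : ℂ) :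
    (t • (W * h) - h * comp' p).det =
      h.det * (h * comp' p * h⁻¹ * W⁻¹).charpoly.eval t := by
  have hu : IsUnit h.det := isUnit_iff_ne_zero.2 hh
  have hWu : IsUnit W.det := by rw [hW]; exact isUnit_one
  rw [Matrix.eval_charpoly]
  have e : t • (W * h) - h * comp' p =
      (Matrix.scalar (Fin r) t - h * comp' p * h⁻¹ * W⁻¹) * W * h := by
    rw [Matrix.scalar_apply, ← Matrix.smul_one_eq_diagonal, sub_mul, sub_mul]
    simp only [Matrix.smul_mul, Matrix.one_mul, Matrix.mul_assoc]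
    congr 1
    rw [← Matrix.mul_assoc W⁻¹ W h, Matrix.nonsing_inv_mul _ hWu, Matrix.one_mul,
      Matrix.nonsing_inv_mul _ hu, Matrix.mul_one]
  rw [e, Matrix.det_mul, Matrix.det_mul, hW, mul_one, mul_comm]

/-- The equations say that `x` has determinant one and is isospectral to `x W⁻¹`. -/
lemma eqs_eq_zero_iff {h W : Mat r} (hh : h.det ≠ 0) (hW : W.det = 1) (p : Fin r → ℂ) :
    eqs h W p = 0 ↔ (h * comp' p * h⁻¹).det = 1 ∧
      (h * comp' p * h⁻¹ * W⁻¹).charpoly = (h * comp' p * h⁻¹).charpoly := by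
  have hu : IsUnit h.det := isUnit_iff_ne_zero.2 hh
  set x := h * comp' p * h⁻¹ with hx
  have h0 : ∀ j : Fin r, (j : ℕ) = 0 → eqs h W p j = (-1) ^ r * h.det * (x.det - 1) := by
    intro j hj
    have e : h * comp' p = x * h := by
      rw [hx, Matrix.mul_assoc, Matrix.nonsing_inv_mul _ hu, Matrix.mul_one]
    rw [eqs, if_pos hj, zero_sub, zero_sub, Matrix.det_neg, Matrix.det_neg, Fintype.card_fin, e,
      Matrix.det_mul]
    ring
  have h1 : ∀ t : ℂ, eqDet h W p t =
      h.det * ((x * W⁻¹).charpoly.eval t - x.charpoly.eval t) := fun t => by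
    have e := det_smul_sub h 1 hh Matrix.det_one p t
    rw [Matrix.one_mul, inv_one, Matrix.mul_one] at e
    rw [eqDet, det_smul_sub h W hh hW, e]
    ring
  rcases Nat.eq_zero_or_pos r with rfl | hr
  · simp [Matrix.det_isEmpty, Subsingleton.elim (x * W⁻¹) x, funext_iff]
  constructor
  · intro he
    have hdet : x.det = 1 := by
      have := congrFun he ⟨0, hr⟩
      rw [h0 _ rfl, Pi.zero_apply] at this
      rcases mul_eq_zero.1 this with h' | h'
      · exact absurd h' (mul_ne_zero (by simp) hh)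
      · exact sub_eq_zero.1 h'
    refine ⟨hdet, poly_eq_of_eval (Matrix.charpoly_monic _) (Matrix.charpoly_monic _)
      (by rw [Matrix.charpoly_degree_eq_dim, Matrix.charpoly_degree_eq_dim])
      (by rw [Matrix.charpoly_natDegree_eq_dim, Fintype.card_fin]) fun j => ?_⟩
    rcases Nat.eq_zero_or_pos (j : ℕ) with hj | hj
    · rw [hj, Nat.cast_zero, Matrix.eval_charpoly, Matrix.eval_charpoly, map_zero, zero_sub,
        zero_sub, Matrix.det_neg, Matrix.det_neg, Matrix.det_mul, Matrix.det_nonsing_inv, hW,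
        Ring.inverse_one, mul_one]
    · have := congrFun he j
      rw [eqs, if_neg hj.ne', h1, Pi.zero_apply] at this
      exact sub_eq_zero.1 ((mul_eq_zero.1 this).resolve_left hh)
  · rintro ⟨hdet, hchar⟩
    funext j
    rcases Nat.eq_zero_or_pos (j : ℕ) with hj | hj
    · rw [h0 j hj, hdet, sub_self, mul_zero]; rfl
    · rw [eqs, if_neg hj.ne', h1, hchar, sub_self, mul_zero]; rfl

lemma kry_col (y : Mat r) (v : Fin r → ℂ) (j : Fin r) :
    kry y v *ᵥ Pi.single j 1 = y ^ (j : ℕ) *ᵥ v := by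
  funext i; simp [kry]

lemma comp'_col {p : Fin r → ℂ} (j : Fin r) (hj : (j : ℕ) + 1 < r) :
    comp' p *ᵥ Pi.single j 1 = Pi.single ⟨(j : ℕ) + 1, hj⟩ 1 := by
  funext i
  simp [comp', hj, Pi.single_apply, Fin.ext_iff]

lemma comp'_last {p : Fin r → ℂ} (j : Fin r) (hj : ¬(j : ℕ) + 1 < r) :
    comp' p *ᵥ Pi.single j 1 = p := by
  funext i
  simp [comp', hj]

lemma mulVec_sum_single (M : Mat r) (p : Fin r → ℂ) :
    M *ᵥ p = ∑ l, p l • (M *ᵥ Pi.single l 1) := by
  conv_lhs => rw [← Finset.univ_sum_single p]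
  rw [Matrix.mulVec_sum]
  refine Finset.sum_congr rfl fun l _ => ?_
  rw [← Matrix.mulVec_smul]
  congr 1
  simp [← Pi.single_smul]

/-- A Krylov matrix conjugates to companion form. -/
lemma kry_spec {y : Mat r} {v : Fin r → ℂ} (hd : (kry y v).det ≠ 0) :
    ∃ p, y * kry y v = kry y v * comp' p := by
  refine ⟨(kry y v)⁻¹ *ᵥ (y ^ r *ᵥ v), Matrix.ext_of_mulVec_single fun j => ?_⟩
  rw [← Matrix.mulVec_mulVec, ← Matrix.mulVec_mulVec, kry_col, Matrix.mulVec_mulVec, ← pow_succ']
  by_cases hj : (j : ℕ) + 1 < r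
  · rw [comp'_col j hj, kry_col]
  · rw [comp'_last j hj, Matrix.mulVec_mulVec, Matrix.mul_nonsing_inv _ (isUnit_iff_ne_zero.2 hd),
      Matrix.one_mulVec, show (j : ℕ) + 1 = r by omega]

lemma eq_kry {x h : Mat r} {p : Fin r → ℂ} (hr : 0 < r) (hxh : x * h = h * comp' p) :
    h = kry x (h *ᵥ Pi.single ⟨0, hr⟩ 1) := by
  refine Matrix.ext_of_mulVec_single fun j => ?_
  rw [kry_col]
  obtain ⟨j, hj⟩ := j
  induction j with
  | zero => simp
  | succ j ih =>
    have hjr : j < r := Nat.lt_of_succ_lt hj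
    have h1 := comp'_col (p := p) ⟨j, hjr⟩ hj
    calc h *ᵥ Pi.single ⟨j + 1, hj⟩ 1
        = h *ᵥ (comp' p *ᵥ Pi.single ⟨j, hjr⟩ 1) := by rw [h1]
      _ = x *ᵥ (h *ᵥ Pi.single ⟨j, hjr⟩ 1) := by
        rw [Matrix.mulVec_mulVec, ← hxh, ← Matrix.mulVec_mulVec]
      _ = x ^ (j + 1) *ᵥ (h *ᵥ Pi.single ⟨0, hr⟩ 1) := by
        rw [ih hjr, Matrix.mulVec_mulVec, pow_succ']

lemma charpoly_eq_of_companion {x h : Mat r} {p : Fin r → ℂ} (hh : h.det ≠ 0)
    (hxh : x * h = h * comp' p) :
    x.charpoly = Polynomial.X ^ r - ∑ l : Fin r, Polynomial.C (p l) * Polynomial.X ^ (l : ℕ) := by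
  rcases Nat.eq_zero_or_pos r with rfl | hr
  · simp
  set v := h *ᵥ Pi.single ⟨0, hr⟩ 1 with hv
  have hk := eq_kry hr hxh
  have hcol : ∀ l : Fin r, x ^ (l : ℕ) *ᵥ v = h *ᵥ Pi.single l 1 := fun l => by
    conv_rhs => rw [hk]
    rw [kry_col]
  set χ : ℂ[X] := X ^ r - ∑ l : Fin r, C (p l) * X ^ (l : ℕ) with hχ
  have hlt : (∑ l : Fin r, C (p l) * X ^ (l : ℕ)).degree < (r : WithBot ℕ) := degree_sum_fin_lt p
  have hχm : χ.Monic := monic_X_pow_sub hlt
  have hχd : χ.degree = r := by
    rw [hχ, degree_sub_eq_left_of_degree_lt (by simpa using hlt)]; simp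
  have hlast : x ^ r *ᵥ v = h *ᵥ p := by
    have hjr : r - 1 < r := by omega
    have := hcol ⟨r - 1, hjr⟩
    rw [show x ^ r = x ^ (r - 1 + 1) by rw [Nat.sub_add_cancel hr], pow_succ', ← Matrix.mulVec_mulVec, this, Matrix.mulVec_mulVec,
      hxh, ← Matrix.mulVec_mulVec, comp'_last _ (by simp; omega)]
  set q := x.charpoly - χ with hq
  have hqd : q.degree < (r : WithBot ℕ) := by
    refine lt_of_lt_of_le (degree_sub_lt_left ?_ (Matrix.charpoly_monic x).ne_zero
      (by rw [(Matrix.charpoly_monic x).leadingCoeff, hχm.leadingCoeff])) ?_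
    · rw [Matrix.charpoly_degree_eq_dim, hχd, Fintype.card_fin]
    · rw [Matrix.charpoly_degree_eq_dim, Fintype.card_fin]
  have hqv : aeval x q *ᵥ v = 0 := by
    simp only [hq, hχ, map_sub, map_sum, Matrix.aeval_self_charpoly, zero_sub, map_mul, aeval_C,
      aeval_X_pow, ← Algebra.smul_def, Matrix.neg_mulVec, Matrix.sub_mulVec, Matrix.sum_mulVec,
      Matrix.smul_mulVec, hcol, hlast]
    rw [← mulVec_sum_single, sub_self, neg_zero]
  have hcoef : ∀ l : Fin r, q.coeff l = 0 := fun l => by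
    have hz : h *ᵥ (fun i : Fin r => q.coeff i) = 0 := by
      rw [mulVec_sum_single]
      simp only [← hcol]
      rw [← hqv, aeval_eq_sum_range' (show q.natDegree < r by
        by_cases hq0 : q = 0
        · simpa [hq0] using hr
        · exact (natDegree_lt_iff_degree_lt hq0).2 hqd),
        ← Fin.sum_univ_eq_sum_range, Matrix.sum_mulVec]
      simp [Matrix.smul_mulVec]
    exact congrFun (Matrix.eq_zero_of_mulVec_eq_zero hh hz) l
  refine sub_eq_zero.1 (Polynomial.ext fun k => ?_)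
  rcases lt_or_ge k r with hk | hk
  · simpa [hq] using hcoef ⟨k, hk⟩
  · rw [coeff_zero]
    exact coeff_eq_zero_of_degree_lt (lt_of_lt_of_le hqd (by exact_mod_cast hk))

/-- The second matrix of the handle. -/
noncomputable def handB (h W : Mat r) (u : Fin r → ℂ) : Mat r :=
  kry (h * comp' (solP h W) * h⁻¹ * W⁻¹) u * h⁻¹

lemma handle_spec {h W : Mat r} (hh : h.det ≠ 0) (hW : W.det = 1) (hM : (eqMat h W).det ≠ 0)
    (u : Fin r → ℂ) :
    (h * comp' (solP h W) * h⁻¹).det = 1 ∧
      handB h W u * (h * comp' (solP h W) * h⁻¹) =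
        h * comp' (solP h W) * h⁻¹ * W⁻¹ * handB h W u := by
  obtain ⟨hdet, hchar⟩ := (eqs_eq_zero_iff hh hW _).1 (eqs_solP hM)
  refine ⟨hdet, ?_⟩
  have hu : IsUnit h.det := isUnit_iff_ne_zero.2 hh
  set x := h * comp' (solP h W) * h⁻¹ with hx
  set y := x * W⁻¹ with hy
  set p := solP h W
  have hxh : x * h = h * comp' p := by
    rw [hx, Matrix.mul_assoc, Matrix.nonsing_inv_mul _ hu, Matrix.mul_one]
  have hchp := charpoly_eq_of_companion hh hxh
  have hy0 : aeval y (Polynomial.X ^ r - ∑ l : Fin r, Polynomial.C (p l) * Polynomial.X ^ (l : ℕ)) = 0 := by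
    rw [← hchp, ← hchar, Matrix.aeval_self_charpoly]
  have hyk : y * kry y u = kry y u * comp' p := by
    refine Matrix.ext_of_mulVec_single fun j => ?_
    rw [← Matrix.mulVec_mulVec _ y (kry y u), ← Matrix.mulVec_mulVec _ (kry y u) (comp' p), kry_col,
      Matrix.mulVec_mulVec, ← pow_succ']
    by_cases hj : (j : ℕ) + 1 < r
    · rw [comp'_col j hj, kry_col]
    · have hjr : (j : ℕ) + 1 = r := by have := j.isLt; omega
      rw [comp'_last j hj, hjr, mulVec_sum_single (kry y u) p]
      simp only [kry_col]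
      simp only [map_sub, map_sum, map_mul, aeval_C, aeval_X_pow, ← Algebra.smul_def,
        sub_eq_zero] at hy0
      rw [hy0, Matrix.sum_mulVec]
      refine Finset.sum_congr rfl fun l _ => ?_
      rw [Matrix.smul_mulVec]
  have hB : handB h W u = kry y u * h⁻¹ := rfl
  rw [hB, Matrix.mul_assoc (kry y u), show h⁻¹ * x = comp' p * h⁻¹ by
    rw [hx, ← Matrix.mul_assoc, ← Matrix.mul_assoc, Matrix.nonsing_inv_mul _ hu, Matrix.one_mul],
    ← Matrix.mul_assoc, ← hyk, Matrix.mul_assoc]

/-- Any second matrix is of the parametrised form. -/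
lemma handB_eq {h W b : Mat r} (hh : h.det ≠ 0) (hr : 0 < r)
    (hb : b * (h * comp' (solP h W) * h⁻¹) = h * comp' (solP h W) * h⁻¹ * W⁻¹ * b) :
    handB h W ((b * h) *ᵥ Pi.single ⟨0, hr⟩ 1) = b := by
  have hu : IsUnit h.det := isUnit_iff_ne_zero.2 hh
  set x := h * comp' (solP h W) * h⁻¹ with hx
  set y := x * W⁻¹ with hy
  have hxh : x * h = h * comp' (solP h W) := by
    rw [hx, Matrix.mul_assoc, Matrix.nonsing_inv_mul _ hu, Matrix.mul_one]
  have h1 : y * (b * h) = b * h * comp' (solP h W) := by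
    rw [← Matrix.mul_assoc, ← hb, Matrix.mul_assoc b x h, hxh, Matrix.mul_assoc]
  rw [show handB h W _ = kry y _ * h⁻¹ from rfl, ← eq_kry hr h1, Matrix.mul_assoc,
    Matrix.mul_nonsing_inv _ hu, Matrix.mul_one]

section Witness

variable {m : ℕ}

/-- Diagonal witness entries. -/
noncomputable def witS (m : ℕ) (i : Fin (m + 1)) : ℂ :=
  if (i : ℕ) < m then 2 else ((2 : ℂ) ^ m)⁻¹

lemma det_witS (m : ℕ) : (Matrix.diagonal (witS m)).det = 1 := by
  rw [Matrix.det_diagonal, Fin.prod_univ_castSucc]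
  simp [witS]

lemma det_last_col (s : Fin (m + 1) → ℂ) (t : ℂ) (c : Fin (m + 1) → ℂ) :
    (((t • Matrix.diagonal s) - comp' 0).updateCol (Fin.last m) c).det =
      ∑ l : Fin (m + 1), c l * (t ^ (l : ℕ) * ∏ i : Fin (l : ℕ), s (Fin.castLE l.isLt.le i)) := by
  set B := ((t • Matrix.diagonal s) - comp' 0).updateCol (Fin.last m) c with hB
  let z : Fin (m + 1) → ℂ := fun l => t ^ (l : ℕ) * ∏ i : Fin (l : ℕ), s (Fin.castLE l.isLt.le i)
  have hBc : ∀ (l : Fin (m + 1)) (j : Fin m), B l j.castSucc =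
      (if l = j.castSucc then t * s l else 0) - if l = j.succ then 1 else 0 := fun l j => by
    simp [hB, Matrix.updateCol_ne (Fin.castSucc_lt_last j).ne, comp', Matrix.diagonal_apply,
      mul_ite, Fin.ext_iff]
  have hBl : ∀ l, B l (Fin.last m) = c l := fun l => by simp [hB]
  have hzB : ∀ j, (∑ l, z l • B l) j = if j = Fin.last m then ∑ l, z l * c l else 0 := by
    intro j
    simp only [Finset.sum_apply, Pi.smul_apply, smul_eq_mul]
    induction j using Fin.lastCases with
    | last => simp [hBl]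
    | cast j =>
      simp only [hBc, mul_sub, mul_ite, mul_one, mul_zero, Finset.sum_sub_distrib,
        Finset.sum_ite_eq', Finset.mem_univ, if_true, if_neg (Fin.castSucc_lt_last j).ne]
      simp only [z, Fin.val_castSucc, Fin.val_succ, pow_succ, Fin.prod_univ_castSucc]
      ring_nf
      exact sub_self _
  have h := Matrix.det_updateRow_sum B 0 z
  have hz0 : z 0 = 1 := by
    simp only [z, Fin.val_zero, pow_zero, one_mul]
    exact Finset.prod_eq_one fun i _ => (Nat.not_lt_zero _ i.isLt).elim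
  rw [hz0, one_smul] at h
  rw [← h, Matrix.det_succ_row_zero, Finset.sum_eq_single (Fin.last m) (fun j _ hj => by
    rw [Matrix.updateRow_self, hzB, if_neg hj]; ring) (by simp), Matrix.updateRow_self, hzB,
    if_pos rfl]
  rw [Matrix.det_of_isUpperTriangular fun i j (hij : j < i) => ?_]
  · have hdiag : ∀ i : Fin m, (B.updateRow 0 (∑ l, z l • B l)).submatrix Fin.succ
        (Fin.last m).succAbove i i = -1 := fun i => by
      rw [Matrix.submatrix_apply, Fin.succAbove_last, Matrix.updateRow_ne (Fin.succ_ne_zero i),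
        hBc, if_pos rfl, if_neg (by simp [Fin.ext_iff])]
      ring
    rw [Finset.prod_congr rfl fun i _ => hdiag i, Finset.prod_const, Finset.card_univ,
      Fintype.card_fin, Fin.val_last]
    rw [mul_comm, ← mul_assoc, ← pow_add, Even.neg_one_pow ⟨m, rfl⟩, one_mul]
    exact Finset.sum_congr rfl fun l _ => mul_comm _ _
  · rw [Matrix.submatrix_apply, Fin.succAbove_last, Matrix.updateRow_ne (Fin.succ_ne_zero i), hBc,
      if_neg (by simp [Fin.ext_iff]; omega),
      if_neg (fun e => by rw [Fin.succ_inj] at e; exact hij.ne e.symm), sub_zero]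

lemma det_eqMat_witness (m : ℕ) :
    (eqMat (1 : Mat (m + 1)) (Matrix.diagonal (witS m))).det ≠ 0 := by
  intro h0
  obtain ⟨c, hc0, hc⟩ := Matrix.exists_mulVec_eq_zero_iff.2 h0
  set S : Mat (m + 1) := Matrix.diagonal (witS m) with hS
  have hlin : ∀ (s : Fin (m + 1) → ℂ) (t : ℂ),
      (t • Matrix.diagonal s - comp' c).det - (t • Matrix.diagonal s - comp' 0).det =
        -∑ l : Fin (m + 1), c l * (t ^ (l : ℕ) * ∏ i : Fin (l : ℕ), s (Fin.castLE l.isLt.le i)) := by
    intro s t
    rw [← det_last_col, ← Matrix.cramer_apply]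
    set B := t • Matrix.diagonal s - comp' 0 with hB
    have e : t • Matrix.diagonal s - comp' c =
        B.updateCol (Fin.last m) ((fun i => B i (Fin.last m)) - c) := by
      ext i j
      induction j using Fin.lastCases with
      | last => simp [hB, comp']
      | cast j => simp [hB, comp']
    rw [e, ← Matrix.cramer_apply, map_sub, Pi.sub_apply]
    conv_lhs => enter [1, 1]; rw [Matrix.cramer_apply, Matrix.updateCol_eq_self]
    ring
  have hE : eqs 1 S c = eqs 1 S 0 := by
    rw [eqs_affine, hc, add_zero]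
  have hc00 : c 0 = 0 := by
    have h := congrFun hE 0
    simp only [eqs, Fin.val_zero, if_true, Matrix.one_mul, sub_left_inj] at h
    have := hlin (fun _ => 1) 0
    rw [zero_smul, h, sub_self, eq_comm, neg_eq_zero, Finset.sum_eq_single 0 (fun l _ hl => by
      rw [zero_pow fun e => hl (Fin.ext e)]; ring) (by simp)] at this
    simpa using this
  let f : ℂ[X] := ∑ l : Fin (m + 1), Polynomial.C (c l * ((2 : ℂ) ^ (l : ℕ) - 1)) * X ^ (l : ℕ)
  have hprod : ∀ l : Fin (m + 1), ∏ i : Fin (l : ℕ), witS m (Fin.castLE l.isLt.le i) = 2 ^ (l : ℕ) :=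
    fun l => by
      rw [Finset.prod_congr rfl fun i _ => show witS m (Fin.castLE l.isLt.le i) = 2 by
        have := i.isLt
        have := l.isLt
        rw [witS, if_pos (show (Fin.castLE l.isLt.le i : ℕ) < m by rw [Fin.val_castLE]; omega)]]
      simp
  have hev : ∀ j : Fin (m + 1), f.eval ((j : ℕ) : ℂ) = 0 := by
    intro j
    simp only [f, eval_finsetSum, eval_mul, eval_C, eval_pow, eval_X]
    rcases Nat.eq_zero_or_pos (j : ℕ) with hj | hj
    · rw [hj, Nat.cast_zero, Finset.sum_eq_single 0 (fun l _ hl => by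
        rw [zero_pow fun e => hl (Fin.ext e)]; ring) (by simp), hc00]
      ring
    · have h := congrFun hE j
      simp only [eqs, if_neg hj.ne', eqDet, Matrix.mul_one, Matrix.one_mul] at h
      have h1 := hlin (witS m) ((j : ℕ) : ℂ)
      have h2 := hlin (fun _ => 1) ((j : ℕ) : ℂ)
      rw [← hS] at h1
      rw [Matrix.diagonal_one] at h2
      simp only [hprod] at h1
      simp only [Finset.prod_const_one, mul_one] at h2
      have e : (∑ l : Fin (m + 1), c l * (2 ^ (l : ℕ) - 1) * ((j : ℕ) : ℂ) ^ (l : ℕ)) =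
          (∑ l : Fin (m + 1), c l * (((j : ℕ) : ℂ) ^ (l : ℕ) * 2 ^ (l : ℕ))) -
            ∑ l : Fin (m + 1), c l * ((j : ℕ) : ℂ) ^ (l : ℕ) := by
        rw [← Finset.sum_sub_distrib]
        exact Finset.sum_congr rfl fun l _ => by ring
      rw [e]
      linear_combination h1 - h2 - h
  have hf : f = 0 := by
    refine eq_zero_of_degree_lt_of_eval_finset_eq_zero
      (Finset.univ.image fun j : Fin (m + 1) => ((j : ℕ) : ℂ)) ?_ fun z hz => ?_
    · rw [Finset.card_image_of_injective _ (fun a b e => Fin.ext (by exact_mod_cast e)),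
        Finset.card_univ, Fintype.card_fin]
      exact degree_sum_fin_lt _
    · obtain ⟨j, -, rfl⟩ := Finset.mem_image.1 hz
      exact hev j
  refine hc0 (funext fun l => ?_)
  rcases Nat.eq_zero_or_pos (l : ℕ) with hl | hl
  · rw [show l = 0 from Fin.ext hl]; exact hc00
  · have := congrArg (fun p : ℂ[X] => p.coeff l) hf
    simp only [f, finsetSum_coeff, coeff_C_mul_X_pow, coeff_zero, Fin.val_inj,
      Finset.sum_ite_eq, Finset.mem_univ, if_true, mul_eq_zero] at this
    refine this.resolve_right (sub_ne_zero.2 ?_)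
    exact_mod_cast (Nat.one_lt_two_pow hl.ne').ne'

lemma det_kry_witness (m : ℕ) (p : Fin (m + 1) → ℂ) :
    (kry (comp' p * Matrix.diagonal fun i => (witS m i)⁻¹) (Pi.single 0 1)).det ≠ 0 := by
  set y := comp' p * Matrix.diagonal fun i => (witS m i)⁻¹ with hy
  have hw : ∀ i, witS m i ≠ 0 := fun i => by simp only [witS]; split_ifs <;> simp
  have key : ∀ (j : ℕ) (hj : j < m + 1), ∃ d : ℂ, d ≠ 0 ∧
      y ^ j *ᵥ (Pi.single 0 1 : Fin (m + 1) → ℂ) = d • Pi.single ⟨j, hj⟩ 1 := by
    intro j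
    induction j with
    | zero => exact fun _ => ⟨1, one_ne_zero, by rw [pow_zero, Matrix.one_mulVec, one_smul]; rfl⟩
    | succ j ih =>
      intro hj
      obtain ⟨d, hd, he⟩ := ih (Nat.lt_of_succ_lt hj)
      refine ⟨d * (witS m ⟨j, Nat.lt_of_succ_lt hj⟩)⁻¹, mul_ne_zero hd (inv_ne_zero (hw _)), ?_⟩
      rw [pow_succ', ← Matrix.mulVec_mulVec, he, Matrix.mulVec_smul, hy, ← Matrix.mulVec_mulVec,
        Matrix.diagonal_mulVec_single, mul_one,
        show (Pi.single (⟨j, Nat.lt_of_succ_lt hj⟩ : Fin (m + 1))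
          (witS m ⟨j, Nat.lt_of_succ_lt hj⟩)⁻¹ : Fin (m + 1) → ℂ) =
            (witS m ⟨j, Nat.lt_of_succ_lt hj⟩)⁻¹ • Pi.single ⟨j, Nat.lt_of_succ_lt hj⟩ 1 by
          simp [← Pi.single_smul],
        Matrix.mulVec_smul, comp'_col _ hj, smul_smul]
  choose d hd he using fun j : Fin (m + 1) => key j j.isLt
  have e : kry y (Pi.single 0 1) = Matrix.diagonal d := by
    ext i j
    simp only [kry, Matrix.of_apply, he, Pi.smul_apply, smul_eq_mul, Matrix.diagonal_apply,
      Pi.single_apply, mul_ite, mul_one, mul_zero, Fin.eta]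
    by_cases hij : i = j <;> simp [hij]
  rw [e, Matrix.det_diagonal]
  exact Finset.prod_ne_zero_iff.2 fun j _ => hd j

end Witness

end Vale.Agent.P002
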