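import Vale.Agent.P002.Extension

/-!
An invariant subspace inside one block refines the block decomposition without changing the values
of conjugation invariant functions.
-/

namespace Vale.Agent.P002

open Matrix

variable {r n k : ℕ}

lemma BD.mul {blk : Fin r → Fin k} {g h : Mat r} (hg : BD blk g) (hh : BD blk h) :
    BD blk (g * h) := fun a b hab => by
  rw [Matrix.mul_apply]
  refine Finset.sum_eq_zero fun c _ => ?_
  by_cases hac : blk a = blk c
  · rw [hh c b (fun e => hab (hac.trans e)), mul_zero]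
  · rw [hg a c hac, zero_mul]

lemma BD.inv {blk : Fin r → Fin k} {M : (Mat r)ˣ} (h : BD blk M.val) : BD blk M⁻¹.val :=
  fun a b hab => by
    have hc : Commute M⁻¹.val (proj blk (blk a)) := (h.commute_proj (blk a)).units_inv_left
    have h1 := congrFun (congrFun hc.eq a) b
    simp only [proj, Matrix.mul_diagonal, Matrix.diagonal_mul, Function.comp_apply, if_true,
      if_neg (Ne.symm hab), mul_zero, one_mul] at h1
    exact h1.symm

/-- A basis change inside block `j` carries a coordinate subspace onto an invariant one. -/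
lemma exists_adapted {blk : Fin r → Fin k} {j : Fin k} {U : Submodule ℂ (Fin r → ℂ)}
    (hU0 : U ≠ ⊥) (hsupp : ∀ u ∈ U, ∀ a, blk a ≠ j → u a = 0)
    (hlt : ∃ w : Fin r → ℂ, (∀ a, blk a ≠ j → w a = 0) ∧ w ∉ U) :
    ∃ (M : (Mat r)ˣ) (T : Finset (Fin r)), T.Nonempty ∧ T ⊆ blkSet blk j ∧
      (∃ a, blk a = j ∧ a ∉ T) ∧ BD blk M.val ∧ (∀ b ∈ T, M.val *ᵥ Pi.single b 1 ∈ U) ∧
      ∀ u ∈ U, ∃ y : Fin r → ℂ, (∀ a, a ∉ T → y a = 0) ∧ M.val *ᵥ y = u := by
  classical
  let J := {a : Fin r // blk a = j}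
  let R : (Fin r → ℂ) →ₗ[ℂ] (J → ℂ) := LinearMap.funLeft ℂ ℂ Subtype.val
  set U' := U.map R
  obtain ⟨C, hC⟩ := exists_isCompl U'
  let bU := Module.finBasis ℂ U'
  let bC := Module.finBasis ℂ C
  let B := (bU.prod bC).map (Submodule.prodEquivOfIsCompl U' C hC)
  let e := B.indexEquiv (Pi.basisFun ℂ J)
  have hBl : ∀ i, B (Sum.inl i) = (bU i : J → ℂ) := fun i => by
    simp [B, Module.Basis.map_apply, Module.Basis.prod_apply, Submodule.coe_prodEquivOfIsCompl']
  let Mm : Mat r := Matrix.of fun a b =>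
    if h : blk a = j ∧ blk b = j then B (e.symm ⟨b, h.2⟩) ⟨a, h.1⟩ else if a = b then 1 else 0
  have hMbd : BD blk Mm := fun a b hab => by
    simp only [Mm, Matrix.of_apply]
    rw [dif_neg (fun h => hab (h.1.trans h.2.symm)), if_neg (fun h => hab (congrArg blk h))]
  have hin : ∀ (x : Fin r → ℂ) (a : J),
      (Mm *ᵥ x) a.1 = ∑ b : J, x b.1 * B (e.symm b) a := by
    intro x a
    show ∑ b, Mm a.1 b * x b = _
    rw [← Finset.sum_filter_of_ne (p := fun b => blk b = j) fun b _ hb => ?_,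
      Finset.sum_subtype (p := fun b => blk b = j) (Finset.univ.filter fun b => blk b = j)
        (fun b => by simp) (fun b => Mm a.1 b * x b)]
    · refine Finset.sum_congr rfl fun b _ => ?_
      simp only [Mm, Matrix.of_apply]
      rw [dif_pos ⟨a.2, b.2⟩, mul_comm]
    · by_contra hbj
      exact hb (by rw [hMbd a.1 b (fun e => hbj (e.symm.trans a.2)), zero_mul])
  have hout : ∀ (x : Fin r → ℂ) a, blk a ≠ j → (Mm *ᵥ x) a = x a := by
    intro x a ha
    show ∑ b, Mm a b * x b = _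
    rw [Finset.sum_eq_single a (fun b _ hb => ?_) (by simp)]
    · simp [Mm, ha]
    · simp [Mm, ha, Ne.symm hb]
  have hMu : IsUnit Mm := by
    refine Matrix.mulVec_injective_iff_isUnit.1 fun x x' hx => ?_
    have h0 : Mm *ᵥ (x - x') = 0 := by rw [Matrix.mulVec_sub, sub_eq_zero]; exact hx
    rw [← sub_eq_zero]
    funext a
    by_cases ha : blk a = j
    · have hli := Fintype.linearIndependent_iff.1
        (B.linearIndependent.comp e.symm e.symm.injective) (fun b : J => (x - x') b.1) (by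
          funext a'
          rw [Finset.sum_apply]
          exact ((hin (x - x') a').symm.trans (congrFun h0 a'.1)))
      exact hli ⟨a, ha⟩
    · rw [← hout (x - x') a ha, h0]
  let τ : Fin (Module.finrank ℂ U') → Fin r := fun i => (e (Sum.inl i)).1
  have hcol : ∀ i (u : Fin r → ℂ), u ∈ U → R u = (bU i : J → ℂ) → Mm *ᵥ Pi.single (τ i) 1 = u := by
    intro i u hu hRu
    funext a
    by_cases ha : blk a = j
    · rw [hin _ ⟨a, ha⟩, Finset.sum_eq_single (e (Sum.inl i))]
      · rw [Pi.single_eq_same, one_mul, Equiv.symm_apply_apply, hBl, ← hRu]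
        rfl
      · intro b _ hb
        rw [Pi.single_eq_of_ne (fun h => hb (Subtype.ext h)), zero_mul]
      · simp
    · rw [hout _ a ha, hsupp u hu a ha, Pi.single_eq_of_ne]
      intro h
      exact ha (h ▸ (e (Sum.inl i)).2)
  have hlift : ∀ i, ∃ u ∈ U, R u = (bU i : J → ℂ) := fun i => Submodule.mem_map.1 (bU i).2
  have hRinj : ∀ u w : Fin r → ℂ, (∀ a, blk a ≠ j → u a = 0) → (∀ a, blk a ≠ j → w a = 0) →
      R u = R w → u = w := fun u w hu hw h => funext fun a => by
    by_cases ha : blk a = j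
    · exact congrFun h ⟨a, ha⟩
    · rw [hu a ha, hw a ha]
  refine ⟨hMu.unit, Finset.univ.image τ, ?_, ?_, ?_, hMbd, ?_, ?_⟩
  · obtain ⟨u, hu, hu0⟩ := Submodule.exists_mem_ne_zero_of_ne_bot hU0
    have : Nontrivial U' := ⟨⟨R u, Submodule.mem_map_of_mem hu⟩, 0, fun h =>
      hu0 (hRinj u 0 (hsupp u hu) (fun _ _ => rfl)
        ((congrArg Subtype.val h).trans (map_zero R).symm))⟩
    exact ⟨τ ⟨0, Module.finrank_pos⟩, Finset.mem_image_of_mem _ (Finset.mem_univ _)⟩
  · intro a ha
    obtain ⟨i, -, rfl⟩ := Finset.mem_image.1 ha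
    exact mem_blkSet.2 (e (Sum.inl i)).2
  · obtain ⟨w, hw, hwU⟩ := hlt
    have hC0 : C ≠ ⊥ := fun h => by
      have hmem : R w ∈ U' := by
        rw [show U' = ⊤ from eq_top_of_isCompl_bot (h ▸ hC)]; trivial
      obtain ⟨u, hu, hRu⟩ := Submodule.mem_map.1 hmem
      exact hwU (hRinj u w (hsupp u hu) hw hRu ▸ hu)
    have : Nontrivial C := Submodule.nontrivial_iff_ne_bot.2 hC0
    refine ⟨(e (Sum.inr ⟨0, Module.finrank_pos⟩)).1, (e _).2, fun h => ?_⟩
    obtain ⟨i, -, hi⟩ := Finset.mem_image.1 h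
    simpa using e.injective (Subtype.ext hi)
  · intro b hb
    obtain ⟨i, -, rfl⟩ := Finset.mem_image.1 hb
    obtain ⟨u, hu, hRu⟩ := hlift i
    rw [IsUnit.unit_spec, hcol i u hu hRu]
    exact hu
  · intro u hu
    choose v hv hRv using hlift
    set c := bU.repr ⟨R u, Submodule.mem_map_of_mem hu⟩
    refine ⟨∑ i, c i • Pi.single (τ i) 1, fun a ha => ?_, ?_⟩
    · rw [Finset.sum_apply]
      refine Finset.sum_eq_zero fun i _ => ?_
      rw [Pi.smul_apply, Pi.single_eq_of_ne (fun h : a = τ i => ha (h ▸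
        Finset.mem_image_of_mem _ (Finset.mem_univ i))), smul_zero]
    · rw [IsUnit.unit_spec, Matrix.mulVec_sum]
      simp only [Matrix.mulVec_smul, hcol _ _ (hv _) (hRv _)]
      refine hRinj _ _ (hsupp _ (U.sum_mem fun i _ => U.smul_mem _ (hv i))) (hsupp u hu) ?_
      have h := congrArg Subtype.val (bU.sum_repr ⟨R u, Submodule.mem_map_of_mem hu⟩)
      simp only [map_sum, map_smul, hRv]
      rw [Submodule.coe_sum] at h
      exact h

/-- A block with a proper invariant subspace splits into two blocks. -/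
theorem refine_block [NeZero r] {P : MvPolynomial (Var n r) ℂ} (hP : ConjInv P) {k : ℕ}
    {blk : Fin r → Fin k} (hsurj : Function.Surjective blk) {σ : Handles n (SLC r)}
    (hσ : relator σ = 1) (hBD : ∀ v, BD blk (gens σ v)) {j : Fin k}
    {U : Submodule ℂ (Fin r → ℂ)} (hU0 : U ≠ ⊥) (hsupp : ∀ u ∈ U, ∀ a, blk a ≠ j → u a = 0)
    (hlt : ∃ w : Fin r → ℂ, (∀ a, blk a ≠ j → w a = 0) ∧ w ∉ U)
    (hinv : ∀ v, ∀ u ∈ U, gens σ v *ᵥ u ∈ U) :
    ∃ blk' : Fin r → Fin (k + 1), Function.Surjective blk' ∧ ∃ σ' : Handles n (SLC r),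
      relator σ' = 1 ∧ (∀ v, BD blk' (gens σ' v)) ∧
      MvPolynomial.eval (coord σ') P = MvPolynomial.eval (coord σ) P := by
  classical
  obtain ⟨M, T, hTne, hTj, ⟨a₀, ha₀, ha₀T⟩, hM, hMU, hUM⟩ := exists_adapted hU0 hsupp hlt
  set ρ := mapH (conjU M⁻¹) σ with hρdef
  have hρ : relator ρ = 1 := by rw [hρdef, mapH_relator, hσ, map_one]
  have hg : ∀ v, gens ρ v = M⁻¹.val * gens σ v * M.val := fun v => by
    rw [hρdef, gens_mapH, conjU_val, inv_inv]
    obtain ⟨i, b⟩ := v
    cases b <;> simp [gens]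
  have hρBD : ∀ v, BD blk (gens ρ v) := fun v => by
    rw [hg]; exact ((hM.inv).mul (hBD v)).mul hM
  have hTri : ∀ v, Tri T (gens ρ v) := fun v a b ha hb => by
    obtain ⟨y, hy, hyv⟩ := hUM _ (hinv v _ (hMU b hb))
    have h1 : gens ρ v *ᵥ Pi.single b 1 = y := by
      rw [hg, ← Matrix.mulVec_mulVec, ← Matrix.mulVec_mulVec, ← hyv, Matrix.mulVec_mulVec,
        M.inv_mul, Matrix.one_mulVec]
    have h2 := congrFun h1 a
    rw [Matrix.mulVec_single_one, hy a ha] at h2
    exact h2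
  obtain ⟨σ', hσ', hg', hev⟩ := torus_limit hP T hρ hTri
  refine ⟨fun a => if a ∈ T then Fin.last k else (blk a).castSucc, fun i => ?_, σ', hσ',
    fun v a b hab => ?_, by rw [hev, hρdef, hP.conjU _ hσ]⟩
  · induction i using Fin.lastCases with
    | last => exact ⟨hTne.choose, if_pos hTne.choose_spec⟩
    | cast i =>
      by_cases hij : i = j
      · exact ⟨a₀, by simp only [if_neg ha₀T, ha₀, hij]⟩
      · obtain ⟨a, ha⟩ := hsurj i
        refine ⟨a, ?_⟩
        simp only [if_neg fun h => hij (ha.symm.trans (mem_blkSet.1 (hTj h))), ha]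
  · rw [hg', scaleS, Matrix.of_apply]
    by_cases ha : a ∈ T <;> by_cases hb : b ∈ T
    · exact absurd (by simp [ha, hb]) hab
    · simp [ha, hb]
    · simp [ha, hb, hTri v a b ha hb]
    · simp only [ha, hb, if_false, false_and]
      exact hρBD v a b fun h => hab (by simp [ha, hb, h])

end Vale.Agent.P002
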