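import Vale.Agent.P002.Blocks
import Vale.Agent.P002.Refine

/-!
Conjugation-invariant polynomials vanishing on integral representations vanish on all of them.
-/

namespace Vale.Agent.P002

open Matrix

variable {r n : ℕ}

lemma card_le_of_surjective {k : ℕ} {blk : Fin r → Fin k} (h : Function.Surjective blk) :
    k ≤ r := by
  simpa using Fintype.card_le_of_surjective blk h

/-- Block diagonal representations. -/
lemma eval_zero_of_bd [NeZero r] (hr : 2 ≤ r) (hn : 1 ≤ n) {P : MvPolynomial (Var n r) ℂ}
    (hP : ConjInv P) (hP0 : ∀ y ∈ intPts n r, MvPolynomial.eval y P = 0) (d : ℕ) :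
    ∀ (k : ℕ) (blk : Fin r → Fin k), r - k = d → Function.Surjective blk →
      ∀ σ : Handles n (SLC r), relator σ = 1 → (∀ v, BD blk (gens σ v)) →
        MvPolynomial.eval (coord σ) P = 0 := by
  induction d using Nat.strong_induction_on with
  | _ d ih =>
    intro k blk hd hsurj σ hσ hBD
    by_cases hirr : IrredBlocks blk σ
    · exact eval_zero_of_irred_blocks hr hn hsurj hσ hBD hirr hP hP0
    simp only [IrredBlocks, not_forall] at hirr
    obtain ⟨j, U, hU0, hsupp, hinv, w, hw, hwU⟩ := hirr
    obtain ⟨blk', hsurj', σ', hσ', hBD', he⟩ :=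
      refine_block hP hsurj hσ hBD hU0 hsupp ⟨w, hw, hwU⟩ hinv
    have := card_le_of_surjective hsurj'
    rw [← he]
    exact ih (r - (k + 1)) (by omega) (k + 1) blk' rfl hsurj' σ' hσ' hBD'

/-- Invariant polynomials vanishing on integral representations vanish on all representations. -/
theorem eval_zero_of_invariant [NeZero r] (hr : 2 ≤ r) (hn : 1 ≤ n)
    {P : MvPolynomial (Var n r) ℂ} (hP : ConjInv P)
    (hP0 : ∀ y ∈ intPts n r, MvPolynomial.eval y P = 0) {σ : Handles n (SLC r)}
    (hσ : relator σ = 1) : MvPolynomial.eval (coord σ) P = 0 :=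
  eval_zero_of_bd hr hn hP hP0 (r - 1) 1 (fun _ => 0) rfl
    (fun j => ⟨0, Subsingleton.elim _ _⟩) σ hσ fun _ _ _ h => absurd rfl h

end Vale.Agent.P002
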