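import Mathlib

/-!
Matrices whose eigenvalues satisfy no multiplicative relation, and how to avoid the relations.
-/

namespace Vale.Agent.P002

open Matrix MvPolynomial

variable {r : ℕ}

/-- The two exponent vectors differ by a constant vector. -/
def ConstDiff (d d' : Fin r → ℕ) : Prop := ∃ k : ℤ, ∀ i, (d i : ℤ) - d' i = k

/-- Equal monomials have exponents differing by a constant. -/
def Indep (lam : Fin r → ℂ) : Prop :=
  ∀ d d' : Fin r → ℕ, ∏ i, lam i ^ d i = ∏ i, lam i ^ d' i → ConstDiff d d'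

/-- Diagonalisable with independent eigenvalues. -/
def GoodW (W : Matrix (Fin r) (Fin r) ℂ) : Prop :=
  ∃ (P : (Matrix (Fin r) (Fin r) ℂ)ˣ) (lam : Fin r → ℂ), Indep lam ∧
    W = P.val * diagonal lam * (P⁻¹).val

lemma indep_prod_eq {lam μ : Fin r → ℂ} (hl : Indep lam) (hμ : ∏ i, μ i = 1) {d d' : Fin r → ℕ}
    (h : ∏ i, lam i ^ d i = ∏ i, lam i ^ d' i) : ∏ i, μ i ^ d i = ∏ i, μ i ^ d' i := by
  obtain ⟨k, hk⟩ := hl d d' h
  have hne : ∀ i, μ i ≠ 0 := fun i hi => by
    rw [Finset.prod_eq_zero (Finset.mem_univ i) hi] at hμ; exact zero_ne_one hμ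
  calc ∏ i, μ i ^ d i = ∏ i, μ i ^ d' i * μ i ^ k := Finset.prod_congr rfl fun i _ => by
        rw [← zpow_natCast, ← zpow_natCast, ← zpow_add₀ (hne i)]
        congr 1
        linarith [hk i]
    _ = ∏ i, μ i ^ d' i := by rw [Finset.prod_mul_distrib, Finset.prod_zpow, hμ, _root_.one_zpow, mul_one]

/-- A polynomial vanishing along the powers of independent eigenvalues vanishes on the torus. -/
lemma eval_eq_zero_of_powers {lam μ : Fin r → ℂ} (hl : Indep lam) (hμ : ∏ i, μ i = 1)
    {H : MvPolynomial (Fin r) ℂ} (h : ∀ n : ℕ, eval (fun i => lam i ^ n) H = 0) :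
    eval μ H = 0 := by
  classical
  let v : (Fin r →₀ ℕ) → ℂ := fun d => ∏ i, lam i ^ d i
  let T := H.support.image v
  let c : ℂ → ℂ := fun u => ∑ d ∈ H.support.filter (fun d => v d = u), coeff d H
  have hsum : ∀ n : ℕ, ∑ u ∈ T, c u * u ^ n = 0 := fun n => by
    rw [← h n, eval_eq']
    refine Eq.trans ?_ (Finset.sum_fiberwise_of_maps_to
      (fun d hd => Finset.mem_image_of_mem v hd) _)
    refine Finset.sum_congr rfl fun u _ => ?_
    rw [Finset.sum_mul]
    refine Finset.sum_congr rfl fun d hd => ?_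
    rw [← (Finset.mem_filter.1 hd).2, ← Finset.prod_pow]
    exact congrArg _ (Finset.prod_congr rfl fun i _ => by rw [← pow_mul, ← pow_mul, mul_comm])
  have hc : ∀ u ∈ T, c u = 0 := by
    intro u hu
    have := eq_zero_of_forall_pow_sum_mul_pow_eq_zero (f := fun j => ((T.equivFin.symm j : T) : ℂ))
      (v := fun j => c (T.equivFin.symm j))
      (Subtype.val_injective.comp T.equivFin.symm.injective) fun n => by
        rw [← hsum n, ← T.sum_coe_sort]
        exact Equiv.sum_comp T.equivFin.symm (fun u : T => c u * (u : ℂ) ^ (n : ℕ))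
    simpa using congrFun this (T.equivFin ⟨u, hu⟩)
  rw [eval_eq', ← Finset.sum_fiberwise_of_maps_to (fun d hd => Finset.mem_image_of_mem v hd)]
  refine Finset.sum_eq_zero fun u hu => ?_
  obtain ⟨d₀, hd₀, rfl⟩ := Finset.mem_image.1 hu
  calc _ = ∑ d ∈ H.support.filter (fun d => v d = v d₀), coeff d H * ∏ i, μ i ^ d₀ i :=
        Finset.sum_congr rfl fun d hd => by
          rw [indep_prod_eq hl hμ (Finset.mem_filter.1 hd).2]
    _ = 0 := by
      rw [← Finset.sum_mul]
      have := hc _ hu
      simp only [c] at this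
      rw [this, zero_mul]

/-- The symmetrised obstruction to a relation. -/
noncomputable def relPoly (d d' : Fin r → ℕ) : MvPolynomial (Fin r) ℂ :=
  ∏ σ : Equiv.Perm (Fin r), (∏ i, X (σ i) ^ d i - ∏ i, X (σ i) ^ d' i)

lemma relPoly_symm (d d' : Fin r → ℕ) : (relPoly d d').IsSymmetric := fun e => by
  simp only [relPoly, map_prod, map_sub, map_pow, rename_X]
  exact Fintype.prod_equiv (Equiv.mulLeft e) _ _ fun σ => rfl

lemma relPoly_ne {d d' : Fin r → ℕ} (h : d ≠ d') : relPoly d d' ≠ 0 := by
  refine Finset.prod_ne_zero_iff.2 fun σ _ => sub_ne_zero.2 fun e => h ?_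
  have key : ∀ d : Fin r → ℕ, (∏ i, X (σ i) ^ d i : MvPolynomial (Fin r) ℂ) =
      monomial (Finsupp.equivFunOnFinite.symm fun i => d (σ.symm i)) 1 := fun d => by
    rw [Fintype.prod_equiv σ (fun i => X (σ i) ^ d i)
      (fun i => (X i : MvPolynomial (Fin r) ℂ) ^ d (σ.symm i)) (fun i => by simp)]
    rw [monomial_eq, map_one, one_mul, Finsupp.prod_fintype _ _ fun i => pow_zero _]
    simp
  rw [key, key] at e
  have := Finsupp.equivFunOnFinite.symm.injective (monomial_left_injective one_ne_zero e)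
  funext i
  simpa using congrFun this (σ i)

/-- The obstruction as a polynomial in the entries of the matrix. -/
noncomputable def entryPoly (d d' : Fin r → ℕ) : MvPolynomial (Fin r × Fin r) ℂ :=
  bind₁ (fun i : Fin r => C ((-1 : ℂ) ^ ((i : ℕ) + 1)) *
      (Matrix.charpoly.univ ℂ (Fin r)).coeff (r - ((i : ℕ) + 1)))
    ((esymmAlgEquiv (Fin r) ℂ (Fintype.card_fin r)).symm ⟨relPoly d d', relPoly_symm d d'⟩)

lemma eval_entryPoly (d d' : Fin r → ℕ) {W : Matrix (Fin r) (Fin r) ℂ} {lam : Fin r → ℂ}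
    (h : W.charpoly.roots = Finset.univ.val.map lam) :
    eval (fun p => W p.1 p.2) (entryPoly d d') = eval lam (relPoly d d') := by
  rw [entryPoly, eval, eval₂Hom_bind₁]
  set R := (esymmAlgEquiv (Fin r) ℂ (Fintype.card_fin r)).symm
    ⟨relPoly d d', relPoly_symm d d'⟩ with hR
  have e : relPoly d d' = aeval (fun i : Fin r => esymm (Fin r) ℂ ((i : ℕ) + 1)) R := by
    have := congrArg Subtype.val ((esymmAlgEquiv (Fin r) ℂ (Fintype.card_fin r)).apply_symm_apply
      ⟨relPoly d d', relPoly_symm d d'⟩)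
    rw [← hR, esymmAlgEquiv_apply, esymmAlgHom_apply] at this
    exact this.symm
  have hcard : Multiset.card W.charpoly.roots = W.charpoly.natDegree := by
    rw [h, Matrix.charpoly_natDegree_eq_dim]; simp
  rw [show eval lam (relPoly d d') = aeval lam (relPoly d d') from rfl, e,
    ← AlgHom.comp_apply, comp_aeval]
  change eval₂Hom _ _ R = eval₂Hom _ _ R
  congr 1
  refine congrArg _ (funext fun i => ?_)
  rw [map_mul, eval₂Hom_C, aeval_esymm_eq_multiset_esymm]
  have hc := Matrix.charpoly.univ_coeff_eval₂Hom (Fin r) (RingHom.id ℂ) (fun p => W p.1 p.2)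
    (r - ((i : ℕ) + 1))
  rw [hc, show Matrix.of (Function.curry fun p : Fin r × Fin r => W p.1 p.2) = W from rfl,
    Polynomial.coeff_eq_esymm_roots_of_card hcard (by rw [Matrix.charpoly_natDegree_eq_dim]; simp),
    (Matrix.charpoly_monic W).leadingCoeff, Matrix.charpoly_natDegree_eq_dim, Fintype.card_fin,
    show r - (r - ((i : ℕ) + 1)) = (i : ℕ) + 1 by omega, h]
  simp only [RingHom.id_apply, one_mul, ← mul_assoc, ← pow_add, Even.neg_one_pow ⟨_, rfl⟩]

/-- The predicate cutting out `GoodW`. -/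
def Avoids (W : Matrix (Fin r) (Fin r) ℂ) : Prop :=
  ∀ d d' : Fin r → ℕ, ¬ ConstDiff d d' → eval (fun p => W p.1 p.2) (entryPoly d d') ≠ 0

lemma goodW_of_avoids {W : Matrix (Fin r) (Fin r) ℂ} (h : Avoids W) : GoodW W := by
  classical
  have hcard : Multiset.card W.charpoly.roots = r := by
    rw [Polynomial.splits_iff_card_roots.1 (IsAlgClosed.splits _),
      Matrix.charpoly_natDegree_eq_dim, Fintype.card_fin]
  obtain ⟨l, hl⟩ := Quot.exists_rep W.charpoly.roots
  have hlen : l.length = r := by rw [← hcard, ← hl]; rfl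
  subst hlen
  let lam : Fin l.length → ℂ := l.get
  have hroots : W.charpoly.roots = Finset.univ.val.map lam := by
    rw [← hl, Fin.univ_val_map, List.ofFn_get]; rfl
  have hind : Indep lam := fun d d' he => by
    by_contra hcd
    refine h d d' hcd ?_
    rw [eval_entryPoly d d' hroots, relPoly, map_prod]
    refine Finset.prod_eq_zero (Finset.mem_univ (Equiv.refl _)) ?_
    simp [map_prod, he]
  have hinj : Function.Injective lam := by
    intro i j hij
    by_contra hne
    obtain ⟨k, hk⟩ := hind (Pi.single i 1) (Pi.single j 1) (by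
      simp [Pi.single_apply, pow_ite, hij])
    have := hk i; have := hk j
    simp [hne, Ne.symm hne] at *
    omega
  have hv : ∀ i, ∃ v : Fin l.length → ℂ, v ≠ 0 ∧ W *ᵥ v = lam i • v := fun i => by
    have hi : W.charpoly.IsRoot (lam i) := by
      refine (Polynomial.mem_roots (Matrix.charpoly_monic W).ne_zero).1 ?_
      rw [hroots]
      exact Multiset.mem_map_of_mem lam (Finset.mem_univ i)
    rw [Polynomial.IsRoot, Matrix.eval_charpoly] at hi
    obtain ⟨v, hv0, hv⟩ := Matrix.exists_mulVec_eq_zero_iff.2 hi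
    refine ⟨v, hv0, ?_⟩
    rw [Matrix.sub_mulVec, sub_eq_zero] at hv
    simpa using hv.symm
  choose v hv0 hv using hv
  let P : Matrix (Fin l.length) (Fin l.length) ℂ := Matrix.of fun a i => v i a
  have hP : IsUnit P := Matrix.linearIndependent_cols_iff_isUnit.1 (by
    refine Module.End.eigenvectors_linearIndependent' (Matrix.toLin' W) lam hinj v fun i => ?_
    exact ⟨Module.End.mem_eigenspace_iff.2 (by simpa using hv i), hv0 i⟩)
  obtain ⟨U, hU⟩ := hP
  have hWP : W * U.val = U.val * diagonal lam := by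
    rw [hU]
    ext a i
    have := congrFun (hv i) a
    simp only [Matrix.mulVec, dotProduct, Pi.smul_apply, smul_eq_mul] at this
    rw [Matrix.mul_diagonal, Matrix.mul_apply]
    simpa [P, mul_comm] using this
  exact ⟨U, lam, hind, by rw [← hWP, mul_assoc, Units.mul_inv, mul_one]⟩

lemma roots_prod_fin (τ : Fin r → ℂ) :
    (∏ i, (Polynomial.X - Polynomial.C (τ i))).roots = Finset.univ.val.map τ := by
  rw [Finset.prod_eq_multiset_prod,
    show Multiset.map (fun i => Polynomial.X - Polynomial.C (τ i)) Finset.univ.val =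
      (Finset.univ.val.map τ).map (fun a => Polynomial.X - Polynomial.C a) by
      rw [Multiset.map_map]; rfl, Polynomial.roots_multiset_prod_X_sub_C]

lemma avoids_of_diagonal {d d' : Fin r → ℕ} (τ : Fin r → ℂ) :
    eval (fun p => (diagonal τ : Matrix (Fin r) (Fin r) ℂ) p.1 p.2) (entryPoly d d') =
      eval τ (relPoly d d') := by
  refine eval_entryPoly d d' ?_
  rw [Matrix.charpoly_diagonal]
  exact roots_prod_fin τ

/-- Countably many nonzero polynomials have a common non-zero. -/
lemma exists_avoid {ι κ : Type*} [Countable κ] [Fintype ι] (P : κ → MvPolynomial ι ℂ)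
    (h : ∀ k, P k ≠ 0) : ∃ x : ι → ℂ, ∀ k, eval x (P k) ≠ 0 := by
  have hcont : ∀ k, Continuous fun x : ι → ℂ => eval x (P k) := fun k => continuous_eval (P k)
  have hd := dense_iInter_of_isOpen (f := fun k => {x : ι → ℂ | eval x (P k) ≠ 0})
    (fun k => isOpen_ne.preimage (hcont k)) fun k => by
      intro x
      rw [Metric.mem_closure_iff]
      intro ε hε
      by_contra hcon
      push Not at hcon
      refine h k (funext_set (fun i => Metric.ball (x i) ε) (fun i => ?_) fun y hy => ?_)
      · exact infinite_of_mem_nhds (x i) (Metric.ball_mem_nhds _ hε)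
      · by_contra hne
        have := hcon y (by simpa using hne)
        rw [dist_comm] at this
        exact absurd this (not_le.2 ((dist_pi_lt_iff hε).2 fun i => hy i (Set.mem_univ _)))
  obtain ⟨x, hx⟩ := hd.nonempty
  exact ⟨x, fun k => Set.mem_iInter.1 hx k⟩

/-- Countably many analytic conditions hold on a dense set of parameters. -/
lemma dense_avoid {κ : Type*} [Countable κ] (F : κ → ℂ → ℂ) (hF : ∀ k, Differentiable ℂ (F k))
    (h0 : ∀ k, F k 0 ≠ 0) : Dense {s | ∀ k, F k s ≠ 0} := by
  rw [show {s | ∀ k, F k s ≠ 0} = ⋂ k, {s | F k s ≠ 0} by ext; simp]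
  refine dense_iInter_of_isOpen (fun k => isOpen_ne.preimage (hF k).continuous) fun k => ?_
  rw [dense_iff_inter_open]
  intro U hU ⟨x, hx⟩
  by_contra hne
  have hz : F k =ᶠ[nhds x] 0 := Filter.eventuallyEq_of_mem (hU.mem_nhds hx) fun y hy => by
    by_contra hy'
    exact hne ⟨y, hy, hy'⟩
  exact h0 k ((hF k).differentiableOn.analyticOnNhd isOpen_univ
    |>.eqOn_zero_of_preconnected_of_eventuallyEq_zero isPreconnected_univ (Set.mem_univ x) hz
    (Set.mem_univ 0))

/-- A single special linear matrix making countably many translates good. -/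
lemma exists_good {κ : Type*} [Countable κ] (hr : 1 ≤ r)
    (V : κ → Matrix.SpecialLinearGroup (Fin r) ℂ) :
    ∃ A : Matrix.SpecialLinearGroup (Fin r) ℂ, ∀ k, Avoids ((A * V k).val) := by
  classical
  let J := {p : (Fin r → ℕ) × (Fin r → ℕ) // ¬ ConstDiff p.1 p.2}
  let Q : Option (κ × J) → MvPolynomial (Fin r × Fin r) ℂ := fun o => o.elim
    (Matrix.det (Matrix.mvPolynomialX (Fin r) (Fin r) ℂ)) fun q =>
      bind₁ (fun p => ∑ a, X (p.1, a) * C ((V q.1).val a p.2)) (entryPoly q.2.1.1 q.2.1.2)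
  have hev : ∀ q (x : Fin r × Fin r → ℂ), eval x (Q (some q)) =
      eval (fun p => (Matrix.of x.curry * (V q.1).val) p.1 p.2) (entryPoly q.2.1.1 q.2.1.2) := by
    intro q x
    simp only [Q, Option.elim, eval, eval₂Hom_bind₁]
    refine congrArg (fun f => eval₂Hom (RingHom.id ℂ) f _) (funext fun p => ?_)
    simp [Matrix.mul_apply, Matrix.of_apply]
  obtain ⟨x, hx⟩ := exists_avoid Q fun o => by
    match o with
    | none =>
      exact Matrix.det_mvPolynomialX_ne_zero (Fin r) ℂ
    | some q =>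
      intro hzero
      have hne : relPoly q.2.1.1 q.2.1.2 ≠ 0 :=
        relPoly_ne fun e => q.2.2 ⟨0, fun i => by simp [e]⟩
      refine hne (MvPolynomial.funext fun τ => ?_)
      have := hev q (fun p => (diagonal τ * ((V q.1)⁻¹).val) p.1 p.2)
      rw [hzero, map_zero, show Matrix.of (Function.curry fun p : Fin r × Fin r =>
          (diagonal τ * ((V q.1)⁻¹).val) p.1 p.2) = diagonal τ * ((V q.1)⁻¹).val from rfl,
        mul_assoc, ← Matrix.SpecialLinearGroup.coe_mul, inv_mul_cancel,
        Matrix.SpecialLinearGroup.coe_one, mul_one, avoids_of_diagonal] at this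
      rw [← this, map_zero]
  set M : Matrix (Fin r) (Fin r) ℂ := Matrix.of x.curry with hM
  have hdet : M.det ≠ 0 := by
    have := hx none
    simp only [Q, Option.elim, RingHom.map_det] at this
    convert this using 2
    ext a b
    simp [hM, Matrix.mvPolynomialX_apply]
  obtain ⟨c, hc⟩ := IsAlgClosed.exists_pow_nat_eq (M.det)⁻¹ (n := r) (by omega)
  have hdA : (c • M).det = 1 := by
    rw [Matrix.det_smul, Fintype.card_fin, hc, inv_mul_cancel₀ hdet]
  refine ⟨⟨c • M, hdA⟩, fun k d d' hcd h0 => ?_⟩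
  obtain ⟨P, lam, hind, hW⟩ := goodW_of_avoids (W := M * (V k).val) fun e e' he => by
    have := hx (some (k, ⟨(e, e'), he⟩))
    rwa [hev] at this
  let A : Matrix.SpecialLinearGroup (Fin r) ℂ := ⟨c • M, hdA⟩
  change eval (fun p => (A * V k).val p.1 p.2) (entryPoly d d') = 0 at h0
  have hcW : (A * V k).val =
      P.val * diagonal (fun i => c * lam i) * (P⁻¹).val := by
    rw [Matrix.SpecialLinearGroup.coe_mul, show (fun i => c * lam i) = c • lam from rfl,
      Matrix.diagonal_smul, mul_smul_comm, smul_mul_assoc c (P.val * diagonal lam), ← hW]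
    exact smul_mul_assoc c M _
  have hprod : c ^ r * ∏ i, lam i = 1 := by
    have e := congrArg Matrix.det hcW
    rw [Matrix.SpecialLinearGroup.det_coe, Matrix.det_units_conj, Matrix.det_diagonal,
      Finset.prod_mul_distrib, Finset.prod_const, Finset.card_univ, Fintype.card_fin] at e
    exact e.symm
  have hroots : (P.val * diagonal (fun i => c * lam i) * (P⁻¹).val).charpoly.roots =
      Finset.univ.val.map (fun i => c * lam i) := by
    rw [show (P⁻¹).val = (P.val)⁻¹ from Matrix.coe_units_inv P, Matrix.charpoly_units_conj,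
      Matrix.charpoly_diagonal]
    exact roots_prod_fin _
  rw [hcW, eval_entryPoly d d' hroots, relPoly, map_prod, Finset.prod_eq_zero_iff] at h0
  obtain ⟨σ, -, hσ⟩ := h0
  simp only [map_sub, map_prod, map_pow, eval_X, sub_eq_zero, mul_pow, Finset.prod_mul_distrib,
    Finset.prod_pow_eq_pow_sum] at hσ
  set D := ∑ i, d i
  set D' := ∑ i, d' i
  have key := congrArg (fun z : ℂ => z ^ r * (∏ i, lam i) ^ (D + D')) hσ
  simp only [mul_pow, ← pow_mul] at key
  have e1 : ∀ (D E : ℕ) (Z : ℂ), c ^ (D * r) * Z * (∏ i, lam i) ^ (D + E) =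
      Z * (∏ i, lam i) ^ E := fun D E Z => by
    calc _ = (c ^ r * ∏ i, lam i) ^ D * (Z * (∏ i, lam i) ^ E) := by ring
      _ = _ := by rw [hprod, one_pow, one_mul]
  rw [e1, show D + D' = D' + D from add_comm _ _, e1] at key
  obtain ⟨k', hk'⟩ := hind (fun i => d (σ.symm i) * r + D') (fun i => d' (σ.symm i) * r + D) (by
    simp only [pow_add, Finset.prod_mul_distrib, Finset.prod_pow, pow_mul] at key ⊢
    rw [Fintype.prod_equiv σ.symm (fun i => lam i ^ d (σ.symm i)) (fun i => lam (σ i) ^ d i)
        (fun i => by simp),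
      Fintype.prod_equiv σ.symm (fun i => lam i ^ d' (σ.symm i)) (fun i => lam (σ i) ^ d' i)
        (fun i => by simp)]
    exact key)
  by_cases hr0 : r = 0
  · omega
  refine hcd ⟨(d ⟨0, by omega⟩ : ℤ) - d' ⟨0, by omega⟩, fun i => ?_⟩
  have h1 := hk' (σ i)
  have h2 := hk' (σ ⟨0, by omega⟩)
  simp only [Equiv.symm_apply_apply, Nat.cast_add, Nat.cast_mul] at h1 h2
  have hr' : (r : ℤ) ≠ 0 := by exact_mod_cast hr0
  exact mul_right_cancel₀ hr' (by linarith)

end Vale.Agent.P002
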