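import Vale.Agent.P002.Torus

/-!
Block diagonal representations with separated blocks are degenerations of representations whose
last handles have scalar centraliser.
-/

namespace Vale.Agent.P002

open Matrix Filter Topology

variable {r n k : ℕ}

/-- Block diagonal with respect to a colouring. -/
def BD (blk : Fin r → Fin k) (g : Mat r) : Prop := ∀ a b, blk a ≠ blk b → g a b = 0

/-- Only block scalars commute with the last handles, and the centraliser of the first generator
respects the blocks. -/
def Sep (blk : Fin r → Fin k) (σ : Handles n (SLC r)) : Prop :=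
  (∀ Y : Mat r, (∀ v, Commute (tgens σ v) Y) →
      ∃ c : Fin k → ℂ, Y = Matrix.diagonal (c ∘ blk)) ∧
    ∀ Y : Mat r, Commute (σ.1 0).val Y → BD blk Y

/-- The indices of a block. -/
def blkSet (blk : Fin r → Fin k) (j : Fin k) : Finset (Fin r) :=
  Finset.univ.filter fun a => blk a = j

lemma mem_blkSet {blk : Fin r → Fin k} {j : Fin k} {a : Fin r} : a ∈ blkSet blk j ↔ blk a = j := by
  simp [blkSet]

lemma BD.commute_diagonal {blk : Fin r → Fin k} {g : Mat r} (h : BD blk g) (c : Fin k → ℂ) :
    Commute g (Matrix.diagonal (c ∘ blk)) := by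
  show _ = _
  ext a b
  rw [Matrix.mul_diagonal, Matrix.diagonal_mul]
  by_cases hab : blk a = blk b
  · simp [hab, mul_comm]
  · simp [h a b hab]

/-- The projection onto a block. -/
noncomputable def proj (blk : Fin r → Fin k) (j : Fin k) : Mat r :=
  Matrix.diagonal ((fun i => if i = j then (1 : ℂ) else 0) ∘ blk)

lemma proj_mul_apply (blk : Fin r → Fin k) (i j : Fin k) (M : Mat r) (a b : Fin r) :
    (proj blk i * M * proj blk j) a b = if blk a = i ∧ blk b = j then M a b else 0 := by
  rw [proj, proj, Matrix.mul_diagonal, Matrix.diagonal_mul]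
  by_cases h1 : blk a = i <;> by_cases h2 : blk b = j <;> simp [h1, h2]

lemma BD.commute_proj {blk : Fin r → Fin k} {g : Mat r} (h : BD blk g) (j : Fin k) :
    Commute g (proj blk j) := h.commute_diagonal _

/-- The space of blocks `(i, j)`. -/
def blockSpace (blk : Fin r → Fin k) (i j : Fin k) : Submodule ℂ (Mat r) where
  carrier := {M | ∀ a b, ¬(blk a = i ∧ blk b = j) → M a b = 0}
  add_mem' h h' a b hab := by simp [h a b hab, h' a b hab]
  zero_mem' _ _ _ := rfl
  smul_mem' c _ h a b hab := by simp [h a b hab]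

/-- A perturbation supported on the last handles. -/
def tailVar (N : Fin n × Bool → Mat r) : Var n r → ℂ := fun v =>
  Fin.cases (motive := fun _ => ℂ) 0 (fun i => N (i, v.1.2) v.2.1 v.2.2) v.1.1

lemma matOf_tailVar_succ (N : Fin n × Bool → Mat r) (i : Fin n) (b : Bool) :
    matOf (tailVar N) (i.succ, b) = N (i, b) := by ext; simp [matOf, tailVar]

lemma matOf_tailVar_zero (N : Fin n × Bool → Mat r) (b : Bool) :
    matOf (tailVar N) (0, b) = 0 := by ext; simp [matOf, tailVar]

/-- A perturbation of the second generator of the first handle. -/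
def headVar (β : Mat r) : Var n r → ℂ := fun v =>
  if v.1 = (0, true) then β v.2.1 v.2.2 else 0

lemma matOf_headVar_self (β : Mat r) :
    matOf (headVar (n := n) β) ((0 : Fin (n + 1)), true) = β := by ext; simp [matOf, headVar]

lemma matOf_headVar_of_ne (β : Mat r) {v : Fin (n + 1) × Bool} (h : v ≠ (0, true)) :
    matOf (headVar (n := n) β) v = 0 := by ext; simp [matOf, headVar, h]

lemma relD_headVar (σ : Handles n (SLC r)) {β : Mat r} (hβ : β.trace = 0) :
    relD σ (headVar β) = adj (σ.1 0 * σ.2 0) β - adj (σ.1 0 * σ.2 0 * (σ.1 0)⁻¹) β := by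
  have e0 : matOf (headVar (n := n) β) ((0 : Fin (n + 1)), false) = 0 :=
    matOf_headVar_of_ne β (by simp)
  have e1 : ∀ (i : Fin n) b, matOf (headVar (n := n) β) (i.succ, b) = 0 := fun i b =>
    matOf_headVar_of_ne β (by simp [Fin.succ_ne_zero])
  simp only [relD, prodD, e0, e1, matOf_headVar_self, tl_of_trace hβ,
    tl_of_trace (Matrix.trace_zero (Fin r) ℂ)]
  simp only [pairD, map_zero, add_zero, sub_zero]
  rw [show (fun _ : Fin n => (0 : Mat r)) = (0 : ℂ) • (0 : Fin n → Mat r) by simp; rfl,
    prodD_smul, zero_smul, map_zero, add_zero]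
  abel

lemma relD_add (σ : Handles n (SLC r)) (τ τ' : Var n r → ℂ) :
    relD σ (τ + τ') = relD σ τ + relD σ τ' := by
  have hm : ∀ v, tl (matOf (τ + τ') v) = tl (matOf τ v) + tl (matOf τ' v) := fun v => by
    rw [show matOf (τ + τ') v = matOf τ v + matOf τ' v by ext; simp [matOf]]
    simp [tl, add_div, add_smul]
    abel
  simp only [relD, ← prodD_add]
  congr 1
  funext i
  simp only [hm, Pi.add_apply, pairD, map_add]
  abel

lemma relD_smul (σ : Handles n (SLC r)) (c : ℂ) (τ : Var n r → ℂ) :
    relD σ (c • τ) = c • relD σ τ := by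
  have hm : ∀ v, tl (matOf (c • τ) v) = c • tl (matOf τ v) := fun v => by
    rw [show matOf (c • τ) v = c • matOf τ v by ext; simp [matOf], tl_smul]
  simp only [relD, ← prodD_smul]
  congr 1
  funext i
  simp only [hm, Pi.smul_apply, pairD, map_smul, smul_sub, smul_add]

/-- The linearised relator on tail perturbations. -/
noncomputable def tailL (σ : Handles n (SLC r)) :
    (Fin n × Bool → Mat r) →ₗ[ℂ] Mat r where
  toFun N := relD σ (tailVar N)
  map_add' N N' := by
    rw [← relD_add]; congr 1
    funext ⟨⟨i, b⟩, p, q⟩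
    induction i using Fin.cases <;> simp [tailVar]
  map_smul' c N := by
    rw [RingHom.id_apply, ← relD_smul]; congr 1
    funext ⟨⟨i, b⟩, p, q⟩
    induction i using Fin.cases <;> simp [tailVar]

/-- The tail generator as an element of the group. -/
def tg (σ : Handles n (SLC r)) (v : Fin n × Bool) : SLC r :=
  if v.2 then σ.2 v.1.succ else σ.1 v.1.succ

lemma tgens_eq (σ : Handles n (SLC r)) (v : Fin n × Bool) : tgens σ v = (tg σ v).val := by
  obtain ⟨i, b⟩ := v
  cases b <;> simp [tgens, gens, tg]

section Main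

variable {blk : Fin r → Fin k} {σ : Handles n (SLC r)} (hBD : ∀ v, BD blk (gens σ v))

include hBD

lemma split_blkSet (j : Fin k) (v : Fin (n + 1) × Bool) : Split (blkSet blk j) (gens σ v) :=
  fun a b h => hBD v a b fun e => h (by simp [mem_blkSet, e])

lemma split_compl (j : Fin k) (v : Fin (n + 1) × Bool) : Split (blkSet blk j)ᶜ (gens σ v) :=
  fun a b h => hBD v a b fun e => h (by simp [mem_blkSet, e])

lemma supp_relD [NeZero r] (hσ : relator σ = 1) {i j : Fin k} (hij : i ≠ j) {τ : Var n r → ℂ}
    (hsupp : ∀ v a b, ¬(blk a = i ∧ blk b = j) → matOf τ v a b = 0) :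
    relD σ τ ∈ blockSpace blk i j := by
  have h1 := (relator_corner hσ (split_blkSet hBD i) (τ := τ) fun v a b h => by
    refine hsupp v a b fun e => h ?_
    simp only [mem_blkSet, e.1, e.2]
    exact ⟨trivial, fun e' => hij e'.symm⟩).2
  have h2 := (relator_corner hσ (split_compl hBD j) (τ := τ) fun v a b h => by
    refine hsupp v a b fun e => h ?_
    simp only [Finset.mem_compl, mem_blkSet, e.1, e.2, not_not]
    exact ⟨hij, trivial⟩).2
  intro a b hab
  by_cases ha : blk a = i
  · refine h2 a b fun e => hab ⟨ha, ?_⟩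
    simpa [mem_blkSet] using e.2
  · exact h1 a b fun e => ha (mem_blkSet.1 e.1)

lemma tailL_mem [NeZero r] (hσ : relator σ = 1) {i j : Fin k} (hij : i ≠ j)
    {N : Fin n × Bool → Mat r} (hN : ∀ v, N v ∈ blockSpace blk i j) :
    tailL σ N ∈ blockSpace blk i j := by
  refine supp_relD hBD hσ hij ?_
  rintro ⟨l, c⟩ a b hab
  induction l using Fin.cases with
  | zero => simp [matOf_tailVar_zero]
  | succ l => rw [matOf_tailVar_succ]; exact hN (l, c) a b hab

/-- A cocycle in a block that is not a coboundary on the last handles. -/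
lemma exists_cocycle [NeZero r] (hn : 1 ≤ n) (hσ : relator σ = 1) (hsurj : Function.Surjective blk)
    (hhead : ∀ Y : Mat r, Commute (σ.1 0).val Y → BD blk Y)
    {i j : Fin k} (hij : i ≠ j) : ∃ (N : Fin n × Bool → Mat r) (β : Mat r),
      (∀ v, N v ∈ blockSpace blk i j) ∧ β ∈ blockSpace blk i j ∧
      tailL σ N + relD σ (headVar β) = 0 ∧
      ∀ Z ∈ blockSpace blk i j, N ≠ fun v => Z - (tg σ v)⁻¹.val * Z * (tg σ v).val := by
  set V := blockSpace blk i j with hV
  set a₀ := σ.1 0
  set g₀ := a₀ * σ.2 0 * a₀⁻¹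
  have hg : ∀ (v : Fin n × Bool) (l : Fin k), Commute (tg σ v).val (proj blk l) := fun v l => by
    have := (hBD (v.1.succ, v.2)).commute_proj l
    rwa [show gens σ (v.1.succ, v.2) = (tg σ v).val from tgens_eq σ v] at this
  have hproj : ∀ M, M ∈ V ↔ proj blk i * M * proj blk j = M := by
    intro M
    constructor
    · intro h
      ext a b
      rw [proj_mul_apply]
      split_ifs with hab
      · rfl
      · exact (h a b hab).symm
    · intro h a b hab
      rw [← h, proj_mul_apply, if_neg hab]
  let C : V →ₗ[ℂ] (Fin n × Bool → V) := LinearMap.pi fun v =>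
    ((LinearMap.id - LinearMap.mulLeft ℂ (tg σ v)⁻¹.val ∘ₗ
      LinearMap.mulRight ℂ (tg σ v).val) ∘ₗ V.subtype).codRestrict V fun x => by
        refine V.sub_mem x.2 ?_
        show (tg σ v)⁻¹.val * (x.1 * (tg σ v).val) ∈ V
        rw [hproj, ← Matrix.mul_assoc (proj blk i), ← (commute_inv_val (hg v i)).eq,
          Matrix.mul_assoc ((tg σ v)⁻¹.val * proj blk i), Matrix.mul_assoc x.1, (hg v j).eq,
          ← Matrix.mul_assoc x.1, Matrix.mul_assoc (tg σ v)⁻¹.val,
          ← Matrix.mul_assoc (proj blk i), ← Matrix.mul_assoc (proj blk i), (hproj x.1).1 x.2]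
  have hd : 0 < Module.finrank ℂ V := by
    obtain ⟨a, ha⟩ := hsurj i
    obtain ⟨b, hb⟩ := hsurj j
    have hmem : Matrix.single a b (1 : ℂ) ∈ V := fun p q hpq => by
      rw [Matrix.single_apply, if_neg]
      rintro ⟨rfl, rfl⟩
      exact hpq ⟨ha, hb⟩
    have : Nontrivial V := ⟨⟨⟨_, hmem⟩, 0, fun e => by
      simpa using congrFun (congrFun (congrArg Subtype.val e) a) b⟩⟩
    exact Module.finrank_pos
  obtain ⟨x, hxr⟩ : ∃ x, x ∉ LinearMap.range C := by
    by_contra! h
    have h1 : LinearMap.range C = ⊤ := eq_top_iff.2 fun x _ => h x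
    have h4 := C.finrank_range_le
    rw [h1, finrank_top, Module.finrank_pi_fintype] at h4
    simp only [Finset.sum_const, Finset.card_univ, Fintype.card_prod, Fintype.card_fin,
      Fintype.card_bool, smul_eq_mul] at h4
    have h5 : 2 * Module.finrank ℂ V ≤ n * 2 * Module.finrank ℂ V :=
      Nat.mul_le_mul_right _ (by omega)
    omega
  have htr : ∀ M ∈ V, Matrix.trace M = 0 := fun M hM =>
    Finset.sum_eq_zero fun a _ => hM a a fun e => hij (e.1.symm.trans e.2)
  have hL0 : ∀ M ∈ V, relD σ (headVar M) ∈ V := fun M hM => by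
    have hsupp : ∀ v a b, ¬(blk a = i ∧ blk b = j) →
        matOf (headVar (n := n) M) v a b = 0 := by
      intro v a b hab
      by_cases hv : v = (0, true)
      · subst hv; rw [matOf_headVar_self]; exact hM a b hab
      · rw [matOf_headVar_of_ne M hv]; rfl
    exact supp_relD hBD hσ hij hsupp
  let L₀ : V →ₗ[ℂ] V :=
    { toFun := fun M => ⟨relD σ (headVar M.1), hL0 M M.2⟩
      map_add' := fun M M' => Subtype.ext (by
        simp only [Submodule.coe_add, relD_headVar σ (htr _ M.2), relD_headVar σ (htr _ M'.2),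
          relD_headVar σ (htr _ (V.add_mem M.2 M'.2)), map_add]
        abel)
      map_smul' := fun c M => Subtype.ext (by
        simp only [Submodule.coe_smul, relD_headVar σ (htr _ M.2),
          relD_headVar σ (htr _ (V.smul_mem c M.2)), map_smul, smul_sub, RingHom.id_apply]) }
  have hinj : Function.Injective L₀ := by
    refine (injective_iff_map_eq_zero L₀).2 fun M hM => ?_
    have h : relD σ (headVar M.1) = 0 := congrArg Subtype.val hM
    rw [relD_headVar σ (htr _ M.2), sub_eq_zero, adj_apply, adj_apply] at h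
    have h' := congrArg (fun Z => g₀⁻¹.val * Z * g₀.val) h
    have e : g₀⁻¹ * (a₀ * σ.2 0) = a₀ := by simp [g₀, mul_assoc]
    have e' : (a₀ * σ.2 0)⁻¹ * g₀ = a₀⁻¹ := by simp [g₀, mul_assoc]
    simp only [← Matrix.mul_assoc, ← Matrix.SpecialLinearGroup.coe_mul] at h'
    rw [e, Matrix.mul_assoc _ _ g₀.val, ← Matrix.SpecialLinearGroup.coe_mul, e',
      inv_mul_cancel, Matrix.SpecialLinearGroup.coe_one, Matrix.one_mul,
      Matrix.mul_assoc M.1, ← Matrix.SpecialLinearGroup.coe_mul, inv_mul_cancel,
      Matrix.SpecialLinearGroup.coe_one, Matrix.mul_one] at h'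
    have hc : Commute a₀.val M.1 := by
      show _ = _
      conv_rhs => rw [← h']
      rw [Matrix.mul_assoc _ a₀⁻¹.val, val_inv_mul, Matrix.mul_one]
    refine Subtype.ext (Matrix.ext fun a b => ?_)
    by_cases hab : blk a = i ∧ blk b = j
    · exact hhead _ hc a b (by rw [hab.1, hab.2]; exact hij)
    · exact M.2 a b hab
  obtain ⟨β, hβ⟩ := LinearMap.surjective_of_injective hinj
    (-⟨_, tailL_mem hBD hσ hij fun v => (x v).2⟩)
  refine ⟨fun v => (x v).1, β.1, fun v => (x v).2, β.2, ?_, fun Z hZ he => hxr ?_⟩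
  · rw [show relD σ (headVar β.1) = (L₀ β).1 from rfl, hβ, Submodule.coe_neg, add_neg_cancel]
  · refine ⟨⟨Z, hZ⟩, funext fun v => Subtype.ext ?_⟩
    simpa [C, Matrix.mul_assoc] using (congrFun he v).symm

/-- Separated block diagonal representations lie in the closure. -/
theorem eval_zero_of_sep [NeZero r] (hr : 2 ≤ r) (hn : 1 ≤ n) (hσ : relator σ = 1)
    (hsurj : Function.Surjective blk) (hSep : Sep blk σ) (i₀ : Fin k)
    {P : MvPolynomial (Var n r) ℂ} (hP : ConjInv P)
    (hP0 : ∀ y ∈ intPts n r, MvPolynomial.eval y P = 0) :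
    MvPolynomial.eval (coord σ) P = 0 := by
  classical
  have hN : ∀ j, ∃ (N : Fin n × Bool → Mat r) (β : Mat r),
      (∀ v, N v ∈ blockSpace blk i₀ j) ∧ β ∈ blockSpace blk i₀ j ∧
      tailL σ N + relD σ (headVar β) = 0 ∧ (j = i₀ → N = 0 ∧ β = 0) ∧
      (j ≠ i₀ → ∀ Z ∈ blockSpace blk i₀ j,
        N ≠ fun v => Z - (tg σ v)⁻¹.val * Z * (tg σ v).val) := by
    intro j
    by_cases hj : j = i₀
    · refine ⟨0, 0, fun v => Submodule.zero_mem _, Submodule.zero_mem _, ?_, fun _ => ⟨rfl, rfl⟩,
        fun h => absurd hj h⟩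
      rw [map_zero, relD_headVar σ (Matrix.trace_zero _ _), map_zero, map_zero, sub_zero, add_zero]
    · obtain ⟨N, β, h1, h2, h3, h4⟩ := exists_cocycle hBD hn hσ hsurj hSep.2 (Ne.symm hj)
      exact ⟨N, β, h1, h2, h3, fun h => absurd h hj, fun _ => h4⟩
  choose Nj βj hNm hβm hNL hN0 hNc using hN
  set N := ∑ j, Nj j with hNdef
  set β := ∑ j, βj j with hβdef
  set S := blkSet blk i₀ with hS
  have hsum : ∀ (f : Fin k → Mat r), (∀ j, f j ∈ blockSpace blk i₀ j) → f i₀ = 0 →
      Corner S (∑ j, f j) := fun f hf h0 a b hab => by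
    rw [Matrix.sum_apply]
    refine Finset.sum_eq_zero fun j _ => ?_
    by_cases hj : j = i₀
    · simp [hj, h0]
    · refine hf j a b fun e => hab ?_
      simp only [hS, mem_blkSet, e.1, e.2]
      exact ⟨trivial, hj⟩
  have hNS : ∀ v, Corner S (N v) := fun v => by
    rw [hNdef, Finset.sum_apply]
    exact hsum _ (fun j => hNm j v) (by rw [(hN0 i₀ rfl).1]; rfl)
  have hβS : Corner S β := hsum _ hβm (hN0 i₀ rfl).2
  have hβtr : ∀ j, (βj j).trace = 0 := fun j => by
    by_cases hj : j = i₀
    · rw [(hN0 j hj).2, Matrix.trace_zero]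
    · exact Finset.sum_eq_zero fun a _ => hβm j a a fun e => hj (e.2.symm.trans e.1)
  set τ : Var n r → ℂ := tailVar N + headVar β
  have hτ : ∀ v, matOf τ v = matOf (tailVar N) v + matOf (headVar β) v := fun v => by
    ext; simp [τ, matOf]
  have hcorner : ∀ v, Corner S (matOf τ v) := by
    rintro ⟨l, c⟩ a b hab
    rw [hτ, Matrix.add_apply]
    induction l using Fin.cases with
    | zero =>
      rw [matOf_tailVar_zero, Matrix.zero_apply, zero_add]
      by_cases hc : c = true
      · subst hc; rw [matOf_headVar_self]; exact hβS a b hab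
      · rw [matOf_headVar_of_ne β (by simp [hc])]; rfl
    | succ l =>
      rw [matOf_tailVar_succ, matOf_headVar_of_ne β (by simp [Fin.succ_ne_zero]), hNS _ a b hab,
        Matrix.zero_apply, add_zero]
  set ρ := par σ τ
  obtain ⟨hR, -⟩ := relator_corner hσ (split_blkSet hBD i₀) hcorner
  have hhead : relD σ (headVar β) = ∑ j, relD σ (headVar (βj j)) := by
    rw [relD_headVar σ (by rw [hβdef, Matrix.trace_sum]; exact Finset.sum_eq_zero fun j _ => hβtr j),
      hβdef, map_sum, map_sum, ← Finset.sum_sub_distrib]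
    exact Finset.sum_congr rfl fun j _ => (relD_headVar σ (hβtr j)).symm
  have hρ : relator ρ = 1 := Subtype.ext (by
    rw [hR, show relD σ τ = tailL σ N + relD σ (headVar β) from relD_add σ _ _, hNdef, map_sum,
      hhead, ← Finset.sum_add_distrib, Finset.sum_eq_zero (fun j _ => hNL j), add_zero,
      Matrix.SpecialLinearGroup.coe_one])
  have hgρ : ∀ v, gens ρ v = gens σ v + gens σ v * matOf τ v := fun v => by
    rw [gens_par, expM_corner (hcorner v), mul_add, Matrix.mul_one]
  -- centraliser
  have hT : Triv (tgens ρ) := by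
    intro Y hY
    set E := proj blk i₀
    set F := (1 : Mat r) - E
    have hgE : ∀ v, Commute (tgens σ v) E := fun v => (hBD _).commute_proj i₀
    have hgF : ∀ v, Commute (tgens σ v) F := fun v => (Commute.one_right _).sub_right (hgE v)
    have hF : F = Matrix.diagonal ((fun l => if l = i₀ then (0 : ℂ) else 1) ∘ blk) := by
      simp only [F, E, proj, ← Matrix.diagonal_one, Matrix.diagonal_sub]
      congr 1
      funext a
      simp only [Function.comp_apply]
      split_ifs <;> simp
    have hEE : E * E = E := by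
      simp only [E, proj, Matrix.diagonal_mul_diagonal]
      congr 1; funext a; simp
    have hEF : E * F = 0 := by rw [mul_sub, Matrix.mul_one, hEE, sub_self]
    have hFE : F * E = 0 := by rw [sub_mul, Matrix.one_mul, hEE, sub_self]
    have hFF : F * F = F := by
      simp only [F, mul_sub, sub_mul, Matrix.one_mul, Matrix.mul_one, hEE, sub_self, sub_zero]
    have hEn : ∀ v, E * N v = N v ∧ N v * F = N v ∧ F * N v = 0 ∧ N v * E = 0 := by
      intro v
      refine ⟨?_, ?_, ?_, ?_⟩ <;> ext a b <;>
        simp only [hF, E, proj, Matrix.diagonal_mul, Matrix.mul_diagonal, Function.comp_apply,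
          Matrix.zero_apply] <;>
        split_ifs with h <;> simp only [one_mul, zero_mul, mul_one, mul_zero]
      all_goals first
        | exact (hNS v a b (by simp [hS, mem_blkSet, h])).symm
        | exact hNS v a b (by simp [hS, mem_blkSet, h])
    have heq : ∀ v, (tgens σ v + tgens σ v * N v) * Y = Y * (tgens σ v + tgens σ v * N v) := by
      intro v
      have h := (hY v).eq
      rwa [show tgens ρ v = gens σ (v.1.succ, v.2) + gens σ (v.1.succ, v.2) *
        matOf τ (v.1.succ, v.2) from hgρ _, hτ, matOf_tailVar_succ,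
        matOf_headVar_of_ne β (by simp [Fin.succ_ne_zero]), add_zero] at h
    -- below the diagonal
    have hFYE : F * Y * E = 0 := by
      obtain ⟨c, hc⟩ := hSep.1 (F * Y * E) fun v => by
        have h := congrArg (fun M => F * M * E) (heq v)
        obtain ⟨e1, e2, e3, e4⟩ := hEn v
        set g := tgens σ v
        simp only [add_mul, mul_add, Matrix.mul_assoc] at h
        rw [← Matrix.mul_assoc F g, ← (hgF v).eq] at h
        simp only [Matrix.mul_assoc] at h
        rw [← Matrix.mul_assoc F g (N v * _), ← (hgF v).eq, Matrix.mul_assoc g F,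
          ← Matrix.mul_assoc F (N v), e3, Matrix.zero_mul, Matrix.mul_zero, add_zero,
          (hgE v).eq, e4, Matrix.mul_zero, Matrix.mul_zero, Matrix.mul_zero, add_zero] at h
        show _ = _
        simp only [Matrix.mul_assoc]
        exact h
      have hh : F * Y * E = F * (F * Y * E) * E := by
        simp only [← Matrix.mul_assoc, hFF]
        simp only [Matrix.mul_assoc, hEE]
      rw [hh, hc, hF]
      simp only [E, proj, Matrix.diagonal_mul_diagonal, Matrix.diagonal_eq_zero]
      funext a
      simp only [Function.comp_apply, Pi.zero_apply]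
      split_ifs <;> simp
    set Y₀ := E * Y * E + F * Y * F with hY₀
    have hYdec : Y = Y₀ + E * Y * F := by
      calc Y = (E + F) * Y * (E + F) := by simp [F]
        _ = E * Y * E + F * Y * F + E * Y * F + F * Y * E := by
          simp only [add_mul, mul_add]; abel
        _ = _ := by rw [hFYE, add_zero, hY₀]
    have hY₀c : ∀ v, Commute (tgens σ v) Y₀ := by
      intro v
      obtain ⟨e1, e2, e3, e4⟩ := hEn v
      set g := tgens σ v
      have a1 : N v * (Y * E) = 0 := by
        rw [← e2, Matrix.mul_assoc, ← Matrix.mul_assoc F Y, hFYE, Matrix.mul_zero]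
      have l1 : E * ((g + g * N v) * Y) * E = g * (E * Y * E) := by
        simp only [add_mul, mul_add, Matrix.mul_assoc]
        rw [a1, Matrix.mul_zero, Matrix.mul_zero, add_zero, ← Matrix.mul_assoc, ← (hgE v).eq,
          Matrix.mul_assoc]
      have l2 : E * (Y * (g + g * N v)) * E = E * Y * E * g := by
        simp only [add_mul, mul_add, Matrix.mul_assoc]
        rw [e4, Matrix.mul_zero, Matrix.mul_zero, Matrix.mul_zero, add_zero, (hgE v).eq]
      have l3 : F * ((g + g * N v) * Y) * F = g * (F * Y * F) := by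
        simp only [add_mul, mul_add, Matrix.mul_assoc]
        rw [← Matrix.mul_assoc F g, ← Matrix.mul_assoc F g, ← (hgF v).eq, Matrix.mul_assoc g F,
          Matrix.mul_assoc g F, ← Matrix.mul_assoc F (N v), e3, Matrix.zero_mul, Matrix.mul_zero,
          add_zero]
      have l4 : F * (Y * (g + g * N v)) * F = F * Y * F * g := by
        have a2 : F * (Y * (g * N v)) = 0 := by
          rw [← e1, ← Matrix.mul_assoc g E, (hgE v).eq, Matrix.mul_assoc E g,
            ← Matrix.mul_assoc Y E, ← Matrix.mul_assoc F (Y * E), ← Matrix.mul_assoc F Y, hFYE,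
            Matrix.zero_mul]
        rw [mul_add, mul_add, a2, add_zero]
        simp only [Matrix.mul_assoc]
        rw [(hgF v).eq]
      show g * Y₀ = Y₀ * g
      rw [hY₀, mul_add, add_mul, ← l1, ← l3, heq v, l2, l4]
    obtain ⟨c, hc⟩ := hSep.1 Y₀ hY₀c
    have hZ : ∀ v, tgens σ v * (E * Y * F) - (E * Y * F) * tgens σ v =
        tgens σ v * (Y₀ * N v - N v * Y₀) := by
      intro v
      obtain ⟨e1, e2, e3, e4⟩ := hEn v
      have h := heq v
      rw [hYdec] at h
      have n1 : N v * (E * Y * F) = 0 := by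
        rw [← Matrix.mul_assoc, ← Matrix.mul_assoc, e4, Matrix.zero_mul, Matrix.zero_mul]
      have n2 : E * Y * F * (tgens σ v * N v) = 0 := by
        rw [Matrix.mul_assoc (E * Y), ← Matrix.mul_assoc F, ← (hgF v).eq,
          Matrix.mul_assoc (tgens σ v), e3, Matrix.mul_zero, Matrix.mul_zero]
      simp only [add_mul, mul_add, Matrix.mul_assoc (tgens σ v) (N v), n1, n2, Matrix.mul_zero,
        add_zero] at h
      rw [(hY₀c v).eq, ← Matrix.mul_assoc Y₀, ← (hY₀c v).eq, Matrix.mul_assoc (tgens σ v) Y₀] at h
      generalize E * Y * F = Z at h ⊢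
      rw [mul_sub]
      linear_combination (norm := abel) h
    have hcj : ∀ j, c j = c i₀ := by
      intro j
      by_contra hne
      have hj : j ≠ i₀ := fun e => hne (by rw [e])
      set Z := E * Y * F with hZdef
      refine hNc j hj ((c i₀ - c j)⁻¹ • (proj blk i₀ * Z * proj blk j))
        (Submodule.smul_mem _ _ fun a b hab => by rw [proj_mul_apply, if_neg hab]) (funext fun v => ?_)
      have hgj : Commute (tgens σ v) (proj blk j) := (hBD _).commute_proj j
      have h := congrArg (fun M => proj blk i₀ * M * proj blk j) (hZ v)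
      have hNv : proj blk i₀ * (Y₀ * N v - N v * Y₀) * proj blk j = (c i₀ - c j) • Nj j v := by
        ext a b
        rw [proj_mul_apply, hc, Matrix.sub_apply, Matrix.diagonal_mul, Matrix.mul_diagonal,
          Matrix.smul_apply, smul_eq_mul]
        by_cases hab : blk a = i₀ ∧ blk b = j
        · rw [if_pos hab, hNdef, Finset.sum_apply, Matrix.sum_apply,
            Finset.sum_eq_single j (fun l _ hl => hNm l v a b fun e => hl (e.2.symm.trans hab.2))
              (by simp)]
          simp only [Function.comp_apply, hab.1, hab.2]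
          ring
        · rw [if_neg hab, hNm j v a b hab, mul_zero]
      have key : tgens σ v * (proj blk i₀ * Z * proj blk j) -
          proj blk i₀ * Z * proj blk j * tgens σ v = (c i₀ - c j) • (tgens σ v * Nj j v) := by
        rw [← mul_smul_comm, ← hNv]
        simp only [mul_sub, sub_mul, ← Matrix.mul_assoc] at h ⊢
        rw [← (hgE v).eq] at h
        rw [show proj blk i₀ * Z * tgens σ v * proj blk j =
          proj blk i₀ * Z * proj blk j * tgens σ v by
          rw [Matrix.mul_assoc _ (tgens σ v), hgj.eq, ← Matrix.mul_assoc]] at h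
        exact h
      have h' := congrArg (fun M => (c i₀ - c j)⁻¹ • ((tg σ v)⁻¹.val * M)) key
      simp only [tgens_eq, mul_smul_comm, smul_smul, inv_mul_cancel₀ (sub_ne_zero.2 (Ne.symm hne)),
        one_smul, mul_sub, ← Matrix.mul_assoc, val_inv_mul, Matrix.one_mul] at h'
      rw [← h', smul_sub]
      simp only [mul_smul_comm, smul_mul_assoc, ← Matrix.mul_assoc]
    have hY₀1 : Y₀ = c i₀ • 1 := by
      rw [hc, Matrix.smul_one_eq_diagonal]
      congr 1
      exact funext fun a => hcj _
    obtain ⟨d, hd⟩ := hSep.1 (E * Y * F) fun v => by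
      have := hZ v
      rw [hY₀1, smul_mul_assoc, Matrix.one_mul, mul_smul_comm, Matrix.mul_one, sub_self,
        Matrix.mul_zero, sub_eq_zero] at this
      exact this
    have hEYF : E * Y * F = 0 := by
      have hh : E * Y * F = E * (E * Y * F) * F := by
        simp only [← Matrix.mul_assoc, hEE]
        simp only [Matrix.mul_assoc, hFF]
      rw [hh, hd, hF]
      simp only [E, proj, Matrix.diagonal_mul_diagonal, Matrix.diagonal_eq_zero]
      funext a
      simp only [Function.comp_apply, Pi.zero_apply]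
      split_ifs <;> simp
    exact ⟨c i₀, by rw [hYdec, hEYF, add_zero, hY₀1]⟩
  have hmem := (mem_of_triv hr hn hρ hT).2 P hP0
  obtain ⟨ρ', hρ', hg', hev⟩ := torus_limit hP S hρ fun v a b ha hb => by
    rw [hgρ, Matrix.add_apply, split_blkSet hBD i₀ v a b (by simp [hS] at ha hb ⊢; simp [ha, hb]),
      (split_blkSet hBD i₀ v).mul_corner (hcorner v) a b (fun e => ha e.1), add_zero]
  rw [← hmem, ← hev]
  refine congrArg (fun x => MvPolynomial.eval x P) (coord_eq_of_gens fun v => ?_)
  rw [hg', hgρ]
  ext a b
  simp only [scaleS, Matrix.of_apply, zero_mul]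
  split_ifs with h
  · exact split_blkSet hBD i₀ v a b fun e => h.2 (e.1 h.1)
  · rw [Matrix.add_apply, (split_blkSet hBD i₀ v).mul_corner (hcorner v) a b h, add_zero]

end Main

end Vale.Agent.P002
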