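import Vale.Agent.P002.Tangent

/-!
Rank semicontinuity, the first-order consequence of a locally maximal rank, and full families of
matrices.
-/

namespace Vale.Agent.P002

open Matrix Filter Topology

variable {r : ℕ}

section Rank

variable {E F : Type*} [AddCommGroup E] [Module ℂ E] [AddCommGroup F] [Module ℂ F]
  [FiniteDimensional ℂ F]

/-- Rank of a linear map. -/
noncomputable def rankL (M : E →ₗ[ℂ] F) : ℕ := Module.finrank ℂ (LinearMap.range M)

lemma exists_minor (M : E →ₗ[ℂ] F) : ∃ (U : Fin (rankL M) → E)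
    (V : Fin (rankL M) → (F →ₗ[ℂ] ℂ)), ∀ i j, V i (M (U j)) = if i = j then 1 else 0 := by
  unfold rankL
  let b := Module.finBasis ℂ (LinearMap.range M)
  choose U hU using fun j => LinearMap.mem_range.1 (b j).2
  obtain ⟨p, hp⟩ := LinearMap.exists_leftInverse_of_injective (LinearMap.range M).subtype
    (Submodule.ker_subtype _)
  refine ⟨U, fun i => b.coord i ∘ₗ p, fun i j => ?_⟩
  have hpj : p (M (U j)) = b j := by
    rw [hU]
    exact LinearMap.congr_fun hp (b j)
  simp [hpj, Finsupp.single_apply, eq_comm]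

lemma card_le_rank {ι : Type*} [Fintype ι] [DecidableEq ι] (M : E →ₗ[ℂ] F) (U : ι → E)
    (V : ι → (F →ₗ[ℂ] ℂ)) (h : (Matrix.of fun i j => V i (M (U j))).det ≠ 0) :
    Fintype.card ι ≤ rankL M := by
  set G := Matrix.of fun i j => V i (M (U j)) with hG
  have hli : LinearIndependent ℂ fun j => (⟨M (U j), LinearMap.mem_range_self M _⟩ :
      LinearMap.range M) := Fintype.linearIndependent_iff.2 fun c hc i => by
    have hz : G *ᵥ c = 0 := funext fun i => by
      have := congrArg (fun z : LinearMap.range M => V i (z : F)) hc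
      simpa [hG, Matrix.mulVec, dotProduct, map_sum, mul_comm] using this
    exact congrFun (Matrix.eq_zero_of_mulVec_eq_zero h hz) i
  exact hli.fintype_card_le_finrank

variable {X : Type*} [TopologicalSpace X] {M : X → (E →ₗ[ℂ] F)} {x₀ : X}

lemma rank_lsc (hM : ∀ u (φ : F →ₗ[ℂ] ℂ), ContinuousAt (fun x => φ (M x u)) x₀) :
    ∀ᶠ x in 𝓝 x₀, rankL (M x₀) ≤ rankL (M x) := by
  obtain ⟨U, V, h⟩ := exists_minor (M x₀)
  have hc : ContinuousAt (fun x => (Matrix.of fun i j => V i (M x (U j))).det) x₀ := by
    simp_rw [Matrix.det_apply', Matrix.of_apply]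
    exact tendsto_finsetSum _ fun σ _ => tendsto_const_nhds.mul
      (tendsto_finsetProd _ fun i _ => hM _ _)
  have h1 : (Matrix.of fun i j => V i (M x₀ (U j))).det ≠ 0 := by
    rw [show (Matrix.of fun i j => V i (M x₀ (U j))) = 1 by ext i j; simp [h, Matrix.one_apply]]
    simp
  filter_upwards [hc.eventually_ne h1] with x hx
  simpa using card_le_rank (M x) U V hx

end Rank

lemma hasDerivAt_det_corner {ι : Type*} [Fintype ι] [DecidableEq ι] {M : ℂ → Matrix ι ι ℂ}
    {v : Matrix ι ι ℂ} (h : ∀ i j, HasDerivAt (fun s => M s i j) (v i j) 0) (i₀ : ι)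
    (h0 : M 0 = Matrix.diagonal fun i => if i = i₀ then 0 else 1) :
    HasDerivAt (fun s => (M s).det) (v i₀ i₀) 0 := by
  have hk := HasDerivAt.fun_sum (u := (Finset.univ : Finset (Equiv.Perm ι))) fun σ _ =>
    (HasDerivAt.fun_finsetProd (u := Finset.univ) fun i _ => h (σ i) i).const_mul
      (((Equiv.Perm.sign σ : ℤˣ) : ℤ) : ℂ)
  simp_rw [Matrix.det_apply']
  refine hk.congr_deriv ?_
  rw [Finset.sum_eq_single 1 (fun σ _ hσ => ?_) (by simp)]
  · rw [Finset.sum_eq_single i₀ (fun i _ hi => ?_) (by simp),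
      Finset.prod_eq_one fun j hj => ?_]
    · simp
    · simp [h0, Finset.ne_of_mem_erase hj]
    · refine smul_eq_zero_of_left
        (Finset.prod_eq_zero (Finset.mem_erase.2 ⟨Ne.symm hi, Finset.mem_univ i₀⟩) ?_) _
      simp [h0]
  · refine mul_eq_zero_of_right _ (Finset.sum_eq_zero fun i _ => ?_)
    obtain ⟨j, hj, hji⟩ : ∃ j, j ≠ i ∧ σ j ≠ j := by
      by_contra hcon
      push Not at hcon
      refine hσ (Equiv.ext fun j => ?_)
      by_cases hji : j = i
      · subst hji
        by_contra hne
        simp only [Equiv.Perm.coe_one, id_eq] at hne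
        exact hne (σ.injective (hcon (σ j) hne))
      · exact hcon j hji
    refine smul_eq_zero_of_left
      (Finset.prod_eq_zero (Finset.mem_erase.2 ⟨hj, Finset.mem_univ j⟩) ?_) _
    simp [h0, hji]

/-- A locally maximal rank forces the variation to preserve kernels. -/
lemma first_order {E F : Type*} [AddCommGroup E] [Module ℂ E] [AddCommGroup F] [Module ℂ F]
    [FiniteDimensional ℂ F] {M : ℂ → (E →ₗ[ℂ] F)} {M' : E → F}
    (hd : ∀ u (φ : F →ₗ[ℂ] ℂ), HasDerivAt (fun s => φ (M s u)) (φ (M' u)) 0)
    (hr : ∀ᶠ s in 𝓝 0, rankL (M s) ≤ rankL (M 0)) {y : E} (hy : M 0 y = 0)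
    {φ : F →ₗ[ℂ] ℂ} (hφ : ∀ u, φ (M 0 u) = 0) : φ (M' y) = 0 := by
  obtain ⟨U, V, h⟩ := exists_minor (M 0)
  let U' : Fin (rankL (M 0)) ⊕ Unit → E := Sum.elim U fun _ => y
  let V' : Fin (rankL (M 0)) ⊕ Unit → (F →ₗ[ℂ] ℂ) := Sum.elim V fun _ => φ
  have hG0 : (Matrix.of fun i j => V' i (M 0 (U' j))) =
      Matrix.diagonal fun i => if i = Sum.inr () then 0 else 1 := by
    ext i j
    rcases i with i | i <;> rcases j with j | j <;>
      simp [U', V', h, hy, hφ, Matrix.diagonal_apply]
  have hd' := hasDerivAt_det_corner (M := fun s => Matrix.of fun i j => V' i (M s (U' j)))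
    (v := Matrix.of fun i j => V' i (M' (U' j))) (fun i j => hd _ _) (Sum.inr ()) hG0
  have hz : (fun s => (Matrix.of fun i j => V' i (M s (U' j))).det) =ᶠ[𝓝 0] fun _ => (0 : ℂ) := by
    filter_upwards [hr] with s hs
    by_contra hne
    have := card_le_rank (M s) U' V' hne
    simp at this
    omega
  have := hd'.unique ((hasDerivAt_const (0 : ℂ) (0 : ℂ)).congr_of_eventuallyEq hz)
  simpa [U', V'] using this

/-- Functionals on families of matrices. -/
lemma functional_sum {κ : Type*} [Fintype κ] [DecidableEq κ] (φ : (κ → Mat r) →ₗ[ℂ] ℂ)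
    (v : κ → Mat r) :
    φ v = ∑ k, ∑ i, ∑ j, v k i j * φ (Pi.single k (Matrix.single i j 1)) := by
  conv_lhs => rw [← Finset.univ_sum_single v]
  simp only [map_sum]
  refine Finset.sum_congr rfl fun k _ => ?_
  conv_lhs => rw [Matrix.matrix_eq_sum_single (v k)]
  simp only [← LinearMap.single_apply (R := ℂ) (φ := fun _ : κ => Mat r), map_sum]
  refine Finset.sum_congr rfl fun i _ => Finset.sum_congr rfl fun j _ => ?_
  rw [show Matrix.single i j (v k i j) = v k i j • Matrix.single i j (1 : ℂ) by
    simp [Matrix.smul_single], map_smul, map_smul, smul_eq_mul]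

/-- Entrywise continuity of a matrix-valued map. -/
def ContM {X : Type*} [TopologicalSpace X] (f : X → Mat r) (x₀ : X) : Prop :=
  ∀ i j, ContinuousAt (fun x => f x i j) x₀

lemma HasD.contM {M : ℂ → Mat r} {v : Mat r} (h : HasD M v) : ContM M 0 :=
  fun i j => (h i j).continuousAt

section Fam

variable {κ : Type*} [Fintype κ]

/-- The commutant of a family is the kernel of this map. -/
def commL (g : κ → Mat r) : Mat r →ₗ[ℂ] (κ → Mat r) where
  toFun Y k := Y * g k - g k * Y
  map_add' Y Z := by ext1 k; simp [add_mul, mul_add]; abel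
  map_smul' c Y := by ext1 k; simp [smul_sub]

omit [Fintype κ] in
lemma commL_eq_zero {g : κ → Mat r} {Y : Mat r} : commL g Y = 0 ↔ ∀ k, Commute (g k) Y := by
  simp [commL, funext_iff, sub_eq_zero, commute_iff_eq, eq_comm]

lemma commL_deriv {g : ℂ → κ → Mat r} {v : κ → Mat r} (h : ∀ k, HasD (fun s => g s k) (v k))
    (u : Mat r) (φ : (κ → Mat r) →ₗ[ℂ] ℂ) :
    HasDerivAt (fun s => φ (commL (g s) u)) (φ fun k => u * v k - v k * u) 0 := by
  classical
  rw [funext fun s => functional_sum φ (commL (g s) u), functional_sum φ]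
  exact HasDerivAt.fun_sum fun k _ => HasDerivAt.fun_sum fun i _ => HasDerivAt.fun_sum fun j _ =>
    (((((hasD_const u).mul (h k)).sub ((h k).mul (hasD_const u))).congr (by simp)) i j).mul_const _

lemma commL_cont {X : Type*} [TopologicalSpace X] {g : X → κ → Mat r} {x₀ : X}
    (h : ∀ k, ContM (fun x => g x k) x₀) (u : Mat r) (φ : (κ → Mat r) →ₗ[ℂ] ℂ) :
    ContinuousAt (fun x => φ (commL (g x) u)) x₀ := by
  classical
  rw [funext fun x => functional_sum φ (commL (g x) u)]
  refine tendsto_finsetSum _ fun k _ => tendsto_finsetSum _ fun i _ => tendsto_finsetSum _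
    fun j _ => Tendsto.mul ?_ tendsto_const_nhds
  simp only [commL, LinearMap.coe_mk, AddHom.coe_mk, Matrix.sub_apply, Matrix.mul_apply]
  exact (tendsto_finsetSum _ fun m _ => tendsto_const_nhds.mul (h k m j)).sub
    (tendsto_finsetSum _ fun m _ => (h k i m).mul tendsto_const_nhds)

/-- The words in the family span all matrices. -/
def Full (g : κ → Mat r) : Prop :=
  Submodule.span ℂ (Set.range fun l : List κ => (l.map g).prod) = ⊤

omit [Fintype κ] in
lemma Full.triv [NeZero r] {g : κ → Mat r} (h : Full g) : Triv g := by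
  intro Y hY
  have hall : ∀ P : Mat r, Commute P Y := by
    intro P
    have hP : P ∈ Submodule.span ℂ (Set.range fun l : List κ => (l.map g).prod) :=
      h ▸ Submodule.mem_top
    induction hP using Submodule.span_induction with
    | mem x hx =>
      obtain ⟨l, rfl⟩ := hx
      induction l with
      | nil => simp
      | cons k l ih =>
        simp only [List.map_cons, List.prod_cons]
        exact (hY k).mul_left ih
    | zero => exact Commute.zero_left _
    | add _ _ _ _ ha hb => exact ha.add_left hb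
    | smul c _ _ ha => exact ha.smul_left c
  obtain ⟨c, hc⟩ := Matrix.mem_range_scalar_iff_commute_single'.2 fun i j => hall _
  exact ⟨c, by rw [← hc, Matrix.scalar_apply, Matrix.smul_one_eq_diagonal]⟩

omit [Fintype κ] in
lemma Full.invariant {g : κ → Mat r} (h : Full g) {W : Submodule ℂ (Fin r → ℂ)}
    (hW : ∀ k, ∀ w ∈ W, g k *ᵥ w ∈ W) : W = ⊥ ∨ W = ⊤ := by
  by_cases hW0 : W = ⊥
  · exact Or.inl hW0
  obtain ⟨w, hw, hw0⟩ := Submodule.exists_mem_ne_zero_of_ne_bot hW0
  have hall : ∀ P : Mat r, ∀ z ∈ W, P *ᵥ z ∈ W := by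
    intro P
    have hP : P ∈ Submodule.span ℂ (Set.range fun l : List κ => (l.map g).prod) :=
      h ▸ Submodule.mem_top
    induction hP using Submodule.span_induction with
    | mem x hx =>
      obtain ⟨l, rfl⟩ := hx
      induction l with
      | nil => simp
      | cons k l ih =>
        intro z hz
        simp only [List.map_cons, List.prod_cons, ← Matrix.mulVec_mulVec]
        exact hW k _ (ih z hz)
    | zero => simp
    | add _ _ _ _ ha hb => intro z hz; rw [Matrix.add_mulVec]; exact add_mem (ha z hz) (hb z hz)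
    | smul c _ _ ha => intro z hz; rw [Matrix.smul_mulVec]; exact W.smul_mem c (ha z hz)
  obtain ⟨i, hi⟩ := Function.ne_iff.1 hw0
  refine Or.inr (eq_top_iff.2 fun z _ => ?_)
  have hz := hall (Matrix.vecMulVec z (Pi.single i (w i)⁻¹)) w hw
  rwa [Matrix.vecMulVec_mulVec, single_dotProduct, inv_mul_cancel₀ hi, MulOpposite.op_one,
    one_smul] at hz

omit [Fintype κ] in
lemma full_open {X : Type*} [TopologicalSpace X] {g : X → κ → Mat r} {x₀ : X}
    (h : ∀ k, ContM (fun x => g x k) x₀) (hF : Full (g x₀)) :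
    ∀ᶠ x in 𝓝 x₀, Full (g x) := by
  classical
  have hprod : ∀ l : List κ, ContM (fun x => (l.map (g x)).prod) x₀ := by
    intro l
    induction l with
    | nil => exact fun i j => continuousAt_const
    | cons k l ih =>
      intro i j
      simp only [List.map_cons, List.prod_cons, Matrix.mul_apply]
      exact tendsto_finsetSum _ fun m _ => (h k i m).mul (ih m j)
  obtain ⟨f, hfmem, hfspan, -⟩ :=
    Submodule.exists_fun_fin_finrank_span_eq ℂ (Set.range fun l : List κ => (l.map (g x₀)).prod)
  choose l hl using hfmem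
  replace hfspan := hfspan.trans hF
  let M : X → ((Fin _ → ℂ) →ₗ[ℂ] Mat r) := fun x =>
    Fintype.linearCombination ℂ fun j => ((l j).map (g x)).prod
  have hrange : ∀ x, LinearMap.range (M x) =
      Submodule.span ℂ (Set.range fun j => ((l j).map (g x)).prod) := fun x =>
    Fintype.range_linearCombination ℂ _
  have hlsc := rank_lsc (M := M) (x₀ := x₀) fun u φ => by
    simp only [M, Fintype.linearCombination_apply, map_sum, map_smul, smul_eq_mul]
    refine tendsto_finsetSum _ fun j _ => tendsto_const_nhds.mul ?_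
    have e : ∀ v : Mat r, φ v = ∑ a, ∑ b, v a b * φ (Matrix.single a b 1) := fun v => by
      conv_lhs => rw [Matrix.matrix_eq_sum_single v]
      simp only [map_sum]
      refine Finset.sum_congr rfl fun a _ => Finset.sum_congr rfl fun b _ => ?_
      rw [show Matrix.single a b (v a b) = v a b • Matrix.single a b (1 : ℂ) by
        simp [Matrix.smul_single], map_smul, smul_eq_mul]
    simp only [fun x => e ((l j).map (g x)).prod]
    exact tendsto_finsetSum _ fun a _ => tendsto_finsetSum _ fun b _ =>
      (hprod (l j) a b).mul tendsto_const_nhds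
  filter_upwards [hlsc] with x hx
  have h0 : LinearMap.range (M x₀) = ⊤ := by
    rw [hrange, ← hfspan]
    simp only [hl]
  have hfull : LinearMap.range (M x) = ⊤ := by
    refine Submodule.eq_top_of_finrank_eq (le_antisymm (Submodule.finrank_le _) ?_)
    rw [rankL, h0, finrank_top] at hx
    exact hx
  rw [hrange] at hfull
  rw [Full, eq_top_iff, ← hfull]
  exact Submodule.span_mono (Set.range_comp_subset_range l fun l => (l.map (g x)).prod)

end Fam

end Vale.Agent.P002
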