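import Vale.Agent.P002.Calculus

/-!
Twist flows pushed by substitutions, their membership in the closure and their derivatives at a
handlebody representation.
-/

namespace Vale.Agent.P002

open Matrix MvPolynomial
open scoped ContDiff commutatorElement

variable {r n : ℕ}

lemma mid_base {G : Type*} [Group G] (A : Fin (n + 1) → G) (k : Fin n) :
    mid ((A, fun _ => 1) : Handles n G) k = 1 := by
  simp [take_tail]

lemma bwd_base {G : Type*} [Group G] (A : Fin (n + 1) → G) (k : Fin n) :
    bwd k ((A, fun _ => 1) : Handles n G) =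
      (Function.update A 0 (A 0 * (A k.succ)⁻¹), fun _ => 1) := by
  simp only [bwd, slide, thetaInv, mid_base, one_mul, inv_one, mul_one, mul_inv_cancel,
    Function.update_eq_self]
  refine Prod.ext (funext fun i => ?_) (funext fun i => ?_)
  · by_cases hk : i = k.succ <;> simp_all [Function.update_apply, Fin.succ_ne_zero]
  · simp

lemma fwd_base {G : Type*} [Group G] (A : Fin (n + 1) → G) (k : Fin n) :
    fwd k ((A, fun _ => 1) : Handles n G) =
      (Function.update A 0 (A 0 * A k.succ), fun _ => 1) := by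
  simp only [fwd, slide, theta, mid_base, one_mul, inv_one, mul_one, inv_mul_cancel]
  refine Prod.ext (funext fun i => ?_) (funext fun i => ?_)
  · by_cases hk : i = k.succ <;> simp_all [Function.update_apply, Fin.succ_ne_zero]
  · simp [Function.update_apply]

lemma bwds_base (A : Fin (n + 1) → SLC r) : ∀ l : List (Fin n),
    bwds l ((A, fun _ => 1) : Handles n (SLC r)) =
      (Function.update A 0 (A 0 * vw A l), fun _ => 1)
  | [] => by simp [bwds, vw]
  | k :: l => by simp [bwds, bwds_base A l, bwd_base, vw, mul_assoc, Fin.succ_ne_zero]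

lemma steps_update (A : Fin (n + 1) → SLC r) (v : SLC r) :
    ∀ (l : List (Fin n)) (β : Fin (n + 1) → Mat r), steps (Function.update A 0 v) l β = steps A l β
  | [], _ => rfl
  | k :: l, β => by simp [steps, steps_update A v l, step, Fin.succ_ne_zero]

lemma fwds_relator {G : Type*} [Group G] : ∀ (l : List (Fin n)) (ρ : Handles n G),
    relator (fwds l ρ) = relator ρ
  | [], _ => rfl
  | k :: l, ρ => by rw [fwds, fwds_relator l, fwd_relator]

lemma bwds_relator {G : Type*} [Group G] : ∀ (l : List (Fin n)) (ρ : Handles n G),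
    relator (bwds l ρ) = relator ρ
  | [], _ => rfl
  | k :: l, ρ => by rw [bwds, bwd_relator, bwds_relator l]

/-- Effect of a substitution on first variations. -/
lemma fwd_deriv {σ : ℂ → Handles n (SLC r)} {A : Fin (n + 1) → SLC r}
    {β : Fin (n + 1) → Mat r} (hσ : SmoothH σ) (h0 : σ 0 = (A, fun _ => 1))
    (hβ : ∀ i, HasD (fun s => ((σ s).2 i).val) (β i)) (k : Fin n) (i : Fin (n + 1)) :
    HasD (fun s => ((fwd k (σ s)).2 i).val) (step A k β i) := by
  have hS := smooth_stable (r := r) (X := ℂ)
  set K := fun s => mid (σ s) k with hKdef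
  have hK : Smooth fun s => (K s).val := hS.mid hσ k
  have hK0 : K 0 = 1 := by simp only [hKdef, h0]; exact mid_base A k
  have hb0 : ∀ j, (σ 0).2 j = 1 := fun j => by rw [h0]
  let x : ℂ → SLC r := fun s => K s * (σ s).1 k.succ * (K s)⁻¹
  have hx : Smooth fun s => (x s).val :=
    hS.mul _ _ (hS.mul _ _ hK (hσ k.succ).1) (hS.inv _ hK)
  have hx0 : x 0 = A k.succ := by simp [x, hK0, h0]
  have hy : HasD (fun s => (K s * (σ s).2 k.succ * (K s)⁻¹).val) (β k.succ) := by
    refine (hasD_conj hK (hβ k.succ) (hb0 _)).congr ?_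
    simp [hK0]
  have hbx : HasD (fun s => ((x s)⁻¹ * (σ s).2 0 * x s).val)
      ((A k.succ)⁻¹.val * β 0 * (A k.succ).val) := by
    refine (hasD_conj' hx (hβ 0) (hb0 _)).congr ?_
    rw [hx0]
  have hbinv : HasD (fun s => ((σ s).2 0)⁻¹.val) (-β 0) :=
    hasD_inv_of_one (hσ 0).2 (hβ 0) (hb0 0)
  by_cases hk : i = k.succ
  · subst hk
    have hq : HasD (fun s => (K s * (σ s).2 k.succ * (K s)⁻¹ * ((x s)⁻¹ * ((σ s).2 0)⁻¹ * x s)).val)
        (β k.succ - (A k.succ)⁻¹.val * β 0 * (A k.succ).val) := by
      have h := hy.mul (hasD_conj' hx hbinv (by rw [hb0, inv_one]))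
      refine h.congr ?_
      simp [hb0, hK0, hx0, sub_eq_add_neg, -Matrix.SpecialLinearGroup.coe_inv]
    have h := hasD_conj' hK hq (by simp [hb0])
    have e : (fun s => ((fwd k (σ s)).2 k.succ).val) = fun s => ((K s)⁻¹ *
        (K s * (σ s).2 k.succ * (K s)⁻¹ * ((x s)⁻¹ * ((σ s).2 0)⁻¹ * x s)) * K s).val :=
      funext fun s => congrArg Subtype.val (by simp [fwd, slide, theta, x, K, mul_assoc]; rfl)
    rw [e]
    exact h.congr (by simp [step, hK0, -Matrix.SpecialLinearGroup.coe_inv])
  · by_cases hi : i = 0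
    · subst hi
      have e : (fun s => ((fwd k (σ s)).2 0).val) = fun s => ((x s)⁻¹ * (σ s).2 0 * x s).val :=
        funext fun s => congrArg Subtype.val (by simp [fwd, slide, theta, x, K, hk, mul_assoc]; rfl)
      rw [e]
      exact hbx.congr (by simp [step, hk])
    · simpa [fwd, slide, step, hk, hi] using hβ i

lemma fwds_deriv : ∀ (l : List (Fin n)) {σ : ℂ → Handles n (SLC r)} {A : Fin (n + 1) → SLC r}
    {β : Fin (n + 1) → Mat r}, SmoothH σ → σ 0 = (A, fun _ => 1) →
    (∀ i, HasD (fun s => ((σ s).2 i).val) (β i)) →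
    ∀ i, HasD (fun s => ((fwds l (σ s)).2 i).val) (steps A l β i)
  | [], _, _, _, _, _, h => h
  | k :: l, σ, A, β, hσ, h0, h => fun i => by
    have := fwds_deriv l (σ := fun s => fwd k (σ s)) (smooth_stable.fwd hσ k)
      (by simp only [h0]; exact fwd_base A k) (fun j => fwd_deriv hσ h0 h k j) i
    rw [steps_update] at this
    exact this

end Vale.Agent.P002
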