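import Vale.Agent.P002.Spectral

/-!
Hankel determinants of power traces, the squarefree polynomial of a matrix, and derivatives of
polynomial expressions paired with centralising matrices.
-/

namespace Vale.Agent.P002

open Matrix Polynomial Filter Topology

variable {r : ℕ}

/-- Hankel matrix of the power traces. -/
def hank (a : Mat r) (m : ℕ) : Matrix (Fin m) (Fin m) ℂ :=
  Matrix.of fun i j => (a ^ ((i : ℕ) + j)).trace

/-- Lower coefficients of the squarefree polynomial. -/
noncomputable def qcoef (a : Mat r) (m : ℕ) (i : Fin m) : ℂ :=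
  -(((hank a m).det)⁻¹ * ((hank a m).adjugate *ᵥ fun j => (a ^ ((j : ℕ) + m)).trace) i)

/-- The squarefree polynomial. -/
noncomputable def qpoly (a : Mat r) (m : ℕ) : ℂ[X] :=
  X ^ m + ∑ i : Fin m, C (qcoef a m i) * X ^ (i : ℕ)

/-- The spectral data of a matrix. -/
structure Spec (a : Mat r) (Λ : Finset ℂ) (P : ℂ → Mat r) : Prop where
  sum : ∑ l ∈ Λ, P l = 1
  mul : ∀ l ∈ Λ, ∀ m ∈ Λ, P l * P m = if l = m then P l else 0
  nil : ∀ l ∈ Λ, ((a - l • 1) * P l) ^ (r + 1) = 0
  poly : ∀ l ∈ Λ, ∃ e : ℂ[X], P l = aeval a e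
  ne : ∀ l ∈ Λ, P l ≠ 0
  card : Λ.card ≤ r

lemma exists_spec (a : Mat r) : ∃ Λ P, Spec a Λ P := by
  obtain ⟨Λ, e, h1, h2, h3, h4⟩ := exists_spectral a
  refine ⟨Λ, fun l => aeval a (e l), h1, h2, h3, fun l _ => ⟨e l, rfl⟩, fun l hl => (h4 l hl).1, ?_⟩
  choose v hv0 hv using fun l : Λ => (h4 l l.2).2
  have hli : LinearIndependent ℂ v := by
    refine Module.End.eigenvectors_linearIndependent' (Matrix.toLin' a) (fun l : Λ => (l : ℂ))
      Subtype.val_injective v fun l => ⟨Module.End.mem_eigenspace_iff.2 ?_, hv0 l⟩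
    simpa using hv l
  simpa using hli.fintype_card_le_finrank

namespace Spec

variable {a : Mat r} {Λ : Finset ℂ} {P : ℂ → Mat r} (h : Spec a Λ P)

include h

lemma idem {l : ℂ} (hl : l ∈ Λ) : P l * P l = P l := by rw [h.mul l hl l hl, if_pos rfl]

lemma commute {l : ℂ} (hl : l ∈ Λ) {X : Mat r} (hX : Commute a X) : Commute (P l) X := by
  obtain ⟨e, he⟩ := h.poly l hl
  rw [he]
  exact commute_aeval hX e

lemma trace_ne {l : ℂ} (hl : l ∈ Λ) : (P l).trace ≠ 0 := trace_idem_ne_zero (h.idem hl) (h.ne l hl)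

lemma trace_block {l : ℂ} (hl : l ∈ Λ) {Z : Mat r} (hZ : Commute a Z) (f : ℂ[X]) :
    (aeval a f * (Z * P l)).trace = f.eval l * (Z * P l).trace := by
  have hc := h.commute hl (Commute.refl a)
  refine trace_aeval_block ⟨r + 1, h.nil l hl⟩ hc.symm (hZ.mul_right hc.symm) ?_ ?_ f
  · rw [← Matrix.mul_assoc, (h.commute hl hZ).eq, Matrix.mul_assoc, h.idem hl]
  · rw [Matrix.mul_assoc, h.idem hl]

lemma trace_aeval (f : ℂ[X]) : (aeval a f).trace = ∑ l ∈ Λ, f.eval l * (P l).trace := by
  conv_lhs => rw [← Matrix.mul_one (aeval a f), ← h.sum, Finset.mul_sum, Matrix.trace_sum]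
  refine Finset.sum_congr rfl fun l hl => ?_
  simpa using h.trace_block hl (Z := 1) (Commute.one_right a) f

lemma trace_pow (k : ℕ) : (a ^ k).trace = ∑ l ∈ Λ, l ^ k * (P l).trace := by
  simpa using h.trace_aeval (X ^ k)

lemma hank_kernel {m : ℕ} (hm : Λ.card = m) (f : ℂ[X])
    (hc : ∀ i : Fin m, (aeval a f * a ^ (i : ℕ)).trace = 0) : ∀ l ∈ Λ, f.eval l = 0 := by
  intro l hl
  classical
  let e : Fin m ≃ Λ := (Λ.equivFinOfCardEq hm).symm
  have hV := Matrix.eq_zero_of_forall_pow_sum_mul_pow_eq_zero (f := fun j => ((e j : Λ) : ℂ))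
    (v := fun j => f.eval ((e j : Λ) : ℂ) * (P (e j : Λ)).trace)
    (Subtype.val_injective.comp e.injective) fun i => by
      have := hc i
      rw [show aeval a f * a ^ (i : ℕ) = aeval a (f * X ^ (i : ℕ)) by simp, h.trace_aeval,
        ← Finset.sum_coe_sort, ← Equiv.sum_comp e] at this
      rw [← this]
      exact Finset.sum_congr rfl fun j _ => by simp; ring
  have := congrFun hV (e.symm ⟨l, hl⟩)
  simpa [h.trace_ne hl] using this

lemma det_hank_ne : (hank a Λ.card).det ≠ 0 := by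
  intro h0
  obtain ⟨c, hc0, hc⟩ := Matrix.exists_mulVec_eq_zero_iff.2 h0
  set f : ℂ[X] := ∑ i : Fin Λ.card, C (c i) * X ^ (i : ℕ) with hf
  have hev := h.hank_kernel rfl f fun i => by
    have := congrFun hc i
    simp only [Matrix.mulVec, dotProduct, hank, Matrix.of_apply, Pi.zero_apply] at this
    simp only [hf, map_sum, Finset.sum_mul, Matrix.trace_sum, map_mul, aeval_C, aeval_X_pow,
      ← Algebra.smul_def, smul_mul_assoc, Matrix.trace_smul, ← pow_add, smul_eq_mul]
    rw [← this]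
    exact Finset.sum_congr rfl fun j _ => by rw [mul_comm, add_comm]
  have hf0 : f = 0 := by
    refine Polynomial.eq_zero_of_degree_lt_of_eval_finset_eq_zero Λ ?_ hev
    exact (degree_sum_fin_lt c)
  refine hc0 (funext fun i => ?_)
  have := congrArg (fun p : ℂ[X] => p.coeff i) hf0
  simpa [hf, finsetSum_coeff, coeff_C_mul_X_pow, Fin.val_inj] using this

lemma det_hank_eq_zero {m : ℕ} (hm : Λ.card < m) : (hank a m).det = 0 := by
  classical
  set f : ℂ[X] := ∏ l ∈ Λ, (X - C l) with hf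
  have hdeg : f.natDegree = Λ.card := by simp [hf, natDegree_prod_of_monic Λ (fun l => X - C l) fun l _ => monic_X_sub_C l]
  have hev : ∀ l ∈ Λ, f.eval l = 0 := fun l hl => by
    rw [hf, eval_prod]; exact Finset.prod_eq_zero hl (by simp)
  refine Matrix.exists_mulVec_eq_zero_iff.1 ⟨fun j => f.coeff j, fun h0 => ?_, funext fun i => ?_⟩
  · have h1 : f.Monic := monic_prod_of_monic _ _ fun l _ => monic_X_sub_C l
    have := congrFun h0 ⟨Λ.card, hm⟩
    simp only [Pi.zero_apply] at this
    rw [← hdeg, coeff_natDegree, h1.leadingCoeff] at this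
    exact one_ne_zero this
  · have := h.trace_aeval (f * X ^ (i : ℕ))
    simp only [eval_mul] at this
    rw [Finset.sum_eq_zero fun l hl => by rw [hev l hl]; simp] at this
    rw [Pi.zero_apply, ← this, map_mul, aeval_eq_sum_range' (lt_of_eq_of_lt hdeg hm),
      Finset.sum_mul, Matrix.trace_sum, ← Fin.sum_univ_eq_sum_range]
    simp only [Matrix.mulVec, dotProduct, hank, Matrix.of_apply, aeval_X_pow, smul_mul_assoc,
      Matrix.trace_smul, smul_eq_mul, ← pow_add]
    exact Finset.sum_congr rfl fun j _ => by rw [mul_comm, add_comm]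

lemma qpoly_eq : qpoly a Λ.card = ∏ l ∈ Λ, (X - C l) := by
  classical
  set m := Λ.card with hm
  have hd := h.det_hank_ne
  have hkey : hank a m *ᵥ qcoef a m = fun i : Fin m => -(a ^ ((i : ℕ) + m)).trace := by
    have : qcoef a m = (-((hank a m).det)⁻¹) •
        ((hank a m).adjugate *ᵥ fun j => (a ^ ((j : ℕ) + m)).trace) := by
      funext i; simp [qcoef]
    rw [this, Matrix.mulVec_smul, Matrix.mulVec_mulVec, Matrix.mul_adjugate, Matrix.smul_mulVec,
      Matrix.one_mulVec, smul_smul, neg_mul, inv_mul_cancel₀ hd]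
    funext i; simp
  have hev : ∀ l ∈ Λ, (qpoly a m).eval l = 0 := h.hank_kernel hm _ fun i => by
    have := congrFun hkey i
    simp only [Matrix.mulVec, dotProduct, hank, Matrix.of_apply] at this
    simp only [qpoly, map_add, map_sum, add_mul, Finset.sum_mul, Matrix.trace_add, Matrix.trace_sum,
      map_mul, aeval_C, aeval_X_pow, ← Algebra.smul_def, smul_mul_assoc, Matrix.trace_smul,
      ← pow_add, smul_eq_mul]
    rw [add_comm m (i : ℕ), Finset.sum_congr rfl fun (j : Fin m) _ => show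
        qcoef a m j * (a ^ ((j : ℕ) + i)).trace = (a ^ ((i : ℕ) + j)).trace * qcoef a m j by
          rw [add_comm (j : ℕ), mul_comm], this, add_neg_cancel]
  set g : ℂ[X] := ∏ l ∈ Λ, (X - C l) with hg
  have hgd : g.natDegree = m := by simp [hg, natDegree_prod_of_monic Λ (fun l => X - C l) fun l _ => monic_X_sub_C l, hm]
  have hgm : g.Monic := monic_prod_of_monic _ _ fun l _ => monic_X_sub_C l
  have hqd : (qpoly a m).Monic ∧ (qpoly a m).degree = m := by
    have hlt := degree_sum_fin_lt (qcoef a m)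
    exact ⟨monic_X_pow_add hlt, by rw [qpoly, degree_add_eq_left_of_degree_lt (by simpa using hlt)]; simp⟩
  refine sub_eq_zero.1 (eq_zero_of_degree_lt_of_eval_finset_eq_zero Λ ?_ fun l hl => ?_)
  · rw [← hm]
    have hgd' : g.degree = m := by rw [degree_eq_natDegree hgm.ne_zero, hgd]
    refine lt_of_lt_of_le (degree_sub_lt_left (hqd.2.trans hgd'.symm) hqd.1.ne_zero
      (by rw [hqd.1.leadingCoeff, hgm.leadingCoeff])) hqd.2.le
  · rw [eval_sub, hev l hl, hg, eval_prod, Finset.prod_eq_zero hl (by simp), sub_zero]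

end Spec

lemma hasD_pow_pair {M : ℂ → Mat r} {δ : Mat r} (h : HasD M δ) : ∀ j : ℕ,
    ∃ d, HasD (fun s => M s ^ j) d ∧ ∀ X, Commute (M 0) X →
      (d * X).trace = (aeval (M 0) (derivative (Polynomial.X ^ j : ℂ[X])) * X * δ).trace
  | 0 => ⟨0, by simpa using hasD_const (1 : Mat r), fun X _ => by simp⟩
  | j + 1 => by
    obtain ⟨d, hd, hdX⟩ := hasD_pow_pair h j
    refine ⟨_, by simpa only [pow_succ] using hd.mul h, fun X hX => ?_⟩
    rw [add_mul, Matrix.trace_add, Matrix.mul_assoc d, hdX _ ((Commute.refl _).mul_right hX),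
      Matrix.mul_assoc (M 0 ^ j), Matrix.trace_mul_comm (M 0 ^ j), Matrix.mul_assoc δ,
      Matrix.trace_mul_comm δ]
    simp only [derivative_X_pow, map_mul, aeval_C, aeval_X_pow, Algebra.algebraMap_eq_smul_one,
      smul_mul_assoc, Matrix.one_mul, Matrix.trace_smul, smul_eq_mul, Nat.add_sub_cancel]
    rw [(hX.pow_left j).eq]
    rcases j with _ | j
    · simp
    · rw [Nat.add_sub_cancel, ← Matrix.mul_assoc (M 0 ^ j), ← pow_succ, ← (hX.pow_left (j + 1)).eq]
      push_cast
      ring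

lemma hasD_pow_block {N : ℂ → Mat r} {dN : Mat r} (h : HasD N dN) : ∀ k : ℕ,
    ∃ d, HasD (fun s => N s ^ k) d ∧ ∀ M, (d * M).trace = (dN * blockT (N 0) k M).trace
  | 0 => ⟨0, by simpa using hasD_const (1 : Mat r), fun M => by simp [blockT]⟩
  | k + 1 => by
    obtain ⟨d, hd, hdM⟩ := hasD_pow_block h k
    refine ⟨_, by simpa only [pow_succ] using hd.mul h, fun M => ?_⟩
    rw [add_mul, Matrix.trace_add, Matrix.mul_assoc d, hdM, Matrix.mul_assoc (N 0 ^ k),
      Matrix.trace_mul_comm (N 0 ^ k), Matrix.mul_assoc dN, ← Matrix.trace_add, ← mul_add]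
    congr 2
    rw [blockT, blockT, Finset.sum_range_succ' _ k]
    simp only [pow_succ, pow_zero, Matrix.one_mul, Nat.add_sub_cancel, Nat.sub_zero,
      Matrix.mul_assoc]
    congr 1
    refine Finset.sum_congr rfl fun i hi => ?_
    rw [show k - (i + 1) = k - 1 - i by omega]

end Vale.Agent.P002
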