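import Vale.Agent.P002.Lift

/-!
A two-handle base point at which the trace functions of the words in the first generator and powers
of a diagonal second one have independent differentials.
-/

namespace Vale.Agent.P002

open Matrix MvPolynomial

variable {r : ℕ}

/-- A move followed by a power. -/
abbrev Mv := Option ℕ × ℕ

/-- The list of the move. -/
def rep1 (k : ℕ) : List (Fin 1) := List.replicate k 0

/-- The pushed twist directions for two handles. -/
noncomputable def dir2 (A : Fin 2 → SLC r) : Mv → Fin 2 → Mat r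
  | (some k, m) => steps A (rep1 k) (Pi.single 0 (tl ((A 0 * vw A (rep1 k)) ^ (m + 1)).val))
  | (none, m) => Pi.single 1 (tl ((A 1) ^ (m + 1)).val)

/-- Conditions on the base point. -/
structure Seed2 (A : Fin 2 → SLC r) : Prop where
  good : ∀ k, Avoids (A 0 * vw A (rep1 k)).val
  goodOne : Avoids (A 1).val
  diag : ∃ ν : Fin r → ℂ, Indep ν ∧ (A 1)⁻¹.val = Matrix.diagonal ν
  entry : ∀ i j, (A 0).val i j ≠ 0
  cyc : ∀ i j l, i ≠ j → j ≠ l → l ≠ i →
    (A 0).val i j * (A 0).val j l * (A 0).val l i -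
      (A 0).val i l * (A 0).val l j * (A 0).val j i ≠ 0

lemma vw_rep1 (A : Fin 2 → SLC r) : ∀ k, vw A (rep1 k) = ((A 1)⁻¹) ^ k
  | 0 => by simp [rep1, vw]
  | k + 1 => by
    rw [show rep1 (k + 1) = 0 :: rep1 k from rfl, vw, vw_rep1 A k, pow_succ]
    rfl

lemma indep_inj {lam : Fin r → ℂ} (h : Indep lam) : Function.Injective lam := by
  intro i j hij
  by_contra hne
  obtain ⟨k, hk⟩ := h (Pi.single i 1) (Pi.single j 1) (by simp [Pi.single_apply, pow_ite, hij])
  have := hk i; have := hk j
  simp [hne, Ne.symm hne] at *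
  omega

lemma indep_inv {lam : Fin r → ℂ} (h : Indep lam) : Indep fun i => (lam i)⁻¹ := fun d d' e => by
  refine h d d' ?_
  simpa [inv_pow, Finset.prod_inv_distrib] using e

lemma avoids_diag {lam : Fin r → ℂ} (h : Indep lam) {W : Mat r} (hW : W = Matrix.diagonal lam) :
    Avoids W := by
  intro d d' hd e
  rw [hW, avoids_of_diagonal, relPoly, map_prod, Finset.prod_eq_zero_iff] at e
  obtain ⟨σ, -, hσ⟩ := e
  simp only [map_sub, map_prod, map_pow, eval_X, sub_eq_zero] at hσ
  rw [Fintype.prod_equiv σ (fun i => lam (σ i) ^ d i) (fun i => lam i ^ d (σ.symm i))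
      (fun i => by simp),
    Fintype.prod_equiv σ (fun i => lam (σ i) ^ d' i) (fun i => lam i ^ d' (σ.symm i))
      (fun i => by simp)] at hσ
  obtain ⟨k, hk⟩ := h _ _ hσ
  exact hd ⟨k, fun i => by simpa using hk (σ i)⟩

lemma exists_diag_seed (hr : 2 ≤ r) : ∃ (ν : Fin r → ℂ) (D : SLC r), Indep ν ∧
    D.val = Matrix.diagonal ν := by
  obtain ⟨G, hG⟩ := exists_good (r := r) (by omega) fun _ : Unit => (1 : SLC r)
  obtain ⟨U, lam, hind, hW⟩ := goodW_of_avoids (hG ())
  have hdet := congrArg Matrix.det hW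
  rw [Matrix.det_units_conj, Matrix.det_diagonal, Matrix.SpecialLinearGroup.det_coe] at hdet
  exact ⟨lam, ⟨Matrix.diagonal lam, by rw [Matrix.det_diagonal, ← hdet]⟩, hind, rfl⟩

/-- The difference of the two cyclic products. -/
def cycF (M : Mat r) (i j l : Fin r) : ℂ :=
  M i j * M j l * M l i - M i l * M l j * M j i

lemma exists_witness (hr : 1 ≤ r) : ∃ N : SLC r, (∀ i j, N.val i j ≠ 0) ∧
    ∀ i j l, i ≠ j → j ≠ l → l ≠ i → cycF N.val i j l ≠ 0 := by
  classical
  let K := (Fin r × Fin r) ⊕
    {p : Fin r × Fin r × Fin r // p.1 ≠ p.2.1 ∧ p.2.1 ≠ p.2.2 ∧ p.2.2 ≠ p.1}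
  let Q : K → MvPolynomial (Fin r × Fin r) ℂ := fun c => match c with
    | Sum.inl q => X q
    | Sum.inr ⟨(i, j, l), _⟩ =>
      X (i, j) * X (j, l) * X (l, i) - X (i, l) * X (l, j) * X (j, i)
  let Q' : Option K → MvPolynomial (Fin r × Fin r) ℂ := fun o =>
    o.elim (Matrix.det (Matrix.mvPolynomialX (Fin r) (Fin r) ℂ)) Q
  obtain ⟨x, hx⟩ := exists_avoid Q' fun o => by
    match o with
    | none => exact Matrix.det_mvPolynomialX_ne_zero (Fin r) ℂ
    | some (Sum.inl q) => exact X_ne_zero q
    | some (Sum.inr ⟨(i, j, l), h1, h2, h3⟩) =>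
      intro e
      have := congrArg (eval fun q : Fin r × Fin r =>
        if q = (i, j) ∨ q = (j, l) ∨ q = (l, i) then (1 : ℂ) else 0) e
      simp [Q', Q, Prod.ext_iff, h1, h2, h3, h1.symm, h2.symm, h3.symm] at this
  set M : Mat r := Matrix.of fun a b => x (a, b) with hM
  have hdet : M.det ≠ 0 := by
    have := hx none
    simp only [Q', Option.elim, RingHom.map_det] at this
    convert this using 2
    ext a b
    simp [hM, Matrix.mvPolynomialX_apply]
  obtain ⟨c, hc⟩ := IsAlgClosed.exists_pow_nat_eq M.det⁻¹ (n := r) (by omega)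
  have hc0 : c ≠ 0 := fun e => by
    rw [e, zero_pow (by omega)] at hc
    exact inv_ne_zero hdet hc.symm
  let N : SLC r := ⟨c • M, by rw [Matrix.det_smul, Fintype.card_fin, hc, inv_mul_cancel₀ hdet]⟩
  refine ⟨N, fun i j => ?_, fun i j l h1 h2 h3 => ?_⟩
  · have h := hx (some (Sum.inl (i, j)))
    simp only [Q', Q, Option.elim, eval_X] at h
    show c • M i j ≠ 0
    exact smul_ne_zero hc0 h
  · have h := hx (some (Sum.inr ⟨(i, j, l), h1, h2, h3⟩))
    simp only [Q', Q, Option.elim, map_sub, map_mul, eval_X] at h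
    show c • M i j * (c • M j l) * (c • M l i) - c • M i l * (c • M l j) * (c • M j i) ≠ 0
    simp only [hM, Matrix.of_apply, smul_eq_mul]
    rw [show c * x (i, j) * (c * x (j, l)) * (c * x (l, i)) -
        c * x (i, l) * (c * x (l, j)) * (c * x (j, i)) =
      c ^ 3 * (x (i, j) * x (j, l) * x (l, i) - x (i, l) * x (l, j) * x (j, i)) by ring]
    exact mul_ne_zero (pow_ne_zero _ hc0) h

lemma ind_trace_one (S : Finset (Fin r)) (M N : Mat r) :
    ((Matrix.diagonal (fun a => if a ∈ S then (1 : ℂ) else 0) * M) ^ 1 *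
      (Matrix.diagonal (fun a => if a ∈ S then (1 : ℂ) else 0) * N)).trace =
      ∑ a ∈ S, ∑ b ∈ S, M a b * N b a := by
  have hI : ∀ f : Fin r → ℂ, ∑ a ∈ S, f a = ∑ a, (if a ∈ S then (1 : ℂ) else 0) * f a :=
    fun f => by simp [ite_mul]
  simp only [hI, Matrix.trace, Matrix.diag, pow_one]
  refine Finset.sum_congr rfl fun a _ => ?_
  simp only [Matrix.mul_apply (M := _ * _), Matrix.diagonal_mul, Finset.mul_sum]
  refine Finset.sum_congr rfl fun b _ => ?_
  ring

lemma ind_trace_two (S : Finset (Fin r)) (M N : Mat r) :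
    ((Matrix.diagonal (fun a => if a ∈ S then (1 : ℂ) else 0) * M) ^ 2 *
      (Matrix.diagonal (fun a => if a ∈ S then (1 : ℂ) else 0) * N)).trace =
      ∑ a ∈ S, ∑ c ∈ S, ∑ b ∈ S, M a b * M b c * N c a := by
  have hI : ∀ f : Fin r → ℂ, ∑ a ∈ S, f a = ∑ a, (if a ∈ S then (1 : ℂ) else 0) * f a :=
    fun f => by simp [ite_mul]
  simp only [hI, Matrix.trace, Matrix.diag, pow_two]
  refine Finset.sum_congr rfl fun a _ => ?_
  simp only [Matrix.mul_apply (M := _ * _), Matrix.diagonal_mul, Finset.mul_sum, Finset.sum_mul]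
  refine Finset.sum_congr rfl fun c _ => Finset.sum_congr rfl fun b _ => ?_
  ring

lemma exists_generic (hr : 2 ≤ r) (D : SLC r) : ∃ A : SLC r,
    (∀ k : ℕ, Avoids (A * D ^ k).val) ∧ (∀ i j, A.val i j ≠ 0) ∧
      ∀ i j l, i ≠ j → j ≠ l → l ≠ i → cycF A.val i j l ≠ 0 := by
  classical
  obtain ⟨G, hG⟩ := exists_good (r := r) (by omega) fun k : ℕ => D ^ k
  obtain ⟨N, hN1, hN2⟩ := exists_witness (r := r) (by omega)
  obtain ⟨f, hf, hf0, hf1⟩ := exists_path hr G N
  let F₁ : ℕ × {p : (Fin r → ℕ) × (Fin r → ℕ) // ¬ ConstDiff p.1 p.2} → ℂ → ℂ := fun q s =>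
    eval (fun v => ((f s).val * (D ^ q.1).val) v.1 v.2) (entryPoly q.2.1.1 q.2.1.2)
  let F₂ : Fin r × Fin r → ℂ → ℂ := fun q s => (f s).val q.1 q.2
  let F₃ : {p : Fin r × Fin r × Fin r // p.1 ≠ p.2.1 ∧ p.2.1 ≠ p.2.2 ∧ p.2.2 ≠ p.1} → ℂ → ℂ :=
    fun q s => cycF (f s).val q.1.1 q.1.2.1 q.1.2.2
  have h₁ : ∀ q, Differentiable ℂ (F₁ q) := fun q =>
    (contDiff_eval (f := fun s (v : Fin r × Fin r) => ((f s).val * (D ^ q.1).val) v.1 v.2)
      (fun v => (hf.mul (Smooth.const (D ^ q.1).val)) v.1 v.2) _).differentiable (by simp)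
  have h₂ : ∀ q, Differentiable ℂ (F₂ q) := fun q => (hf q.1 q.2).differentiable (by simp)
  have h₃ : ∀ q, Differentiable ℂ (F₃ q) := fun q => by
    have hd : ∀ a b, Differentiable ℂ fun s => (f s).val a b :=
      fun a b => (hf a b).differentiable (by simp)
    exact (((hd _ _).mul (hd _ _)).mul (hd _ _)).sub (((hd _ _).mul (hd _ _)).mul (hd _ _))
  obtain ⟨s, hs⟩ := (dense_avoid' (Sum.elim F₁ (Sum.elim F₂ F₃))
    (by rintro (q | q | q); exacts [h₁ q, h₂ q, h₃ q]) (by
      rintro (q | q | q)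
      · refine ⟨0, ?_⟩
        show eval _ _ ≠ 0
        rw [hf0]
        exact hG q.1 q.2.1.1 q.2.1.2 q.2.2
      · refine ⟨1, ?_⟩
        show (f 1).val q.1 q.2 ≠ 0
        rw [hf1]
        exact hN1 _ _
      · refine ⟨1, ?_⟩
        show cycF (f 1).val _ _ _ ≠ 0
        rw [hf1]
        exact hN2 _ _ _ q.2.1 q.2.2.1 q.2.2.2)).nonempty
  exact ⟨f s, fun k d d' h => hs (Sum.inl (k, ⟨(d, d'), h⟩)),
    fun i j => hs (Sum.inr (Sum.inl (i, j))),
    fun i j l h1 h2 h3 => hs (Sum.inr (Sum.inr ⟨(i, j, l), h1, h2, h3⟩))⟩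

/-- Existence of the base point. -/
lemma exists_seed2 (hr : 2 ≤ r) : ∃ A : Fin 2 → SLC r, Seed2 A := by
  obtain ⟨ν, D, hν, hD⟩ := exists_diag_seed hr
  obtain ⟨G, hG1, hG2, hG3⟩ := exists_generic hr D
  have hA1 : (![G, D⁻¹] 1)⁻¹ = D := by simp
  refine ⟨![G, D⁻¹], fun k => ?_, ?_, ⟨ν, hν, by rw [hA1, hD]⟩, hG2, hG3⟩
  · rw [vw_rep1, hA1]
    exact hG1 k
  · refine avoids_diag (indep_inv hν) ?_
    show D⁻¹.val = _
    have hprod : ∏ i, ν i = 1 := by rw [← Matrix.det_diagonal, ← hD]; exact D.2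
    have hν0 : ∀ i, ν i ≠ 0 := fun i e => by
      rw [Finset.prod_eq_zero (Finset.mem_univ i) e] at hprod; exact zero_ne_one hprod
    refine left_inv_eq_right_inv (val_inv_mul D) ?_
    rw [hD, Matrix.diagonal_mul_diagonal, ← Matrix.diagonal_one]
    congr 1
    funext i
    exact mul_inv_cancel₀ (hν0 i)

/-- Membership in a span through the trace pairing. -/
lemma mem_span_of_pairing [NeZero r] {n : ℕ} {S : Set (Fin n → Mat r)} {β : Fin n → Mat r}
    (hS : ∀ d ∈ S, ∀ i, (d i).trace = 0) (hβ : ∀ i, (β i).trace = 0)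
    (h : ∀ lam : Fin n → Mat r, (∀ i, (lam i).trace = 0) →
      (∀ d ∈ S, ∑ i, (lam i * d i).trace = 0) → ∑ i, (lam i * β i).trace = 0) :
    β ∈ Submodule.span ℂ S := by
  by_contra hcon
  obtain ⟨φ, hφβ, hφS⟩ := Submodule.exists_dual_map_eq_bot_of_notMem hcon inferInstance
  let lam0 : Fin n → Mat r := fun i =>
    Matrix.of fun a b => φ (Pi.single i (Matrix.single b a 1))
  have hrep : ∀ γ, φ γ = ∑ i, (lam0 i * γ i).trace := fun γ => by
    have e : γ = ∑ i, ∑ a, ∑ b, γ i b a •
        (Pi.single i (Matrix.single b a (1 : ℂ)) : Fin n → Mat r) := by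
      funext j
      simp [Finset.sum_apply, Pi.single_apply, Matrix.smul_single]
      rw [Finset.sum_comm]
      exact Matrix.matrix_eq_sum_single _
    conv_lhs => rw [e]
    simp only [map_sum, map_smul, smul_eq_mul, Matrix.trace, Matrix.diag, Matrix.mul_apply, lam0,
      Matrix.of_apply]
    exact Finset.sum_congr rfl fun i _ => Finset.sum_congr rfl fun a _ =>
      Finset.sum_congr rfl fun b _ => mul_comm _ _
  have hrep' : ∀ γ : Fin n → Mat r, (∀ i, (γ i).trace = 0) →
      φ γ = ∑ i, (tl (lam0 i) * γ i).trace := fun γ hγ => by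
    rw [hrep]
    exact Finset.sum_congr rfl fun i _ => by
      simp [tl, sub_mul, Matrix.trace_sub, Matrix.trace_smul, hγ i]
  refine hφβ ?_
  rw [hrep' β hβ]
  refine h _ (fun i => trace_tl (NeZero.ne r) _) fun d hd => ?_
  rw [← hrep' d (hS d hd)]
  have h' := Submodule.mem_map_of_mem (f := φ) (Submodule.subset_span (R := ℂ) hd)
  rw [hφS] at h'
  simpa using h'

lemma trace_steps {n : ℕ} (A : Fin (n + 1) → SLC r) : ∀ (l : List (Fin n))
    (γ : Fin (n + 1) → Mat r), (∀ i, (γ i).trace = 0) → ∀ i, (steps A l γ i).trace = 0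
  | [], _, h, i => h i
  | k :: l, γ, h, i => trace_steps A l _ (fun i => by
      have e : ((A k.succ)⁻¹.val * γ 0 * (A k.succ).val).trace = 0 := by
        rw [Matrix.trace_mul_comm, ← Matrix.mul_assoc, val_mul_inv, Matrix.one_mul, h]
      by_cases hk : i = k.succ
      · subst hk; simp [step, Matrix.trace_sub, h, e, -Matrix.SpecialLinearGroup.coe_inv]
      · by_cases hi : i = 0
        · subst hi; simp [step, hk, e, -Matrix.SpecialLinearGroup.coe_inv]
        · simp [step, hk, hi, h]) i

lemma transp_sub {n : ℕ} (A : Fin (n + 1) → SLC r) (lam lam' : Fin (n + 1) → Mat r) :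
    ∀ l : List (Fin n), transp A (lam - lam') l = transp A lam l - transp A lam' l
  | [] => rfl
  | k :: l => by
    simp only [transp, transp_sub A lam lam' l, Pi.sub_apply]
    simp only [mul_sub, sub_mul]
    abel

/-- Inner covectors. -/
noncomputable def cob {n : ℕ} (A : Fin (n + 1) → SLC r) (Y : Mat r) : Fin (n + 1) → Mat r :=
  fun i => (A i)⁻¹.val * Y * (A i).val - Y

lemma transp_cob {n : ℕ} (A : Fin (n + 1) → SLC r) (Y : Mat r) : ∀ l : List (Fin n),
    transp A (cob A Y) l = (A 0 * vw A l)⁻¹.val * Y * (A 0 * vw A l).val - Y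
  | [] => by simp [transp, cob, vw]
  | k :: l => by
    rw [transp, transp_cob A Y l, cob, vw,
      show (A 0 * (vw A l * (A k.succ)⁻¹))⁻¹ = A k.succ * (A 0 * vw A l)⁻¹ by group,
      show A 0 * (vw A l * (A k.succ)⁻¹) = A 0 * vw A l * (A k.succ)⁻¹ by group]
    generalize A 0 * vw A l = u
    rw [Matrix.SpecialLinearGroup.coe_mul, Matrix.SpecialLinearGroup.coe_mul]
    simp only [mul_sub, sub_mul, Matrix.mul_assoc, val_mul_inv, Matrix.mul_one]
    simp only [← Matrix.mul_assoc, val_mul_inv, Matrix.one_mul]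
    abel

lemma pair_single {n : ℕ} (A : Fin (n + 1) → SLC r) (lam : Fin (n + 1) → Mat r) (Z : Mat r)
    (l : List (Fin n)) :
    ∑ i, (lam i * steps A l (Pi.single 0 Z) i).trace = (Z * transp A lam l).trace := by
  rw [pair_steps, Pi.single_eq_same, Finset.sum_eq_single 0 (fun i _ hi => by simp [hi]) (by simp),
    Pi.single_eq_same, mul_sub, Matrix.trace_sub, Matrix.trace_mul_comm (lam 0), add_sub_cancel]

lemma trace_pow_cob {n : ℕ} (A : Fin (n + 1) → SLC r) (Y : Mat r) (W : SLC r) (m : ℕ) :
    ((W ^ m).val * (W⁻¹.val * Y * W.val - Y)).trace = 0 := by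
  rw [mul_sub, Matrix.trace_sub, sub_eq_zero, ← Matrix.mul_assoc, ← Matrix.mul_assoc,
    Matrix.trace_mul_comm, ← Matrix.mul_assoc, ← Matrix.mul_assoc,
    ← Matrix.SpecialLinearGroup.coe_mul, ← Matrix.SpecialLinearGroup.coe_mul]
  congr 3
  rw [← ((Commute.refl W).pow_left m).eq, mul_inv_cancel_right]

/-- The directions span. -/
theorem inK_mem_span2 [NeZero r] {A : Fin 2 → SLC r} (hA : Seed2 A) {β : Fin 2 → Mat r}
    (hβ : InK A β) : β ∈ Submodule.span ℂ (Set.range (dir2 A)) := by
  classical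
  refine mem_span_of_pairing ?_ hβ.1 fun lam hlam hdir => ?_
  · rintro _ ⟨⟨_ | k, m⟩, rfl⟩ i
    · by_cases hi : i = 1
      · subst hi; simp [dir2, trace_tl (NeZero.ne r)]
      · simp [dir2, hi]
    · refine trace_steps A _ _ (fun j => ?_) i
      by_cases hj : j = 0
      · subst hj; simp [trace_tl (NeZero.ne r)]
      · simp [hj]
  obtain ⟨ν, hν, hD⟩ := hA.diag
  have hinj := indep_inj hν
  have hν0 : ∀ i, ν i ≠ 0 := fun i e => by
    have h := (A 1)⁻¹.2
    rw [hD, Matrix.det_diagonal, Finset.prod_eq_zero (Finset.mem_univ i) e] at h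
    exact zero_ne_one h
  have hA1 : (A 1).val = Matrix.diagonal fun i => (ν i)⁻¹ := by
    have h := val_mul_inv (A 1)
    rw [hD] at h
    refine (left_inv_eq_right_inv h ?_)
    rw [Matrix.diagonal_mul_diagonal, ← Matrix.diagonal_one]
    congr 1; funext i; exact mul_inv_cancel₀ (hν0 i)
  have htl : ∀ (W X : Mat r), X.trace = 0 → (tl W * X).trace = (W * X).trace := fun W X h => by
    simp [tl, sub_mul, Matrix.trace_sub, Matrix.trace_smul, h]
  have hnone : ∀ m : ℕ, ((A 1 ^ (m + 1)).val * lam 1).trace = 0 := fun m => by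
    have h := hdir _ ⟨(none, m), rfl⟩
    rw [Finset.sum_eq_single 1 (fun i _ hi => by simp [dir2, hi]) (by simp)] at h
    simp only [dir2, Pi.single_eq_same] at h
    rwa [Matrix.trace_mul_comm, htl _ _ (hlam 1)] at h
  have hsome : ∀ k m, (((A 0 * vw A (rep1 k)) ^ (m + 1)).val * transp A lam (rep1 k)).trace = 0 :=
    fun k m => by
      have h := hdir _ ⟨(some k, m), rfl⟩
      simp only [dir2] at h
      rwa [pair_single, htl _ _ (trace_transp hlam _)] at h
  -- normalise the second covector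
  have hdiag : ∀ a, lam 1 a a = 0 := by
    have h := Matrix.eq_zero_of_forall_pow_sum_mul_pow_eq_zero (f := fun a => (ν a)⁻¹)
      (v := fun a => lam 1 a a * (ν a)⁻¹) (fun a b e => hinj (inv_injective e)) fun m => by
        rw [← hnone m]
        simp only [Matrix.SpecialLinearGroup.coe_pow, hA1, Matrix.diagonal_pow, Matrix.trace,
          Matrix.diag, Matrix.diagonal_mul, Pi.pow_apply]
        exact Finset.sum_congr rfl fun a _ => by ring
    intro a
    simpa [hν0 a] using congrFun h a
  let Y : Mat r := Matrix.of fun a b => if a = b then 0 else lam 1 a b / (ν a * (ν b)⁻¹ - 1)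
  set lam' := lam - cob A Y with hlam'
  have hl1 : lam' 1 = 0 := by
    ext a b
    simp only [hlam', Pi.sub_apply, cob, hD, hA1, Matrix.sub_apply, Matrix.mul_diagonal,
      Matrix.diagonal_mul, Matrix.zero_apply]
    by_cases hab : a = b
    · subst hab; simp [Y, hdiag]
    · have : ν a * (ν b)⁻¹ - 1 ≠ 0 := by
        rw [sub_ne_zero]
        intro e
        exact hab (hinj (by field_simp [hν0 b] at e; exact e))
      simp only [Y, Matrix.of_apply, if_neg hab]
      linear_combination -(div_mul_cancel₀ (lam 1 a b) this)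
  set M := (A 0).val
  set δ := M * lam' 0 with hδ
  -- the identity on all diagonal matrices
  have hH : ∀ (m : ℕ) (x : Fin r → ℂ),
      ((Matrix.diagonal x * M) ^ m * (Matrix.diagonal x * δ)).trace = 0 := by
    intro m
    have hpow : ∀ k : ℕ, ((Matrix.diagonal (fun i => ν i ^ k) * M) ^ m *
        (Matrix.diagonal (fun i => ν i ^ k) * δ)).trace = 0 := by
      intro k
      have h1 := hsome k m
      have h2 := trace_pow_cob A Y (A 0 * vw A (rep1 k)) (m + 1)
      rw [← transp_cob] at h2
      have h3 : (((A 0 * vw A (rep1 k)) ^ (m + 1)).val * transp A lam' (rep1 k)).trace = 0 := by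
        rw [hlam', transp_sub, mul_sub, Matrix.trace_sub, h1, h2, sub_zero]
      have hdvw : ∀ k, dvw A lam' (rep1 k) = 0 := by
        intro k
        induction k with
        | zero => rfl
        | succ k ih =>
          rw [show rep1 (k + 1) = 0 :: rep1 k from rfl, dvw, ih]
          show 0 * _ - _ * (lam' 1 * _) = 0
          simp [hl1]
      rw [transp_eq, hdvw, Matrix.mul_zero, add_zero] at h3
      set v := vw A (rep1 k) with hv
      have hvd : v.val = Matrix.diagonal (fun i => ν i ^ k) := by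
        rw [hv, vw_rep1, Matrix.SpecialLinearGroup.coe_pow, hD, Matrix.diagonal_pow]; rfl
      rw [← hvd]
      rw [← Matrix.mul_assoc, Matrix.trace_mul_comm, ← Matrix.mul_assoc,
        ← Matrix.mul_assoc] at h3
      have e : v.val * ((A 0 * v) ^ (m + 1)).val * v⁻¹.val = (v.val * M) ^ (m + 1) := by
        have : v * (A 0 * v) ^ (m + 1) * v⁻¹ = (v * A 0) ^ (m + 1) := by
          rw [← conj_pow]; congr 1; group
        simpa only [Matrix.SpecialLinearGroup.coe_mul, Matrix.SpecialLinearGroup.coe_pow] using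
          congrArg Subtype.val this
      rw [e, pow_succ, Matrix.mul_assoc, Matrix.mul_assoc] at h3
      exact h3
    let Xd : Matrix (Fin r) (Fin r) (MvPolynomial (Fin r) ℂ) := Matrix.diagonal fun i => X i
    let H : MvPolynomial (Fin r) ℂ :=
      ((Xd * M.map C) ^ m * (Xd * δ.map C)).trace
    have hev : ∀ x : Fin r → ℂ, eval x H =
        ((Matrix.diagonal x * M) ^ m * (Matrix.diagonal x * δ)).trace := fun x => by
      have e : ∀ N : Mat r, (eval x).mapMatrix (Xd * N.map C) = Matrix.diagonal x * N := fun N => by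
        ext a b
        simp [Xd, Matrix.diagonal_mul]
      calc eval x H = ((eval x).mapMatrix ((Xd * M.map C) ^ m * (Xd * δ.map C))).trace :=
            AddMonoidHom.map_trace (eval x).toAddMonoidHom _
        _ = _ := by rw [map_mul, map_pow, e, e]
    intro x
    have key : ∀ y : Fin r → ℂ, (∀ i, y i ≠ 0) →
        ((Matrix.diagonal y * M) ^ m * (Matrix.diagonal y * δ)).trace = 0 := by
      intro y hy
      have hp : ∏ i, y i ≠ 0 := Finset.prod_ne_zero_iff.2 fun i _ => hy i
      obtain ⟨c, hc⟩ := IsAlgClosed.exists_pow_nat_eq (∏ i, y i)⁻¹ (Nat.pos_of_neZero r)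
      have hc0 : c ≠ 0 := fun e => by
        rw [e, zero_pow (NeZero.ne r)] at hc; exact inv_ne_zero hp hc.symm
      have h := eval_eq_zero_of_powers hν (μ := fun i => c * y i) (H := H)
        (by rw [Finset.prod_mul_distrib, Finset.prod_const, Finset.card_univ, Fintype.card_fin, hc,
          inv_mul_cancel₀ hp]) fun k => by rw [hev]; exact hpow k
      rw [hev, show (fun i => c * y i) = c • y from rfl, Matrix.diagonal_smul] at h
      simp only [smul_mul_assoc, smul_pow, mul_smul_comm, smul_smul, Matrix.trace_smul,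
        smul_eq_mul, mul_eq_zero] at h
      exact h.resolve_left (by simp [hc0])
    have hd : Dense {s : ℂ | ∀ i, x i + s ≠ 0} :=
      dense_avoid' (fun i s => x i + s) (fun i => (differentiable_const _).add differentiable_id)
        fun i => ⟨1 - x i, by simp⟩
    have hs : Continuous fun s : ℂ => eval (fun i => x i + s) H :=
      (MvPolynomial.continuous_eval H).comp (continuous_pi fun i => continuous_const.add continuous_id)
    have := congrFun (hs.ext_on hd continuous_const (fun s hs => (hev _).trans (key _ hs))) 0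
    simpa [hev] using this
  -- indicator matrices
  have hind : ∀ (m : ℕ) (S : Finset (Fin r)),
      ((Matrix.diagonal (fun a => if a ∈ S then (1 : ℂ) else 0) * M) ^ m *
        (Matrix.diagonal (fun a => if a ∈ S then (1 : ℂ) else 0) * δ)).trace = 0 :=
    fun m S => hH m _
  have h0 : ∀ a, δ a a = 0 := fun a => by
    simpa [Matrix.trace, Matrix.diagonal_mul] using hind 0 {a}
  have h1 : ∀ a b, M a b * δ b a + M b a * δ a b = 0 := fun a b => by
    by_cases hab : a = b
    · subst hab; simp [h0]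
    have h := (ind_trace_one {a, b} M δ).symm.trans (hind 1 {a, b})
    simp only [Finset.sum_pair hab, h0, mul_zero, zero_add, add_zero] at h
    linear_combination h
  let s : Fin r → Fin r → ℂ := fun a b => δ a b / M a b
  have hs : ∀ a b, δ a b = M a b * s a b := fun a b => by
    exact (mul_div_cancel₀ _ (hA.entry a b)).symm
  have hanti : ∀ a b, s b a = -s a b := fun a b => by
    have h := h1 a b
    rw [hs, hs a b] at h
    refine eq_neg_of_add_eq_zero_left (mul_left_cancel₀ (mul_ne_zero (hA.entry a b) (hA.entry b a))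
      (?_ : M a b * M b a * (s b a + s a b) = M a b * M b a * 0))
    linear_combination h
  have hself : ∀ a, s a a = 0 := fun a => by simp [s, h0]
  have htri : ∀ a b c, s a b + s b c + s c a = 0 := by
    intro a b c
    by_cases hab : a = b
    · subst hab; rw [hself, hanti a c]; ring
    by_cases hbc : b = c
    · subst hbc; rw [hself, hanti a b]; ring
    by_cases hca : c = a
    · subst hca; rw [hself, hanti c b]; ring
    have h := (ind_trace_two {a, b, c} M δ).symm.trans (hind 2 {a, b, c})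
    simp only [Finset.sum_insert (show a ∉ ({b, c} : Finset (Fin r)) by simp [hab, Ne.symm hca]),
      Finset.sum_pair hbc] at h
    simp only [hs, hself, mul_zero, hanti a b, hanti b c, hanti c a] at h
    have hF := hA.cyc a b c hab hbc hca
    refine mul_left_cancel₀ hF (?_ : _ * (s a b + s b c + s c a) = _ * (0 : ℂ))
    linear_combination h
  let T : Mat r := Matrix.diagonal fun a => s a 0
  have hδT : δ = T * M - M * T := by
    ext a b
    simp only [T, Matrix.sub_apply, Matrix.diagonal_mul, Matrix.mul_diagonal]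
    have h := htri a b 0
    rw [hanti a 0] at h
    rw [hs]
    linear_combination M a b * h
  have hcob : lam' = cob A T := by
    funext i
    induction i using Fin.cases with
    | zero =>
      have h := congrArg ((A 0)⁻¹.val * ·) hδT
      simp only [hδ, mul_sub, ← Matrix.mul_assoc] at h
      rw [val_inv_mul, Matrix.one_mul, Matrix.one_mul] at h
      exact h
    | succ i =>
      rw [show i.succ = (1 : Fin 2) from Fin.ext (by simp), hl1]
      symm
      show (A 1)⁻¹.val * T * (A 1).val - T = 0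
      rw [hD, hA1, sub_eq_zero]
      simp only [T, Matrix.diagonal_mul_diagonal]
      congr 1
      funext a
      field_simp [hν0 a]
  have hpair : ∀ Z : Mat r, ∑ i, (cob A Z i * β i).trace = 0 := fun Z => by
    calc ∑ i, (cob A Z i * β i).trace
        = ∑ i, (Z * ((A i).val * β i * (A i)⁻¹.val - β i)).trace :=
          Finset.sum_congr rfl fun i _ => by
            rw [cob, sub_mul, mul_sub, Matrix.trace_sub, Matrix.trace_sub]
            congr 1
            simp only [← Matrix.mul_assoc]
            rw [Matrix.trace_mul_comm (Z * (A i).val * β i), ← Matrix.mul_assoc, ← Matrix.mul_assoc]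
      _ = 0 := by rw [← Matrix.trace_sum, ← Finset.mul_sum, hβ.2, mul_zero, Matrix.trace_zero]
  have e : lam = cob A T + cob A Y := by rw [← hcob, hlam', sub_add_cancel]
  simp only [e, Pi.add_apply, add_mul, Matrix.trace_add, Finset.sum_add_distrib, hpair, add_zero]

end Vale.Agent.P002
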