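import Vale.Agent.P002.Density
import Vale.Agent.P002.SeedTwo

/-!
One handle: invariant polynomials vanishing on commuting integral pairs vanish on all commuting
pairs.
-/

namespace Vale.Agent.P002

open Matrix MvPolynomial

variable {r : ℕ}

lemma relator_one_iff (σ : Handles 0 (SLC r)) :
    relator σ = 1 ↔ Commute (σ.1 0) (σ.2 0) := by
  simp [relator, tailComm, commutatorElement_eq_one_iff_mul_comm, Commute, SemiconjBy]

lemma powFirst_mem {ρ : Handles 0 (SLC r)} (hρ : ρ ∈ Zd 0 r) (m : ℕ) :
    ((fun i => ρ.1 i ^ m, ρ.2) : Handles 0 (SLC r)) ∈ Zd 0 r := by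
  refine polyCl_apply (T := fun σ => ((fun i => σ.1 i ^ m, σ.2) : Handles 0 (SLC r)))
    (fun i => ⟨?_, (allS_id i).2⟩) (fun σ h => ?_) (fun σ h => ?_) hρ
  · induction m with
    | zero => simpa using isPolyMap_stable.one
    | succ m ih => simp only [pow_succ]; exact isPolyMap_stable.mul _ _ ih (allS_id i).1
  · rw [relator_one_iff] at h ⊢
    exact h.pow_left m
  · refine ⟨(fun i => σ.1 i ^ m, σ.2), ?_, by simp [mapH, Function.comp_def]⟩
    simp only [relator, tailComm, List.ofFn_zero, List.prod_nil, mul_one,
      commutatorElement_eq_one_iff_mul_comm] at h ⊢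
    exact (show Commute (σ.1 0) (σ.2 0) from h).pow_left m

/-- Pairs of diagonal matrices lie in the closure of the commuting integral pairs. -/
lemma torus_mem (hr : 2 ≤ r) (ρ : Handles 0 (SLC r)) {μ ν : Fin r → ℂ}
    (hμ : (ρ.1 0).val = Matrix.diagonal μ) (hν : (ρ.2 0).val = Matrix.diagonal ν) :
    ρ ∈ Zd 0 r := by
  obtain ⟨lam, D, hind, hD⟩ := exists_diag_seed hr
  have hone : ∀ (s : SLC r) (x : Fin r → ℂ), s.val = Matrix.diagonal x → ∏ i, x i = 1 := by
    intro s x h
    have := congrArg Matrix.det h
    rwa [Matrix.det_diagonal, Matrix.SpecialLinearGroup.det_coe, eq_comm] at this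
  have hrel : relator ρ = 1 := by
    rw [relator_one_iff]
    refine Subtype.ext ?_
    simp only [Matrix.SpecialLinearGroup.coe_mul, hμ, hν, Matrix.diagonal_mul_diagonal]
    congr 1; funext i; ring
  refine ⟨hrel, fun P hP => ?_⟩
  have hmem : ∀ m k : ℕ,
      ((fun _ => D ^ m, fun _ => D ^ k) : Handles 0 (SLC r)) ∈ Zd 0 r := by
    intro m k
    have h := powFirst_mem (twist_pow_mem (slice_mem hr (n := 0) fun _ => D) k) m
    convert h using 2
    all_goals
      funext i
      rw [(show i = 0 from Fin.ext (by omega))]
      simp [twist]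
  have hpow : ∀ m : ℕ, (D ^ m).val = Matrix.diagonal fun i => lam i ^ m := fun m => by
    rw [Matrix.SpecialLinearGroup.coe_pow, hD, Matrix.diagonal_pow]; rfl
  let H : Bool → (Fin r → ℂ) → MvPolynomial (Fin r) ℂ := fun b z =>
    bind₁ (fun v : Var 0 r => if v.2.1 = v.2.2 then (if v.1.2 = b then X v.2.1 else C (z v.2.1))
      else 0) P
  have hH : ∀ (b : Bool) (x z : Fin r → ℂ) (σ : Handles 0 (SLC r)),
      (∀ c, gens σ (0, c) = Matrix.diagonal (if c = b then x else z)) →
      eval x (H b z) = eval (coord σ) P := by
    intro b x z σ h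
    simp only [H]
    rw [eval, eval₂Hom_bind₁]
    refine congrArg (fun f => eval₂Hom (RingHom.id ℂ) f P) (funext fun v => ?_)
    obtain ⟨⟨i, c⟩, p, q⟩ := v
    have e : coord σ ((i, c), p, q) = gens σ (0, c) p q := by
      rw [(show i = 0 from Fin.ext (by omega)), ← matOf_eq_gens]; rfl
    rw [e, h c]
    by_cases hpq : p = q
    · subst hpq
      by_cases hc : c = b <;> simp [hc]
    · simp [hpq]
  -- the first slot runs over powers
  have h1 : ∀ m : ℕ, eval ν (H true fun i => lam i ^ m) = 0 := fun m =>
    eval_eq_zero_of_powers hind (hone _ _ hν) fun k => by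
      rw [hH true (fun i => lam i ^ k) (fun i => lam i ^ m)
        ((fun _ => D ^ m, fun _ => D ^ k) : Handles 0 (SLC r))
        (fun c => by cases c <;> simp [gens, hpow])]
      exact (hmem m k).2 P hP
  have h2 : eval μ (H false ν) = 0 := eval_eq_zero_of_powers hind (hone _ _ hμ) fun m => by
    have e : ∀ c, gens ((fun _ => D ^ m, ρ.2) : Handles 0 (SLC r)) (0, c) =
        Matrix.diagonal (if c = false then (fun i => lam i ^ m) else ν) := fun c => by
      cases c <;> simp [gens, hpow, hν]
    rw [hH false _ _ _ e, ← hH true ν (fun i => lam i ^ m) _ fun c => by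
      cases c <;> simp [gens, hpow, hν]]
    exact h1 m
  rw [← hH false μ ν ρ fun c => by cases c <;> simp [gens, hμ, hν]]
  exact h2

/-- Commuting pairs: invariant polynomials vanishing on integral ones vanish. -/
lemma eval_zero_of_bd_one [NeZero r] (hr : 2 ≤ r) {P : MvPolynomial (Var 0 r) ℂ}
    (hP : ConjInv P) (hP0 : ∀ y ∈ intPts 0 r, MvPolynomial.eval y P = 0) (d : ℕ) :
    ∀ (k : ℕ) (blk : Fin r → Fin k), r - k = d → Function.Surjective blk →
      ∀ σ : Handles 0 (SLC r), relator σ = 1 → (∀ v, BD blk (gens σ v)) →
        MvPolynomial.eval (coord σ) P = 0 := by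
  induction d using Nat.strong_induction_on with
  | _ d ih =>
    intro k blk hd hsurj σ hσ hBD
    by_cases hirr : IrredBlocks blk σ
    · have hinj : Function.Injective blk := by
        intro a a' haa
        set j := blk a
        let Uj : Submodule ℂ (Fin r → ℂ) :=
          { carrier := {w | ∀ b, blk b ≠ j → w b = 0}
            zero_mem' := fun b _ => rfl
            add_mem' := fun h h' b hb => by rw [Pi.add_apply, h b hb, h' b hb, add_zero]
            smul_mem' := fun c w h b hb => by rw [Pi.smul_apply, h b hb, smul_zero] }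
        have hUj : ∀ v, ∀ w ∈ Uj, gens σ v *ᵥ w ∈ Uj := fun v w hw b hb => by
          simp only [Matrix.mulVec, dotProduct]
          refine Finset.sum_eq_zero fun l _ => ?_
          by_cases hl : blk l = j
          · rw [hBD v b l (by rw [hl]; exact hb), zero_mul]
          · rw [hw l hl, mul_zero]
        have hcomm : Commute (gens σ (0, false)) (gens σ (0, true)) :=
          congrArg Subtype.val ((relator_one_iff σ).1 hσ).eq
        let f := Matrix.toLin' (gens σ (0, false))
        let g := Matrix.toLin' (gens σ (0, true))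
        have hne : Uj ≠ ⊥ := by
          rw [Submodule.ne_bot_iff]
          refine ⟨Pi.single a 1, fun b hb => ?_, by simp⟩
          rw [Pi.single_eq_of_ne]
          intro e
          exact hb (by rw [e])
        have : Nontrivial Uj := Submodule.nontrivial_iff_ne_bot.2 hne
        obtain ⟨c, hc⟩ := Module.End.exists_eigenvalue (f.restrict (p := Uj) (q := Uj)
          fun w hw => by simpa [f] using hUj (0, false) w hw)
        obtain ⟨x, hx⟩ := hc.exists_hasEigenvector
        let E : Submodule ℂ (Fin r → ℂ) := Uj ⊓ Module.End.eigenspace f c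
        have hEne : E ≠ ⊥ := by
          rw [Submodule.ne_bot_iff]
          refine ⟨x.1, ⟨x.2, Module.End.mem_eigenspace_iff.2 ?_⟩, fun e => hx.2 (Subtype.ext e)⟩
          have := congrArg Subtype.val hx.apply_eq_smul
          simpa using this
        have hEg : ∀ w ∈ E, g w ∈ E := by
          rintro w ⟨hw1, hw2⟩
          refine ⟨by simpa [g] using hUj (0, true) w hw1, Module.End.mem_eigenspace_iff.2 ?_⟩
          have hw3 : gens σ (0, false) *ᵥ w = c • w := by
            simpa [f] using Module.End.mem_eigenspace_iff.1 hw2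
          simp only [f, g, Matrix.toLin'_apply]
          rw [Matrix.mulVec_mulVec, hcomm.eq, ← Matrix.mulVec_mulVec, hw3, Matrix.mulVec_smul]
        have : Nontrivial E := Submodule.nontrivial_iff_ne_bot.2 hEne
        obtain ⟨c', hc'⟩ := Module.End.exists_eigenvalue (g.restrict (p := E) (q := E) hEg)
        obtain ⟨y, hy⟩ := hc'.exists_hasEigenvector
        have hy1 : gens σ (0, false) *ᵥ y.1 = c • y.1 := by
          simpa [f] using Module.End.mem_eigenspace_iff.1 y.2.2
        have hy2 : gens σ (0, true) *ᵥ y.1 = c' • y.1 := by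
          simpa [g] using congrArg Subtype.val hy.apply_eq_smul
        have hy0 : y.1 ≠ 0 := fun e => hy.2 (Subtype.ext e)
        have hspan := hirr j (ℂ ∙ y.1) (by simpa using hy0)
          (fun u hu => by
            obtain ⟨t, rfl⟩ := Submodule.mem_span_singleton.1 hu
            exact Uj.smul_mem t y.2.1)
          (fun v u hu => by
            obtain ⟨t, rfl⟩ := Submodule.mem_span_singleton.1 hu
            rw [Matrix.mulVec_smul]
            refine Submodule.smul_mem _ t (Submodule.mem_span_singleton.2 ?_)
            obtain ⟨i, b⟩ := v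
            rw [(show i = 0 from Fin.ext (by omega))]
            cases b
            · exact ⟨c, hy1.symm⟩
            · exact ⟨c', hy2.symm⟩)
        obtain ⟨t, ht⟩ := Submodule.mem_span_singleton.1 (hspan (Pi.single a 1) fun b hb => by
          rw [Pi.single_eq_of_ne]; intro e; exact hb (by rw [e]))
        obtain ⟨t', ht'⟩ := Submodule.mem_span_singleton.1 (hspan (Pi.single a' 1) fun b hb => by
          rw [Pi.single_eq_of_ne]; intro e; exact hb (by rw [e, ← haa]))
        by_contra hne'
        have e1 := congrFun ht a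
        have e2 := congrFun ht' a
        rw [Pi.smul_apply, Pi.single_eq_same, smul_eq_mul] at e1
        rw [Pi.smul_apply, Pi.single_eq_of_ne hne', smul_eq_mul, mul_eq_zero] at e2
        rcases e2 with h | h
        · have e3 := congrFun ht' a'
          rw [h, zero_smul, Pi.zero_apply, Pi.single_eq_same] at e3
          exact zero_ne_one e3
        · rw [h, mul_zero] at e1
          exact zero_ne_one e1
      have hdiag : ∀ v, gens σ v = Matrix.diagonal fun i => gens σ v i i := fun v => by
        ext p q
        rcases eq_or_ne p q with rfl | hpq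
        · simp
        · rw [hBD v p q fun e => hpq (hinj e), Matrix.diagonal_apply_ne _ hpq]
      exact (torus_mem hr σ (by simpa [gens] using hdiag (0, false))
        (by simpa [gens] using hdiag (0, true))).2 P hP0
    simp only [IrredBlocks, not_forall] at hirr
    obtain ⟨j, U, hU0, hsupp, hinv, w, hw, hwU⟩ := hirr
    obtain ⟨blk', hsurj', σ', hσ', hBD', he⟩ :=
      refine_block hP hsurj hσ hBD hU0 hsupp ⟨w, hw, hwU⟩ hinv
    have := card_le_of_surjective hsurj'
    rw [← he]
    exact ih (r - (k + 1)) (by omega) (k + 1) blk' rfl hsurj' σ' hσ' hBD'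

/-- Invariant polynomials vanishing on integral representations vanish on all representations,
for every positive genus. -/
theorem eval_zero_of_invariant_pos [NeZero r] (hr : 2 ≤ r) {n : ℕ}
    {P : MvPolynomial (Var n r) ℂ} (hP : ConjInv P)
    (hP0 : ∀ y ∈ intPts n r, MvPolynomial.eval y P = 0) {σ : Handles n (SLC r)}
    (hσ : relator σ = 1) : MvPolynomial.eval (coord σ) P = 0 := by
  cases n with
  | zero =>
    exact eval_zero_of_bd_one hr hP hP0 (r - 1) 1 (fun _ => 0) rfl
      (fun j => ⟨0, Subsingleton.elim _ _⟩) σ hσ fun _ _ _ h => absurd rfl h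
  | succ m => exact eval_zero_of_invariant hr (Nat.succ_pos m) hP hP0 hσ

/-- One handle has no irreducible representations in rank at least two. -/
lemma not_full_one [NeZero r] (hr : 2 ≤ r) {σ : Handles 0 (SLC r)} (hσ : relator σ = 1) :
    ¬ Full (gens σ) := by
  intro hF
  have hcomm : Commute (gens σ (0, false)) (gens σ (0, true)) :=
    congrArg Subtype.val ((relator_one_iff σ).1 hσ).eq
  have hsc : ∀ v, ∃ c : ℂ, gens σ v = c • 1 := by
    rintro ⟨i, b⟩
    refine hF.triv _ fun w => ?_
    obtain ⟨i', b'⟩ := w
    rw [(show i' = 0 from Fin.ext (by omega)), (show i = 0 from Fin.ext (by omega))]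
    cases b <;> cases b' <;> first | exact Commute.refl _ | exact hcomm | exact hcomm.symm
  obtain ⟨c, hcE⟩ := hF.triv (Matrix.single (⟨0, by omega⟩ : Fin r) (⟨1, by omega⟩ : Fin r) (1 : ℂ))
    fun v => by
      obtain ⟨d, hd⟩ := hsc v
      rw [hd]
      exact (Commute.one_left _).smul_left d
  have := congrFun (congrFun hcE ⟨0, by omega⟩) ⟨1, by omega⟩
  simp [Matrix.single, Fin.ext_iff] at this

/-- Absolutely irreducible representations lie in the closure, for every positive genus. -/
theorem mem_of_full_pos [NeZero r] (hr : 2 ≤ r) {n : ℕ} {σ : Handles n (SLC r)}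
    (hσ : relator σ = 1) (hF : Full (gens σ)) : σ ∈ Zd n r := by
  cases n with
  | zero => exact absurd hF (not_full_one hr hσ)
  | succ m => exact mem_of_full hr (Nat.succ_pos m) hσ hF

end Vale.Agent.P002
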