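import Vale.Agent.P002.NoIdem

/-!
With two handles, every irreducible representation is a limit of ones whose handle commutators
are not scalar.
-/

namespace Vale.Agent.P002

open Matrix Filter Topology

variable {r : ℕ}

lemma adj_adj (g h : SLC r) (X : Mat r) : adj g (adj h X) = adj (g * h) X := by
  simp only [adj_apply, Matrix.SpecialLinearGroup.coe_mul, _root_.mul_inv_rev, Matrix.mul_assoc]

lemma adj_one_SL (X : Mat r) : adj (1 : SLC r) X = X := by simp [adj_apply]

lemma adj_of_scalar {g : SLC r} {c : ℂ} (h : g.val = c • 1) (X : Mat r) : adj g X = X := by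
  rw [adj_apply]
  have : Commute g.val X := h ▸ (Commute.one_left X).smul_left c
  rw [this.eq, Matrix.mul_assoc, val_mul_inv, Matrix.mul_one]

lemma trace_adj_self (g : SLC r) (X : Mat r) : (adj g X).trace = X.trace := by
  rw [adj_apply, Matrix.trace_mul_comm, ← Matrix.mul_assoc, val_inv_mul, Matrix.one_mul]

lemma sub_adj_tl (g : SLC r) (X : Mat r) : tl X - adj g (tl X) = X - adj g X := by
  simp only [tl, map_sub, map_smul, adj_apply g 1, Matrix.mul_one, val_mul_inv]
  abel

/-- For a pair with scalar commutator, differences along either generator are variations. -/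
lemma exists_pairD_eq [NeZero r] {a b : SLC r} {c : ℂ} (hc : (a * b * a⁻¹ * b⁻¹).val = c • 1)
    (X : Mat r) :
    (∃ α β : Mat r, α.trace = 0 ∧ β.trace = 0 ∧ pairD a b α β = X - adj a X) ∧
      ∃ α β : Mat r, α.trace = 0 ∧ β.trace = 0 ∧ pairD a b α β = X - adj b X := by
  have key : ∀ Z, adj (a * b) Z = adj (b * a) Z := fun Z => by
    rw [show a * b = a * b * a⁻¹ * b⁻¹ * (b * a) by group, ← adj_adj, adj_of_scalar hc]
  have key' : ∀ Z, adj (a * b * a⁻¹) Z = adj b Z := fun Z => by
    rw [show a * b * a⁻¹ = a * b * a⁻¹ * b⁻¹ * b by group, ← adj_adj, adj_of_scalar hc]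
  have h0 := trace_tl (NeZero.ne r) X
  refine ⟨⟨0, -adj b⁻¹ (tl X), Matrix.trace_zero _ _, ?_, ?_⟩,
    ⟨adj a⁻¹ (tl X), 0, by rw [trace_adj_self, h0], Matrix.trace_zero _ _, ?_⟩⟩
  · rw [Matrix.trace_neg, trace_adj_self, h0, neg_zero]
  · simp only [pairD, map_zero, map_neg, key', ← sub_adj_tl a X]
    simp only [adj_adj, mul_inv_cancel_right, mul_inv_cancel, adj_one_SL]
    abel
  · simp only [pairD, map_zero, key, ← sub_adj_tl b X]
    simp only [adj_adj, mul_inv_cancel_right, mul_inv_cancel, adj_one_SL]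
    abel

/-- Along a curve with scalar commutator the first variation of the commutator vanishes. -/
lemma pairD_eq_zero_of_curve [NeZero r] {a b : SLC r} {f g : ℂ → SLC r} {α β : Mat r}
    (hf0 : f 0 = a) (hg0 : g 0 = b) (hf : HasD (fun s => (f s).val) (a.val * α))
    (hg : HasD (fun s => (g s).val) (b.val * β))
    (hs : ∀ᶠ s in 𝓝 (0 : ℂ), ∃ d : ℂ, (f s * g s * (f s)⁻¹ * (g s)⁻¹).val = d • 1) :
    pairD a b α β = 0 := by
  classical
  have hr : r ≠ 0 := NeZero.ne r
  have hd : ∀ {x y : SLC r} {d : ℂ}, (x * y * x⁻¹ * y⁻¹).val = d • 1 →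
      d ^ r = 1 ∧ x.val * y.val = d • (y.val * x.val) := by
    intro x y d h
    refine ⟨?_, ?_⟩
    · have := congrArg Matrix.det h
      rw [Matrix.SpecialLinearGroup.det_coe, Matrix.det_smul, Matrix.det_one, mul_one,
        Fintype.card_fin] at this
      exact this.symm
    · have e : x * y = (x * y * x⁻¹ * y⁻¹) * (y * x) := by group
      rw [← Matrix.SpecialLinearGroup.coe_mul, e, Matrix.SpecialLinearGroup.coe_mul, h,
        smul_mul_assoc, Matrix.one_mul, Matrix.SpecialLinearGroup.coe_mul]
  obtain ⟨c, hc⟩ := hs.self_of_nhds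
  rw [hf0, hg0] at hc
  obtain ⟨hcr, he⟩ := hd hc
  obtain ⟨i, j, hij⟩ : ∃ i j, (b.val * a.val) i j ≠ 0 := by
    by_contra hz
    push Not at hz
    have h0 : (b * a).val = 0 := by
      rw [Matrix.SpecialLinearGroup.coe_mul]
      exact Matrix.ext hz
    have := congrArg Matrix.det h0
    have hNE : Nonempty (Fin r) := ⟨0⟩
    rw [Matrix.SpecialLinearGroup.det_coe, Matrix.det_zero] at this
    exact one_ne_zero this
  have hM := hf.mul hg
  have hN := hg.mul hf
  have hij' : (fun s => ((g s).val * (f s).val) i j) 0 ≠ 0 := by simpa [hf0, hg0] using hij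
  have hq : ContinuousAt (fun s => ((f s).val * (g s).val) i j / ((g s).val * (f s).val) i j) 0 :=
    (hM.contM i j).div (hN.contM i j) hij'
  let F : Finset ℂ := ((Polynomial.nthRoots r (1 : ℂ)).toFinset).erase c
  have hq0 : ((f 0).val * (g 0).val) i j / ((g 0).val * (f 0).val) i j = c := by
    rw [hf0, hg0, he, Matrix.smul_apply, smul_eq_mul, mul_div_assoc, div_self hij, mul_one]
  have hne : ∀ᶠ s in 𝓝 (0 : ℂ),
      ((f s).val * (g s).val) i j / ((g s).val * (f s).val) i j ∉ F :=
    hq.preimage_mem_nhds (t := (F : Set ℂ)ᶜ)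
      (F.finite_toSet.isClosed.isOpen_compl.mem_nhds (by simp [F, hq0]))
  have hMN : ∀ᶠ s in 𝓝 (0 : ℂ), (f s).val * (g s).val = c • ((g s).val * (f s).val) := by
    filter_upwards [hs, hne, (hN.contM i j).eventually_ne hij'] with s hds hsF hsN
    obtain ⟨d, hd'⟩ := hds
    obtain ⟨hdr, hde⟩ := hd hd'
    have hdc : d = c := by
      by_contra hne'
      refine hsF ?_
      rw [hde, Matrix.smul_apply, smul_eq_mul, mul_div_assoc, div_self hsN, mul_one]
      simp only [F, Finset.mem_erase, Multiset.mem_toFinset]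
      exact ⟨hne', (Polynomial.mem_nthRoots (Nat.pos_of_ne_zero hr)).2 hdr⟩
    rwa [hdc] at hde
  have heq : a.val * α * b.val + a.val * (b.val * β) =
      c • (b.val * β * a.val + b.val * (a.val * α)) := by
    refine (hM.congr (by rw [hf0, hg0])).unique fun p q => ?_
    have h1 := ((hN.congr (w := b.val * β * a.val + b.val * (a.val * α))
      (by rw [hf0, hg0])) p q).const_mul c
    refine (h1.congr_of_eventuallyEq (hMN.mono fun s hs => ?_)).congr_deriv (by simp)
    simp [hs]
  -- rewrite the derivative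
  have hba : (a * b)⁻¹.val = (b * a)⁻¹.val * ((a * b * a⁻¹ * b⁻¹)⁻¹).val := by
    rw [← Matrix.SpecialLinearGroup.coe_mul, ← _root_.mul_inv_rev]
    exact congrArg (fun z : SLC r => z⁻¹.val) (by group)
  have hci : c • ((a * b * a⁻¹ * b⁻¹)⁻¹).val = 1 := by
    have := val_mul_inv (a * b * a⁻¹ * b⁻¹)
    rwa [hc, smul_mul_assoc, Matrix.one_mul] at this
  have key : ∀ Z, adj (a * b) Z = adj (b * a) Z := fun Z => by
    rw [show a * b = a * b * a⁻¹ * b⁻¹ * (b * a) by group, ← adj_adj, adj_of_scalar hc]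
  have key' : ∀ Z, adj (a * b * a⁻¹) Z = adj b Z := fun Z => by
    rw [show a * b * a⁻¹ = a * b * a⁻¹ * b⁻¹ * b by group, ← adj_adj, adj_of_scalar hc]
  have h2 := congrArg (fun Z => Z * (a * b)⁻¹.val) heq
  have hR : c • (b.val * β * a.val + b.val * (a.val * α)) * (a * b)⁻¹.val =
      (b.val * β * a.val + b.val * (a.val * α)) * (b * a)⁻¹.val := by
    rw [hba, smul_mul_assoc, ← Matrix.mul_assoc, ← mul_smul_comm, hci, Matrix.mul_one]
  beta_reduce at h2
  rw [hR] at h2
  have hL : (a.val * α * b.val + a.val * (b.val * β)) * (a * b)⁻¹.val =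
      adj a α + adj (a * b) β := by
    simp only [adj_apply, add_mul, _root_.mul_inv_rev, Matrix.SpecialLinearGroup.coe_mul,
      Matrix.mul_assoc]
    rw [← Matrix.mul_assoc b.val b⁻¹.val, val_mul_inv, Matrix.one_mul]
  have hR2 : (b.val * β * a.val + b.val * (a.val * α)) * (b * a)⁻¹.val =
      adj b β + adj (b * a) α := by
    simp only [adj_apply, add_mul, _root_.mul_inv_rev, Matrix.SpecialLinearGroup.coe_mul,
      Matrix.mul_assoc]
    rw [← Matrix.mul_assoc a.val a⁻¹.val, val_mul_inv, Matrix.one_mul]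
  rw [hL, hR2] at h2
  rw [pairD, key', key α, h2]
  abel

lemma relD_two (σ : Handles 1 (SLC r)) (τ : Var 1 r → ℂ) :
    relD σ τ = pairD (σ.1 0) (σ.2 0) (tl (matOf τ (0, false))) (tl (matOf τ (0, true))) +
      adj (comm σ 0)
        (pairD (σ.1 1) (σ.2 1) (tl (matOf τ (1, false))) (tl (matOf τ (1, true)))) := by
  simp [relD, prodD]

/-- With two handles, irreducible representations are limits of irreducible ones with non-scalar
commutators. -/
theorem exists_near_nonScalar [NeZero r] (hr : 2 ≤ r) {σ₀ : Handles 1 (SLC r)}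
    (hσ₀ : relator σ₀ = 1) (hF : Full (gens σ₀)) {ε : ℝ} (hε : 0 < ε) :
    ∃ σ : Handles 1 (SLC r), relator σ = 1 ∧ dist (coord σ) (coord σ₀) < ε ∧ Full (gens σ) ∧
      NonScalar σ := by
  classical
  by_contra hcon
  have hall : ∀ σ : Handles 1 (SLC r), relator σ = 1 → dist (coord σ) (coord σ₀) < ε →
      Full (gens σ) → ∃ c : ℂ, (comm σ 0).val = c • 1 := by
    intro σ h1 h2 h3
    by_contra h4
    exact hcon ⟨σ, h1, h2, h3, fun c hc => h4 ⟨c, hc⟩⟩
  obtain ⟨lam, hlam⟩ := hall σ₀ hσ₀ (by simpa using hε) hF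
  have hc1 : comm σ₀ 1 = (comm σ₀ 0)⁻¹ := by
    rw [relator_comm, List.ofFn_succ, List.prod_cons, List.ofFn_succ, List.prod_cons,
      List.ofFn_zero, List.prod_nil, mul_one, mul_eq_one_iff_inv_eq] at hσ₀
    exact hσ₀.symm
  have hlam0 : lam ≠ 0 := fun h => by
    have := congrArg Matrix.det hlam
    have hNE : Nonempty (Fin r) := ⟨0⟩
    rw [Matrix.SpecialLinearGroup.det_coe, h, zero_smul, Matrix.det_zero] at this
    exact one_ne_zero this
  have hlam1 : (comm σ₀ 1).val = lam⁻¹ • 1 := by
    have h := val_mul_inv (comm σ₀ 0)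
    rw [← hc1, hlam, smul_mul_assoc, Matrix.one_mul] at h
    rw [← h, inv_smul_smul₀ hlam0]
  -- variations of the two commutators are independent
  have key : ∀ α β γ δ : Mat r, α.trace = 0 → β.trace = 0 → γ.trace = 0 → δ.trace = 0 →
      pairD (σ₀.1 0) (σ₀.2 0) α β + pairD (σ₀.1 1) (σ₀.2 1) γ δ = 0 →
      pairD (σ₀.1 0) (σ₀.2 0) α β = 0 := by
    intro α β γ δ hα hβ hγ' hδ h
    let τ : Var 1 r → ℂ := fun p =>
      (if p.1.1 = 0 then (if p.1.2 then β else α) else (if p.1.2 then δ else γ)) p.2.1 p.2.2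
    have e : ∀ v : Fin 2 × Bool, matOf τ v =
        if v.1 = 0 then (if v.2 then β else α) else (if v.2 then δ else γ) := fun v => rfl
    have hτ : relD σ₀ τ = 0 := by
      rw [relD_two, adj_of_scalar hlam]
      simpa [e, tl_of_trace, hα, hβ, hγ', hδ] using h
    obtain ⟨cv, hcv0, hcv, hcvd⟩ := exists_curve hσ₀ hF.triv hτ
    have hc : ∀ v, ContM (fun s => gens (cv s) v) 0 := fun v => (hcvd v).contM
    have hcoord : ContinuousAt (fun s => coord (cv s)) 0 := continuousAt_pi.2 fun v => by
      have := hc v.1 v.2.1 v.2.2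
      simpa only [← matOf_eq_gens, matOf, Matrix.of_apply] using this
    have hd : ∀ᶠ s in 𝓝 (0 : ℂ), dist (coord (cv s)) (coord σ₀) < ε :=
      (hcoord.dist continuousAt_const).eventually_lt_const (by simpa [hcv0] using hε)
    have h1 := hcvd (0, false)
    have h2 := hcvd (0, true)
    simp [gens, e, tl_of_trace, hα, hβ] at h1 h2
    refine pairD_eq_zero_of_curve (f := fun s => (cv s).1 0) (g := fun s => (cv s).2 0)
      (by simp [hcv0]) (by simp [hcv0]) h1 h2 ?_
    filter_upwards [hcv, hd, full_open hc (by rw [hcv0]; exact hF)] with s x y z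
    exact hall _ x y z
  -- common differences vanish
  have hcommon : ∀ (i j : Bool) (X X' : Mat r),
      X - adj (gensU σ₀ (0, i)) X = X' - adj (gensU σ₀ (1, j)) X' →
      X - adj (gensU σ₀ (0, i)) X = 0 := by
    intro i j X X' h
    have h0 : ∃ α β : Mat r, α.trace = 0 ∧ β.trace = 0 ∧
        pairD (σ₀.1 0) (σ₀.2 0) α β = X - adj (gensU σ₀ (0, i)) X := by
      cases i
      · simpa [gensU] using (exists_pairD_eq hlam X).1
      · simpa [gensU] using (exists_pairD_eq hlam X).2
    have h1 : ∃ α β : Mat r, α.trace = 0 ∧ β.trace = 0 ∧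
        pairD (σ₀.1 1) (σ₀.2 1) α β = -X' - adj (gensU σ₀ (1, j)) (-X') := by
      cases j
      · simpa [gensU] using (exists_pairD_eq hlam1 (-X')).1
      · simpa [gensU] using (exists_pairD_eq hlam1 (-X')).2
    obtain ⟨α, β, hα, hβ, he⟩ := h0
    obtain ⟨γ, δ, hγ', hδ, he'⟩ := h1
    rw [← he]
    refine key α β γ δ hα hβ hγ' hδ ?_
    rw [he, he', h, map_neg]
    abel
  -- generators of different handles commute
  have hcross : ∀ i j, Commute (gensU σ₀ (0, i)).val (gensU σ₀ (1, j)).val := by
    intro i j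
    set g := gensU σ₀ (0, i) with hg
    set h := gensU σ₀ (1, j) with hh
    have e1 : h.val * g.val - adj g (h.val * g.val) = h.val * g.val - g.val * h.val := by
      rw [adj_apply, ← Matrix.mul_assoc g.val, Matrix.mul_assoc (g.val * h.val), val_mul_inv,
        Matrix.mul_one]
    have e2 : -(g.val * h.val) - adj h (-(g.val * h.val)) =
        h.val * g.val - g.val * h.val := by
      rw [map_neg, adj_apply, ← Matrix.mul_assoc h.val, Matrix.mul_assoc (h.val * g.val),
        val_mul_inv, Matrix.mul_one]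
      abel
    have := hcommon i j (h.val * g.val) (-(g.val * h.val)) (e1.trans e2.symm)
    rw [e1, sub_eq_zero] at this
    exact this.symm
  set a := σ₀.1 0 with ha
  set b := σ₀.2 0 with hb
  set x := σ₀.1 1 with hx
  set y := σ₀.2 1 with hy
  have hab : a.val * b.val = lam • (b.val * a.val) := by
    have e : a * b = comm σ₀ 0 * (b * a) := by simp [comm, ha, hb, mul_assoc]
    rw [← Matrix.SpecialLinearGroup.coe_mul, e, Matrix.SpecialLinearGroup.coe_mul, hlam,
      smul_mul_assoc, Matrix.one_mul, Matrix.SpecialLinearGroup.coe_mul]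
  have hxy : x.val * y.val = lam⁻¹ • (y.val * x.val) := by
    have e : x * y = comm σ₀ 1 * (y * x) := by simp [comm, hx, hy, mul_assoc]
    rw [← Matrix.SpecialLinearGroup.coe_mul, e, Matrix.SpecialLinearGroup.coe_mul, hlam1,
      smul_mul_assoc, Matrix.one_mul, Matrix.SpecialLinearGroup.coe_mul]
  have hlam_one : lam = 1 := by
    by_contra hne
    have hne' : (1 - lam⁻¹ : ℂ) ≠ 0 := sub_ne_zero.2 fun h => hne (inv_eq_one.1 h.symm)
    have hay : Commute a.val y.val := by simpa [gensU] using hcross false true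
    have hbx : Commute b.val x.val := by simpa [gensU] using hcross true false
    have e1 : b.val * y.val - adj a (b.val * y.val) = (1 - lam) • (b.val * y.val) := by
      rw [adj_apply, ← Matrix.mul_assoc, hab, smul_mul_assoc, Matrix.mul_assoc b.val a.val,
        hay.eq, smul_mul_assoc, Matrix.mul_assoc, Matrix.mul_assoc, val_mul_inv, Matrix.mul_one,
        sub_smul, one_smul]
    have e2 : b.val * y.val - adj x (b.val * y.val) = (1 - lam⁻¹) • (b.val * y.val) := by
      rw [adj_apply, ← Matrix.mul_assoc, ← hbx.eq, Matrix.mul_assoc b.val x.val, hxy,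
        mul_smul_comm, smul_mul_assoc, Matrix.mul_assoc, Matrix.mul_assoc, val_mul_inv,
        Matrix.mul_one, sub_smul, one_smul]
    have h := hcommon false false (b.val * y.val) (((1 - lam) / (1 - lam⁻¹)) • (b.val * y.val))
      (by
        simp only [gensU, Bool.false_eq_true, if_false, map_smul, ← smul_sub, ← ha, ← hx, e1, e2,
          smul_smul, div_mul_cancel₀ _ hne'])
    simp only [gensU, Bool.false_eq_true, if_false, ← ha, e1, smul_eq_zero] at h
    rcases h with h | h
    · exact hne (sub_eq_zero.1 h).symm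
    · have h' : (b * y).val = 0 := by rw [Matrix.SpecialLinearGroup.coe_mul]; exact h
      have := congrArg Matrix.det h'
      have hNE : Nonempty (Fin r) := ⟨0⟩
      rw [Matrix.SpecialLinearGroup.det_coe, Matrix.det_zero] at this
      exact one_ne_zero this
  -- all generators commute
  have hall' : ∀ v w, Commute (gens σ₀ v) (gens σ₀ w) := by
    rintro ⟨i, p⟩ ⟨j, q⟩
    rw [← gensU_val, ← gensU_val]
    have hpair : ∀ k : Fin 2, Commute (σ₀.1 k).val (σ₀.2 k).val := by
      intro k
      fin_cases k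
      · simpa [Commute, SemiconjBy, hlam_one, ← ha, ← hb] using (show a.val * b.val = _ from hab)
      · simpa [Commute, SemiconjBy, hlam_one, ← hx, ← hy] using (show x.val * y.val = _ from hxy)
    fin_cases i <;> fin_cases j
    · cases p <;> cases q <;>
        first
          | exact Commute.refl _
          | simpa [gensU] using hpair 0
          | simpa [gensU] using (hpair 0).symm
    · exact hcross p q
    · exact (hcross q p).symm
    · cases p <;> cases q <;>
        first
          | exact Commute.refl _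
          | simpa [gensU] using hpair 1
          | simpa [gensU] using (hpair 1).symm
  have hsc : ∀ v, ∃ c : ℂ, gens σ₀ v = c • 1 := fun v => hF.triv _ fun w => hall' w v
  obtain ⟨c, hcE⟩ := hF.triv (Matrix.single (⟨0, by omega⟩ : Fin r) (⟨1, by omega⟩ : Fin r) (1 : ℂ))
    fun v => by
      obtain ⟨d, hd⟩ := hsc v
      rw [hd]
      exact (Commute.one_left _).smul_left d
  have := congrFun (congrFun hcE ⟨0, by omega⟩) ⟨1, by omega⟩
  simp [Matrix.single, Fin.ext_iff] at this

end Vale.Agent.P002
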