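import Vale.Agent.P002.Lift

/-!
Analytic continuation over the rational parametrisation of representations in general position.
-/

namespace Vale.Agent.P002

open Matrix Filter Topology
open scoped ContDiff commutatorElement

variable {r n : ℕ}

/-- Product of the commutators of the last handles. -/
def tailW (ρ : Handles n (SLC r)) : SLC r := (tailComm ρ).prod

/-- Replace the first handle. -/
def setH (σ : Handles n (SLC r)) (a b : SLC r) : Handles n (SLC r) :=
  (Function.update σ.1 0 a, Function.update σ.2 0 b)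

/-- Coordinates with first handle given by arbitrary matrices. -/
def gCoord (a b : Mat r) (σ : Handles n (SLC r)) : Var n r → ℂ :=
  fun v => if v.1.1 = 0 then (if v.1.2 then b else a) v.2.1 v.2.2 else coord σ v

lemma gCoord_eq (a b : SLC r) (σ : Handles n (SLC r)) :
    gCoord a.val b.val σ = coord (setH σ a b) := by
  funext ⟨⟨i, c⟩, p, q⟩
  by_cases hi : i = 0
  · subst hi; cases c <;> simp [gCoord, coord, setH]
  · cases c <;> simp [gCoord, coord, setH, hi]

lemma relator_setH (σ : Handles n (SLC r)) (a b : SLC r) :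
    relator (setH σ a b) = ⁅a, b⁆ * tailW σ := by
  simp [relator, tailW, tailComm, setH]

lemma setH_eq {σ ρ : Handles n (SLC r)} (h : ∀ i : Fin n, σ.1 i.succ = ρ.1 i.succ ∧ σ.2 i.succ = ρ.2 i.succ) :
    setH σ (ρ.1 0) (ρ.2 0) = ρ ∧ tailW σ = tailW ρ := by
  refine ⟨Prod.ext (funext fun i => ?_) (funext fun i => ?_), ?_⟩
  · induction i using Fin.cases with
    | zero => simp [setH]
    | succ i => simp [setH, h i]
  · induction i using Fin.cases with
    | zero => simp [setH]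
    | succ i => simp [setH, h i]
  · simp [tailW, tailComm, h]

lemma coe_inv_SL (A : SLC r) : A⁻¹.val = (A.val)⁻¹ :=
  (Matrix.inv_eq_left_inv (val_inv_mul A)).symm

lemma endpoint {ρ : Handles n (SLC r)} (hρ : relator ρ = 1) (hr : 0 < r)
    (hg : GoodPair (ρ.1 0) (ρ.2 0)) : ∃ (h : Mat r) (u : Fin r → ℂ), h.det ≠ 0 ∧
      (eqMat h (tailW ρ).val).det ≠ 0 ∧
      h * comp' (solP h (tailW ρ).val) * h⁻¹ = (ρ.1 0)⁻¹.val ∧
      handB h (tailW ρ).val u = (ρ.2 0).val := by
  obtain ⟨h, p, hh, hp, hM, -⟩ := hg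
  set a := ρ.1 0
  set b := ρ.2 0
  have hW : tailW ρ = (a * b * a⁻¹ * b⁻¹)⁻¹ := eq_inv_of_mul_eq_one_right hρ
  rw [← hW] at hM
  set W := tailW ρ with hWdef
  have hu : IsUnit h.det := isUnit_iff_ne_zero.2 hh
  have hx : h * comp' p * h⁻¹ = a⁻¹.val := by
    rw [← hp, Matrix.mul_assoc, Matrix.mul_nonsing_inv _ hu, Matrix.mul_one]
  have hxW : a⁻¹ * W⁻¹ = b * a⁻¹ * b⁻¹ := by rw [hW, inv_inv]; group
  have hsol : p = solP h W.val := by
    refine solP_unique hM ((eqs_eq_zero_iff hh W.2 p).2 ⟨by rw [hx]; exact (a⁻¹).2, ?_⟩)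
    rw [hx, ← coe_inv_SL, ← Matrix.SpecialLinearGroup.coe_mul, hxW]
    simp only [Matrix.SpecialLinearGroup.coe_mul]
    rw [Matrix.mul_assoc, Matrix.charpoly_mul_comm, Matrix.mul_assoc, val_inv_mul,
      Matrix.mul_one]
  rw [hsol] at hx
  refine ⟨h, (b.val * h) *ᵥ Pi.single ⟨0, hr⟩ 1, hh, hM, hx, handB_eq hh hr ?_⟩
  rw [hx, ← coe_inv_SL, ← Matrix.SpecialLinearGroup.coe_mul, ← Matrix.SpecialLinearGroup.coe_mul,
    ← Matrix.SpecialLinearGroup.coe_mul, hxW]
  congr 1
  simp only [mul_assoc, inv_mul_cancel, mul_one]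
  rfl

/-- Scaled companion matrix. -/
def compD (d : ℂ) (q : Fin r → ℂ) : Mat r :=
  Matrix.of fun i j => if (j : ℕ) + 1 < r then (if (i : ℕ) = j + 1 then d else 0) else -q i

lemma smul_comp'_solP (h W : Mat r) (hd : (eqMat h W).det ≠ 0) :
    (eqMat h W).det • comp' (solP h W) =
      compD (eqMat h W).det ((eqMat h W).adjugate *ᵥ eqs h W 0) := by
  ext i j
  simp only [Matrix.smul_apply, smul_eq_mul, comp', compD, Matrix.of_apply, solP, Pi.neg_apply,
    Pi.smul_apply]
  split_ifs <;> simp [hd, mul_inv_cancel_left₀]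

lemma kry_smul (c : ℂ) (y : Mat r) (u : Fin r → ℂ) :
    kry (c • y) u = kry y u * Matrix.diagonal fun j : Fin r => c ^ (j : ℕ) := by
  ext i j
  simp [kry, Matrix.mul_diagonal, smul_pow, Matrix.smul_mulVec, mul_comm]

lemma smooth_compD {X : Type*} [NormedAddCommGroup X] [NormedSpace ℂ X] {d : X → ℂ}
    {q : X → Fin r → ℂ} (hd : ContDiff ℂ ω d) (hq : ∀ i, ContDiff ℂ ω fun x => q x i) :
    Smooth fun x => compD (d x) (q x) := fun i j => by
  simp only [compD, Matrix.of_apply]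
  split_ifs
  exacts [hd, contDiff_const, (hq i).neg]

/-- Analytic continuation: the product over the scalar twists of the target vanishes. -/
lemma prod_twists_vanish [NeZero r] (hr : 2 ≤ r) {ρ₁ ρ₂ : Handles n (SLC r)}
    (h1 : relator ρ₁ = 1) (hg1 : GoodPair (ρ₁.1 0) (ρ₁.2 0))
    (hnb : ∀ᶠ g in 𝓝 (coord ρ₁), ∀ ρ : Handles n (SLC r), relator ρ = 1 → coord ρ = g → ρ ∈ Zd n r)
    (h2 : relator ρ₂ = 1) (hg2 : GoodPair (ρ₂.1 0) (ρ₂.2 0)) {ζ : ℂ} (hζ : IsPrimitiveRoot ζ r)
    (P : MvPolynomial (Var n r) ℂ) (hP : ∀ y ∈ intPts n r, MvPolynomial.eval y P = 0) :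
    ∃ i < r, MvPolynomial.eval (gCoord (ρ₂.1 0).val (ζ ^ i • (ρ₂.2 0).val) ρ₂) P = 0 := by
  have hr0 : 0 < r := by omega
  obtain ⟨H₁, u₁, hH1, hM1, hx1, hB1⟩ := endpoint h1 hr0 hg1
  obtain ⟨H₂, u₂, hH2, hM2, hx2, hB2⟩ := endpoint h2 hr0 hg2
  choose fA hfA hfA0 hfA1 using fun i => exists_path hr (ρ₁.1 i) (ρ₂.1 i)
  choose fB hfB hfB0 hfB1 using fun i => exists_path hr (ρ₁.2 i) (ρ₂.2 i)
  let σ : ℂ → Handles n (SLC r) := fun s => (fun i => fA i s, fun i => fB i s)
  have hσ : SmoothH σ := fun i => ⟨hfA i, hfB i⟩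
  have hσ0 : σ 0 = ρ₁ := Prod.ext (funext hfA0) (funext hfB0)
  have hσ1 : σ 1 = ρ₂ := Prod.ext (funext hfA1) (funext hfB1)
  let W : ℂ → SLC r := fun s => tailW (σ s)
  have hW : Smooth fun s => (W s).val := smooth_stable.list_prod
    (fun i s => ⁅(σ s).1 i.succ, (σ s).2 i.succ⁆) fun i =>
      (((hfA _).mul (hfB _)).mul (hfA _).adjugate).mul (hfB _).adjugate
  let H : ℂ → Mat r := fun s => (1 - s) • H₁ + s • H₂
  let u : ℂ → Fin r → ℂ := fun s => (1 - s) • u₁ + s • u₂
  have hH : Smooth H := fun i j => by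
    simp only [H, Matrix.add_apply, Matrix.smul_apply, smul_eq_mul]
    fun_prop
  have hu : ∀ i, ContDiff ℂ ω fun s => u s i := fun i => by
    simp only [u, Pi.add_apply, Pi.smul_apply, smul_eq_mul]
    fun_prop
  let M : ℂ → Mat r := fun s => eqMat (H s) (W s).val
  have hM : Smooth M := smooth_eqMat hH hW
  let d : ℂ → ℂ := fun s => (M s).det
  let num : ℂ → Fin r → ℂ := fun s => (M s).adjugate *ᵥ eqs (H s) (W s).val 0
  have hnum : ∀ i, ContDiff ℂ ω fun s => num s i := fun i => by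
    simp only [num, Matrix.mulVec, dotProduct]
    exact ContDiff.sum fun l _ => (hM.adjugate i l).mul (contDiff_eqMat hH hW 0 l)
  let X : ℂ → Mat r := fun s => H s * compD (d s) (num s) * (H s).adjugate
  have hX : Smooth X := (hH.mul (smooth_compD hM.det hnum)).mul hH.adjugate
  let f : ℂ → ℂ := fun s => (H s).det * d s * (kry (X s * (W s).val.adjugate) (u s)).det
  have hf : Differentiable ℂ f :=
    ((hH.det.mul hM.det).mul (smooth_kry (hX.mul hW.adjugate) hu).det).differentiable (by simp)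
  let x : ℂ → Mat r := fun s => H s * comp' (solP (H s) (W s).val) * (H s)⁻¹
  let B : ℂ → Mat r := fun s => handB (H s) (W s).val (u s)
  have hXx : ∀ s, (H s).det ≠ 0 → d s ≠ 0 → X s = ((H s).det * d s) • x s := fun s a b => by
    simp only [X, x, d, num, M]
    rw [← smul_comp'_solP _ _ b, Matrix.inv_def, Ring.inverse_eq_inv']
    simp only [mul_smul_comm, smul_mul_assoc, smul_smul]
    congr 1
    field_simp
  have hWadj : ∀ s, (W s).val.adjugate = ((W s).val)⁻¹ := fun s => coe_inv_SL (W s)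
  have hkey : ∀ s, f s ≠ 0 → (H s).det ≠ 0 ∧ d s ≠ 0 ∧ (B s).det ≠ 0 := by
    intro s hs
    obtain ⟨⟨a, b⟩, c⟩ : ((H s).det ≠ 0 ∧ d s ≠ 0) ∧ _ := by
      simpa only [f, ne_eq, mul_eq_zero, not_or] using hs
    refine ⟨a, b, ?_⟩
    rw [hXx s a b, smul_mul_assoc, kry_smul, Matrix.det_mul] at c
    simp only [B, handB]
    rw [Matrix.det_mul, Matrix.det_nonsing_inv, Ring.inverse_eq_inv', ← hWadj]
    exact mul_ne_zero (fun e => c (by rw [e, zero_mul])) (inv_ne_zero a)
  have hend : ∀ (s : ℂ) (ρ : Handles n (SLC r)) (H' : Mat r) (u' : Fin r → ℂ), σ s = ρ →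
      H s = H' → u s = u' → H'.det ≠ 0 → (eqMat H' (tailW ρ).val).det ≠ 0 →
      H' * comp' (solP H' (tailW ρ).val) * H'⁻¹ = (ρ.1 0)⁻¹.val →
      handB H' (tailW ρ).val u' = (ρ.2 0).val →
      f s ≠ 0 ∧ (x s).adjugate = (ρ.1 0).val ∧ B s = (ρ.2 0).val := by
    rintro s ρ H' u' rfl rfl rfl a b hx hB
    refine ⟨?_, ?_, hB⟩
    · have hc : (kry (x s * ((W s).val)⁻¹) (u s)).det ≠ 0 := fun e => by
        have := congrArg Matrix.det hB
        rw [handB, Matrix.det_mul, e, zero_mul, ((σ s).2 0).2] at this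
        exact zero_ne_one this
      simp only [f]
      rw [hXx s a b, smul_mul_assoc, kry_smul, Matrix.det_mul, Matrix.det_diagonal, hWadj]
      exact mul_ne_zero (mul_ne_zero a b) (mul_ne_zero hc
        (Finset.prod_ne_zero_iff.2 fun j _ => pow_ne_zero _ (mul_ne_zero a b)))
    · simp only [x, W]
      rw [hx, ← Matrix.SpecialLinearGroup.coe_inv, inv_inv]
  obtain ⟨hf0, hx0, hB0⟩ := hend 0 ρ₁ H₁ u₁ hσ0 (by simp [H]) (by simp [u]) hH1 hM1 hx1 hB1
  obtain ⟨hf1, hxt, hBt⟩ := hend 1 ρ₂ H₂ u₂ hσ1 (by simp [H]) (by simp [u]) hH2 hM2 hx2 hB2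
  -- the domain
  set D := {s | f s ≠ 0} with hD
  have hDo : IsOpen D := isOpen_ne.preimage hf.continuous
  have hDc : IsPreconnected D := by
    have hz : f ⁻¹' {0}ᶜ ∈ Filter.codiscrete ℂ :=
      (hf.differentiableOn.analyticOnNhd isOpen_univ).preimage_zero_mem_codiscrete hf0
    rw [mem_codiscrete'] at hz
    have hcount : (f ⁻¹' {0}ᶜ)ᶜ.Countable := by
      exact (HereditarilyLindelofSpace.isLindelof _).countable_of_isDiscrete hz.2
    have := hcount.isConnected_compl_of_one_lt_rank (E := ℂ) (by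
      rw [Complex.rank_real_complex]; exact Cardinal.one_lt_two)
    rw [compl_compl] at this
    exact this.isPreconnected
  -- analyticity
  have hanX : ∀ {g : ℂ → ℂ}, ContDiff ℂ ω g → ∀ s, AnalyticAt ℂ g s := fun hg s =>
    hg.contDiffAt.analyticAt
  have hxan : ∀ s ∈ D, ∀ i j, AnalyticAt ℂ (fun t => x t i j) s := by
    intro s hs i j
    obtain ⟨a, b, -⟩ := hkey s hs
    refine AnalyticAt.congr (f := fun t => ((H t).det * d t)⁻¹ * X t i j) ?_ ?_
    · exact ((hanX (hH.det.mul hM.det) s).inv (mul_ne_zero a b)).mul (hanX (hX i j) s)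
    · filter_upwards [hDo.mem_nhds hs] with t ht
      obtain ⟨a', b', -⟩ := hkey t ht
      rw [hXx t a' b', Matrix.smul_apply, smul_eq_mul, inv_mul_cancel_left₀ (mul_ne_zero a' b')]
  have hanmul : ∀ {F G : ℂ → Mat r} {s : ℂ}, (∀ i j, AnalyticAt ℂ (fun t => F t i j) s) →
      (∀ i j, AnalyticAt ℂ (fun t => G t i j) s) →
      ∀ i j, AnalyticAt ℂ (fun t => (F t * G t) i j) s := fun hF hG i j => by
    simp only [Matrix.mul_apply]
    exact Finset.univ.analyticAt_fun_sum fun l _ => (hF i l).mul (hG l j)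
  have handet : ∀ {F : ℂ → Mat r} {s : ℂ}, (∀ i j, AnalyticAt ℂ (fun t => F t i j) s) →
      AnalyticAt ℂ (fun t => (F t).det) s := fun hF => by
    simp only [Matrix.det_apply']
    exact Finset.univ.analyticAt_fun_sum fun q _ =>
      analyticAt_const.mul (Finset.univ.analyticAt_fun_prod fun l _ => hF _ _)
  have hadj : ∀ s ∈ D, ∀ i j, AnalyticAt ℂ (fun t => (x t).adjugate i j) s := fun s hs i j => by
    simp only [Matrix.adjugate_apply]
    refine handet fun a b => ?_
    simp only [Matrix.updateRow_apply]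
    split_ifs
    · exact analyticAt_const
    · exact hxan s hs a b
  have hBan : ∀ s ∈ D, ∀ i j, AnalyticAt ℂ (fun t => B t i j) s := by
    intro s hs
    have hy : ∀ i j, AnalyticAt ℂ (fun t => (x t * ((W t).val)⁻¹) i j) s :=
      hanmul (hxan s hs) fun i j => by
        simp only [← hWadj]
        exact hanX (hW.adjugate i j) s
    have hp : ∀ (k : ℕ) i j, AnalyticAt ℂ (fun t => ((x t * ((W t).val)⁻¹) ^ k) i j) s := by
      intro k
      induction k with
      | zero => exact fun i j => by simpa using analyticAt_const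
      | succ k ih => simp only [pow_succ]; exact hanmul ih hy
    refine hanmul (fun i j => ?_) fun i j => ?_
    · simp only [kry, Matrix.of_apply, Matrix.mulVec, dotProduct]
      exact Finset.univ.analyticAt_fun_sum fun l _ => (hp _ i l).mul (hanX (hu l) s)
    · simp only [Matrix.inv_def, Ring.inverse_eq_inv', Matrix.smul_apply, smul_eq_mul]
      exact ((hanX hH.det s).inv (hkey s hs).1).mul (hanX (hH.adjugate i j) s)
  let β : ℂ → ℂ := fun s => (B s).det⁻¹
  have hβ : ∀ s ∈ D, AnalyticAt ℂ β s := fun s hs => (handet (hBan s hs)).inv (hkey s hs).2.2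
  let G : ℂ → ℂ → Var n r → ℂ := fun s z => gCoord (x s).adjugate (z • B s) (σ s)
  have hG : ∀ s ∈ D, ∀ z : ℂ → ℂ, AnalyticAt ℂ z s →
      ∀ v, AnalyticAt ℂ (fun t => G t (z t) v) s := by
    rintro s hs z hz ⟨⟨i, c⟩, p, q⟩
    simp only [G, gCoord]
    split_ifs
    · exact hz.mul (hBan s hs p q)
    · exact hadj s hs p q
    · exact hanX (contDiff_pi.1 hσ.coord _) s
  have hev : ∀ {F : ℂ → Var n r → ℂ} {s : ℂ}, (∀ v, AnalyticAt ℂ (fun t => F t v) s) →
      AnalyticAt ℂ (fun t => MvPolynomial.eval (F t) P) s := fun hF => by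
    simp only [MvPolynomial.eval_eq]
    exact Finset.analyticAt_fun_sum _ fun m _ => analyticAt_const.mul
      (Finset.analyticAt_fun_prod _ fun l _ => (hF l).pow _)
  let R : ℂ → ℂ := fun s => ((Polynomial.nthRoots r (β s)).map
    fun z => MvPolynomial.eval (G s z) P).prod
  have hbranch : ∀ s ∈ D, ∀ z₀ : ℂ, z₀ ^ r = β s → ∃ z : ℂ → ℂ, AnalyticAt ℂ z s ∧ z s = z₀ ∧
      ∀ᶠ t in 𝓝 s, z t ^ r = β t := by
    intro s hs z₀ hz₀
    have hb0 : β s ≠ 0 := inv_ne_zero (hkey s hs).2.2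
    refine ⟨fun t => z₀ * Complex.exp (Complex.log (β t / β s) / r), ?_, by simp [hb0], ?_⟩
    · refine analyticAt_const.mul (AnalyticAt.cexp ?_)
      exact ((((hβ s hs).div_const (c := β s))).clog (by simp [hb0])).div_const
    · filter_upwards [(hβ s hs).continuousAt.eventually_ne hb0] with t ht
      rw [mul_pow, hz₀, ← Complex.exp_nat_mul, mul_div_cancel₀ _ (Nat.cast_ne_zero.2 hr0.ne'),
        Complex.exp_log (div_ne_zero ht hb0), mul_div_cancel₀ _ hb0]
  have hRan : AnalyticOnNhd ℂ R D := by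
    intro s hs
    obtain ⟨z₀, hz₀⟩ := IsAlgClosed.exists_pow_nat_eq (β s) hr0
    obtain ⟨z, hz, -, hzr⟩ := hbranch s hs z₀ hz₀
    refine AnalyticAt.congr
      (f := fun t => ∏ i ∈ Finset.range r, MvPolynomial.eval (G t (ζ ^ i * z t)) P) ?_ ?_
    · exact Finset.analyticAt_fun_prod _ fun i _ =>
        hev (hG s hs _ (analyticAt_const.mul hz))
    · filter_upwards [hzr] with t ht
      simp only [R, hζ.nthRoots_eq ht, Multiset.map_map]
      rfl
  have hR0 : R =ᶠ[𝓝 0] 0 := by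
    obtain ⟨z, hz, hz0, hzr⟩ := hbranch 0 hf0 1 (by simp [β, hB0])
    have hc : ContinuousAt (fun t => G t (z t)) 0 :=
      continuousAt_pi.2 fun v => (hG 0 hf0 z hz v).continuousAt
    have hG0 : G 0 (z 0) = coord ρ₁ := by
      simp only [G, hz0, hx0, hB0, one_smul, gCoord_eq]
      rw [(setH_eq (ρ := ρ₁) (σ := σ 0) fun i => by simp [hσ0]).1]
    have hev' : ∀ᶠ t in 𝓝 0, ∀ ρ : Handles n (SLC r), relator ρ = 1 → coord ρ = G t (z t) →
        ρ ∈ Zd n r := (hc.tendsto.eventually (by rw [hG0]; exact hnb))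
    filter_upwards [hev', hzr, hDo.mem_nhds hf0] with t ht htz htD
    obtain ⟨a, -, hBd⟩ := hkey t htD
    obtain ⟨hdet, hint⟩ := handle_spec (h := H t) (W := (W t).val) a (W t).2 (hkey t htD).2.1 (u t)
    let xs : SLC r := ⟨x t, hdet⟩
    let bs : SLC r := ⟨z t • B t, by
      rw [Matrix.det_smul, Fintype.card_fin, htz]
      exact inv_mul_cancel₀ hBd⟩
    have hrel : relator (setH (σ t) xs⁻¹ bs) = 1 := by
      have e : bs * xs = xs * (W t)⁻¹ * bs := by
        refine Subtype.ext ?_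
        simp only [Matrix.SpecialLinearGroup.coe_mul, coe_inv_SL]
        show z t • B t * x t = x t * ((W t).val)⁻¹ * (z t • B t)
        rw [smul_mul_assoc, mul_smul_comm, hint]
      rw [relator_setH, commutatorElement_def, inv_inv,
        show xs⁻¹ * bs * xs * bs⁻¹ = xs⁻¹ * (bs * xs) * bs⁻¹ by group, e]
      show _ * W t = 1
      group
    have hcoord : coord (setH (σ t) xs⁻¹ bs) = G t (z t) := by
      rw [← gCoord_eq, coe_inv_SL]
      simp only [G]
      rw [show (xs.val)⁻¹ = (x t).adjugate from coe_inv_SL xs ▸ rfl]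
    have hPz : MvPolynomial.eval (G t (z t)) P = 0 :=
      hcoord ▸ (ht _ hrel hcoord).2 P hP
    exact Multiset.prod_eq_zero (Multiset.mem_map.2 ⟨z t, (Polynomial.mem_nthRoots hr0).2 htz, hPz⟩)
  have hR1 := hRan.eqOn_zero_of_preconnected_of_eventuallyEq_zero hDc hf0 hR0 hf1
  simp only [R, β, hBt, Matrix.SpecialLinearGroup.det_coe, inv_one, Pi.zero_apply,
    hζ.nthRoots_eq (α := (1 : ℂ)) (one_pow r), Multiset.map_map, Multiset.prod_eq_zero_iff,
    Multiset.mem_map, Multiset.mem_range, Function.comp_apply, mul_one] at hR1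
  obtain ⟨i, hi, hzero⟩ := hR1
  refine ⟨i, hi, ?_⟩
  simpa [G, hxt, hBt, hσ1] using hzero

/-- A diagonalisable traceless exponential. -/
lemma expM_conj_diag (U : (Mat r)ˣ) (τ : Fin r → ℂ) (h : ∑ j, τ j = 0) :
    (expM (U.val * Matrix.diagonal τ * U⁻¹.val)).val =
      U.val * Matrix.diagonal (fun j => Complex.exp (τ j)) * U⁻¹.val := by
  have htr : (U.val * Matrix.diagonal τ * U⁻¹.val).trace = 0 := by
    rw [Matrix.trace_mul_comm, ← Matrix.mul_assoc, Units.inv_mul, Matrix.one_mul,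
      Matrix.trace_diagonal, h]
  show NormedSpace.exp (tl _) = _
  rw [tl_of_trace htr, Matrix.exp_units_conj, Matrix.exp_diagonal]
  congr 3
  funext j
  simp [Complex.exp_eq_exp_ℂ]

/-- Representations in general position lie in the closure. -/
theorem mem_of_goodPair [NeZero r] (hr : 2 ≤ r) {ρ₁ ρ₂ : Handles n (SLC r)}
    (h1 : relator ρ₁ = 1) (hg1 : GoodPair (ρ₁.1 0) (ρ₁.2 0))
    (hnb : ∀ᶠ g in 𝓝 (coord ρ₁), ∀ ρ : Handles n (SLC r), relator ρ = 1 → coord ρ = g → ρ ∈ Zd n r)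
    (h2 : relator ρ₂ = 1) (hg2 : GoodPair (ρ₂.1 0) (ρ₂.2 0)) : ρ₂ ∈ Zd n r := by
  refine ⟨h2, fun P hP => ?_⟩
  have hr' : (r : ℂ) ≠ 0 := Nat.cast_ne_zero.2 (by omega)
  obtain ⟨U, lam, hind, ha⟩ : GoodW (ρ₂.1 0).val := by
    obtain ⟨_, _, -, -, -, h⟩ := hg2
    exact h
  set c := 2 * (Real.pi : ℂ) * Complex.I with hc
  let τ : Fin r → ℂ := fun j => c / r - if j = 0 then c else 0
  have hτ : ∑ j, τ j = 0 := by
    simp only [τ, Finset.sum_sub_distrib, Finset.sum_const, Finset.card_univ, Fintype.card_fin,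
      nsmul_eq_mul, Finset.sum_ite_eq', Finset.mem_univ, if_true]
    field_simp
    ring
  have hζ := Complex.isPrimitiveRoot_exp r (by omega)
  rw [← hc] at hζ
  set ζ := Complex.exp (c / r)
  let z : ℂ → SLC r := fun t => expM (U.val * Matrix.diagonal (fun j => t * τ j) * U⁻¹.val)
  have hz : ∀ t, (z t).val = U.val * Matrix.diagonal (fun j => Complex.exp (t * τ j)) * U⁻¹.val :=
    fun t => expM_conj_diag U _ (by rw [← Finset.mul_sum, hτ, mul_zero])
  have hadd : ∀ s t, z (s + t) = z s * z t := fun s t => Subtype.ext (by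
    rw [Matrix.SpecialLinearGroup.coe_mul, hz, hz, hz, Matrix.mul_assoc, Matrix.mul_assoc,
      Matrix.mul_assoc, Matrix.mul_assoc, ← Matrix.mul_assoc U⁻¹.val U.val, Units.inv_mul,
      Matrix.one_mul, ← Matrix.mul_assoc (Matrix.diagonal _) (Matrix.diagonal _),
      Matrix.diagonal_mul_diagonal]
    simp only [add_mul, Complex.exp_add])
  have hnat : ∀ i : ℕ, (z i).val = ζ ^ i • (1 : Mat r) := fun i => by
    have e : (fun j => Complex.exp ((i : ℂ) * τ j)) = fun _ : Fin r => ζ ^ i := funext fun j => by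
      simp only [τ, mul_sub, Complex.exp_sub, Complex.exp_nat_mul]
      split_ifs
      · simp [hc, ζ, Complex.exp_two_pi_mul_I]
      · simp [ζ]
    rw [hz, e, ← Matrix.smul_one_eq_diagonal, mul_smul_comm, Matrix.mul_one, smul_mul_assoc,
      Units.mul_inv]
  have hcomm : ∀ t, Commute (ρ₂.1 0) (z t) := fun t => Subtype.ext (by
    simp only [Matrix.SpecialLinearGroup.coe_mul, ha, hz]
    rw [Matrix.mul_assoc, Matrix.mul_assoc, ← Matrix.mul_assoc U⁻¹.val (U.val * _), ←
      Matrix.mul_assoc U⁻¹.val U.val, Units.inv_mul, Matrix.one_mul,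
      ← Matrix.mul_assoc (Matrix.diagonal _) (Matrix.diagonal _), Matrix.diagonal_mul_diagonal]
    conv_rhs => rw [Matrix.mul_assoc, Matrix.mul_assoc, ← Matrix.mul_assoc U⁻¹.val (U.val * _), ←
      Matrix.mul_assoc U⁻¹.val U.val, Units.inv_mul, Matrix.one_mul,
      ← Matrix.mul_assoc (Matrix.diagonal _) (Matrix.diagonal _), Matrix.diagonal_mul_diagonal]
    simp only [mul_comm (lam _)])
  let g : ℕ → ℂ → ℂ := fun i t => MvPolynomial.eval (coord (twist ρ₂ (z (i + t)))) P
  have hprod : ∀ t, ∃ i < r, g i t = 0 := by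
    intro t
    obtain ⟨i, hi, h⟩ := prod_twists_vanish hr h1 hg1 hnb
      (ρ₂ := twist ρ₂ (z t)) (by rw [twist_relator ρ₂ (hcomm t), h2]) (by
        obtain ⟨h, p, a, b, d, e⟩ := hg2
        refine ⟨h, p, a, b, ?_, e⟩
        have hb : (twist ρ₂ (z t)).2 0 = ρ₂.2 0 * z t := by simp [twist]
        rw [show (twist ρ₂ (z t)).1 0 = ρ₂.1 0 from rfl, hb]
        rwa [show ρ₂.1 0 * (ρ₂.2 0 * z t) * (ρ₂.1 0)⁻¹ * (ρ₂.2 0 * z t)⁻¹ =
            ρ₂.1 0 * ρ₂.2 0 * (ρ₂.1 0)⁻¹ * (ρ₂.2 0)⁻¹ by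
          rw [show ρ₂.1 0 * (ρ₂.2 0 * z t) * (ρ₂.1 0)⁻¹ = ρ₂.1 0 * ρ₂.2 0 * (ρ₂.1 0)⁻¹ *
              (ρ₂.1 0 * z t * (ρ₂.1 0)⁻¹) by group, (hcomm t).eq]
          group]) hζ P hP
    refine ⟨i, hi, ?_⟩
    rw [← h]
    simp only [g]
    refine congrArg (fun f => MvPolynomial.eval f P) ?_
    funext ⟨⟨k, b⟩, p, q⟩
    by_cases hk : k = 0
    · subst hk
      cases b
      · simp [gCoord, coord, twist]
      · have e : (ρ₂.2 0 * z (i + t)).val = ζ ^ i • (ρ₂.2 0 * z t).val := by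
          simp only [Matrix.SpecialLinearGroup.coe_mul, hadd, hnat, smul_mul_assoc, Matrix.one_mul,
            mul_smul_comm]
        simpa [gCoord, coord, twist] using congrFun (congrFun e p) q
    · cases b <;> simp [gCoord, coord, twist, hk]
  have hg : ∀ i, Differentiable ℂ (g i) := fun i => by
    have hs : SmoothH fun t : ℂ => twist ρ₂ (z (i + t)) := fun k => by
      refine ⟨Smooth.const (ρ₂.1 k).val, ?_⟩
      by_cases hk : k = 0
      · subst hk
        simp only [twist, Function.update_self, Matrix.SpecialLinearGroup.coe_mul, hz]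
        refine (Smooth.const _).mul (((Smooth.const _).mul fun a b => ?_).mul (Smooth.const _))
        simp only [Matrix.diagonal_apply]
        split_ifs
        · exact ((contDiff_const.add contDiff_id).mul contDiff_const).cexp
        · exact contDiff_const
      · simp only [twist, Function.update_of_ne hk]
        exact Smooth.const _
    exact (contDiff_eval (fun v => contDiff_pi.1 hs.coord v) P).differentiable (by simp)
  obtain ⟨i, hi⟩ : ∃ i : Fin r, ∀ t, g i t = 0 := by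
    by_contra hcon
    push Not at hcon
    obtain ⟨t, ht⟩ := (dense_avoid' (fun i : Fin r => g i) (fun i => hg i) hcon).nonempty
    obtain ⟨i, hi, h⟩ := hprod t
    exact ht ⟨i, hi⟩ h
  have := hi (-(i : ℕ))
  simp only [g, add_neg_cancel] at this
  have hz0 : z 0 = 1 := Subtype.ext (by simpa using hnat 0)
  simpa [hz0, twist] using this

end Vale.Agent.P002
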