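import Vale.Agent.P002.GenusTwo

/-!
Every irreducible representation is a limit of representations whose last handles have only
scalar centraliser.
-/

namespace Vale.Agent.P002

open Matrix Polynomial Filter Topology

variable {r n : ℕ}

lemma Full.comp {κ κ' : Type*} {g : κ → Mat r} (h : Full g) {π : κ' → κ}
    (hπ : Function.Surjective π) : Full (g ∘ π) := by
  rw [Full, eq_top_iff, ← h]
  refine Submodule.span_mono ?_
  rintro _ ⟨l, rfl⟩
  refine ⟨l.map (Function.surjInv hπ), ?_⟩
  simp [List.map_map, Function.comp_def, Function.surjInv_eq hπ]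

/-- Number of distinct eigenvalues, through the Hankel determinants. -/
noncomputable def pA (a : Mat r) : ℕ :=
  Nat.findGreatest (fun m => (hank a m).det ≠ 0) r

lemma Spec.card_eq {a : Mat r} {Λ : Finset ℂ} {P : ℂ → Mat r} (h : Spec a Λ P) :
    pA a = Λ.card := by
  refine le_antisymm ?_ (Nat.le_findGreatest h.card h.det_hank_ne)
  by_contra hc
  push Not at hc
  exact Nat.findGreatest_of_ne_zero (P := fun m => (hank a m).det ≠ 0) rfl (by
    show pA a ≠ 0
    omega) (h.det_hank_eq_zero hc)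

/-- The squarefree polynomial evaluated at the matrix, to a power. -/
noncomputable def qN (a : Mat r) (m k : ℕ) : (Fin r → ℂ) →ₗ[ℂ] (Fin r → ℂ) :=
  Matrix.mulVecLin ((aeval a (qpoly a m)) ^ k)

/-- The total of the ranks to be maximised. -/
noncomputable def rankTot (m : ℕ) (σ : Handles n (SLC r)) : ℕ :=
  rankL (commL fun _ : Unit => (σ.1 0).val) + rankL (commL (tgens σ)) +
    rankL (commL (tgens (rot σ))) + ∑ k ∈ Finset.range (r + 2), rankL (qN (σ.1 0).val m k)

lemma rankTot_le (m : ℕ) (σ : Handles n (SLC r)) :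
    rankTot m σ ≤ Module.finrank ℂ (Unit → Mat r) +
      2 * Module.finrank ℂ (Fin n × Bool → Mat r) + (r + 2) * Module.finrank ℂ (Fin r → ℂ) := by
  have h : ∀ k ∈ Finset.range (r + 2), rankL (qN (σ.1 0).val m k) ≤ Module.finrank ℂ (Fin r → ℂ) :=
    fun k _ => Submodule.finrank_le _
  have h1 := Finset.sum_le_card_nsmul _ _ _ h
  rw [Finset.card_range, smul_eq_mul] at h1
  have h2 := Submodule.finrank_le (LinearMap.range (commL fun _ : Unit => (σ.1 0).val))
  have h3 := Submodule.finrank_le (LinearMap.range (commL (tgens σ)))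
  have h4 := Submodule.finrank_le (LinearMap.range (commL (tgens (rot σ))))
  unfold rankTot rankL at *
  omega

lemma hasDerivAt_trace {M : ℂ → Mat r} {v : Mat r} (h : HasD M v) :
    HasDerivAt (fun s => (M s).trace) v.trace 0 :=
  HasDerivAt.fun_sum fun i _ => h i i

lemma differentiableAt_det {ι : Type*} [Fintype ι] [DecidableEq ι] {M : ℂ → Matrix ι ι ℂ}
    (h : ∀ i j, DifferentiableAt ℂ (fun s => M s i j) 0) :
    DifferentiableAt ℂ (fun s => (M s).det) 0 := by
  simp_rw [Matrix.det_apply']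
  exact DifferentiableAt.fun_sum fun σ _ =>
    (DifferentiableAt.fun_finsetProd fun i _ => h (σ i) i).const_mul _

lemma differentiable_hank {a : ℂ → Mat r} {δ : Mat r} (h : HasD a δ) (k : ℕ) :
    DifferentiableAt ℂ (fun s => (a s ^ k).trace) 0 := by
  obtain ⟨d, hd, -⟩ := hasD_pow_pair h k
  exact (hasDerivAt_trace hd).differentiableAt

/-- Derivative of the squarefree polynomial expression. -/
lemma hasD_qpoly {a : ℂ → Mat r} {δ : Mat r} (h : HasD a δ) {m : ℕ}
    (hm : (hank (a 0) m).det ≠ 0) :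
    ∃ (dN : Mat r) (qd : ℂ[X]), HasD (fun s => aeval (a s) (qpoly (a s) m)) dN ∧ ∀ X, Commute (a 0) X →
      (dN * X).trace = (aeval (a 0) qd * X).trace +
        (aeval (a 0) (derivative (qpoly (a 0) m)) * X * δ).trace := by
  have hH : ∀ i j, DifferentiableAt ℂ (fun s => hank (a s) m i j) 0 := fun i j =>
    differentiable_hank h _
  have hc : ∀ i, DifferentiableAt ℂ (fun s => qcoef (a s) m i) 0 := fun i => by
    simp only [qcoef, Matrix.mulVec, dotProduct]
    refine ((differentiableAt_det hH).inv hm).mul (DifferentiableAt.fun_sum fun j _ => ?_) |>.neg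
    refine DifferentiableAt.mul ?_ (differentiable_hank h _)
    simp_rw [Matrix.adjugate_apply]
    refine differentiableAt_det fun p q => ?_
    simp only [Matrix.updateRow_apply]
    split_ifs
    · exact differentiableAt_const _
    · exact hH p q
  let c' : Fin m → ℂ := fun i => deriv (fun s => qcoef (a s) m i) 0
  choose d hd hdX using hasD_pow_pair h
  refine ⟨d m + ∑ i : Fin m, (c' i • a 0 ^ (i : ℕ) + qcoef (a 0) m i • d i),
    ∑ i : Fin m, Polynomial.C (c' i) * Polynomial.X ^ (i : ℕ), ?_, fun X hX => ?_⟩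
  · intro p q
    simp only [qpoly, map_add, map_sum, map_mul, aeval_C, aeval_X_pow, ← Algebra.smul_def,
      Matrix.add_apply, Matrix.sum_apply, Matrix.smul_apply, smul_eq_mul]
    exact (hd m p q).add (HasDerivAt.fun_sum fun i _ => (hc i).hasDerivAt.mul (hd i p q))
  · simp only [qpoly, derivative_C_mul, map_add, map_sum, map_mul,
      aeval_C, aeval_X_pow, ← Algebra.smul_def, add_mul, Finset.sum_mul, smul_mul_assoc,
      Matrix.trace_add, Matrix.trace_sum, Matrix.trace_smul, Finset.sum_add_distrib, hdX _ _ hX]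
    abel

/-- Every polynomial in the block variable. -/
lemma exists_comp_eq (q g : ℂ[X]) (l : ℂ) (hq : q = (X - C l) * g) (hg : g.eval l ≠ 0) :
    ∀ t : ℕ, ∃ h u : ℂ[X], X = h.comp q + (X - C l) ^ t * u
  | 0 => ⟨0, X, by simp⟩
  | t + 1 => by
    obtain ⟨h, u, hu⟩ := exists_comp_eq q g l hq hg t
    set c : ℂ := u.eval l / g.eval l ^ t
    obtain ⟨w, hw⟩ := (Polynomial.dvd_iff_isRoot (a := l) (p := u - C c * g ^ t)).2 (by
      simp [c, Polynomial.IsRoot, div_mul_cancel₀ _ (pow_ne_zero t hg)])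
    refine ⟨h + C c * X ^ t, w, ?_⟩
    rw [add_comp, mul_comp, C_comp, X_pow_comp]
    linear_combination hu + (X - C l) ^ t * hw - C c * congrArg (· ^ t) hq -
      C c * (mul_pow (X - C l) g t)

/-- A vector killed by a set of nilpotent matrices closed under products. -/
lemma exists_common_kernel (hr : 0 < r) (R : Submodule ℂ (Mat r))
    (hnil : ∀ n ∈ R, IsNilpotent n) (hmul : ∀ n ∈ R, ∀ m ∈ R, n * m ∈ R) :
    ∃ v : Fin r → ℂ, v ≠ 0 ∧ ∀ n ∈ R, n *ᵥ v = 0 := by
  classical
  let ev : (Fin r → ℂ) → (R →ₗ[ℂ] (Fin r → ℂ)) := fun v =>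
    ((Matrix.mulVecBilin ℂ ℂ).flip v) ∘ₗ R.subtype
  have hev : ∀ v (m : R), ev v m = (m : Mat r) *ᵥ v := fun v m => rfl
  have hne : ∃ d, ∃ v : Fin r → ℂ, v ≠ 0 ∧ Module.finrank ℂ (LinearMap.range (ev v)) = d :=
    ⟨_, Pi.single ⟨0, hr⟩ 1, by simp, rfl⟩
  obtain ⟨v, hv0, hv⟩ := Nat.find_spec hne
  refine ⟨v, hv0, fun m hm => ?_⟩
  by_contra hmv
  set w := m *ᵥ v with hw
  have hle : LinearMap.range (ev w) ≤ LinearMap.range (ev v) := by
    rintro _ ⟨x, rfl⟩
    exact ⟨⟨x.1 * m, hmul _ x.2 _ hm⟩, by simp [hev, hw, Matrix.mulVec_mulVec]⟩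
  have heq : LinearMap.range (ev w) = LinearMap.range (ev v) :=
    Submodule.eq_of_le_of_finrank_le hle (hv ▸ Nat.find_min' hne ⟨w, hmv, rfl⟩)
  obtain ⟨x, hx⟩ : w ∈ LinearMap.range (ev w) := heq ▸ ⟨⟨m, hm⟩, hev v _⟩
  rw [hev] at hx
  have hpow : ∀ k : ℕ, (x : Mat r) ^ k *ᵥ w = w := fun k => by
    induction k with
    | zero => simp
    | succ k ih => rw [pow_succ, ← Matrix.mulVec_mulVec, hx, ih]
  obtain ⟨k, hk⟩ := hnil _ x.2
  exact hmv (by rw [← hpow k, hk, Matrix.zero_mulVec])

lemma trace_prodD : ∀ {k : ℕ} (C : Fin k → SLC r) (X : Fin k → Mat r),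
    (∀ i, (X i).trace = 0) → (prodD C X).trace = 0
  | 0, _, _, _ => by simp [prodD]
  | k + 1, C, X, h => by
    rw [prodD, Matrix.trace_add, h 0, zero_add, adj_apply, Matrix.trace_mul_comm,
      ← Matrix.mul_assoc, val_inv_mul, Matrix.one_mul]
    exact trace_prodD _ _ fun i => h i.succ

lemma trace_relD [NeZero r] (σ : Handles n (SLC r)) (τ : Var n r → ℂ) :
    (relD σ τ).trace = 0 := by
  have hadj : ∀ (g : SLC r) (X : Mat r), (adj g X).trace = X.trace := fun g X => by
    rw [adj_apply, Matrix.trace_mul_comm, ← Matrix.mul_assoc, val_inv_mul, Matrix.one_mul]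
  refine trace_prodD _ _ fun i => ?_
  simp [pairD, hadj, trace_tl (NeZero.ne r)]

lemma lin_sum (φ : (Fin r → ℂ) →ₗ[ℂ] ℂ) (z : Fin r → ℂ) :
    φ z = ∑ i, z i * φ (Pi.single i 1) := by
  conv_lhs => rw [← Finset.univ_sum_single z]
  simp only [map_sum]
  refine Finset.sum_congr rfl fun i _ => ?_
  rw [show (Pi.single i (z i) : Fin r → ℂ) = z i • Pi.single i 1 by simp [← Pi.single_smul],
    map_smul, smul_eq_mul]

lemma dist_coord_lt {σ σ' : Handles n (SLC r)} {ε : ℝ} (hε : 0 < ε) :
    dist (coord σ) (coord σ') < ε ↔ ∀ v p q, dist (gens σ v p q) (gens σ' v p q) < ε := by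
  simp only [dist_pi_lt_iff hε, ← matOf_eq_gens, matOf, Matrix.of_apply, Prod.forall]

lemma gens_zero (σ : Handles n (SLC r)) : gens σ (0, false) = (σ.1 0).val := by simp [gens]

lemma nonScalar_rot {σ : Handles 1 (SLC r)} (hσ : relator σ = 1) (h : NonScalar σ) :
    NonScalar (rot σ) := by
  intro c hc
  have hc1 : comm σ 0 * comm σ 1 = 1 := by
    rw [relator_comm, List.ofFn_succ, List.prod_cons, List.ofFn_succ, List.prod_cons,
      List.ofFn_zero, List.prod_nil, mul_one] at hσ
    exact hσ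
  rw [show comm (rot σ) 0 = comm σ 1 from rfl] at hc
  have h' := congrArg Subtype.val hc1
  rw [Matrix.SpecialLinearGroup.coe_mul, Matrix.SpecialLinearGroup.coe_one, hc, mul_smul_comm,
    Matrix.mul_one] at h'
  rcases eq_or_ne c 0 with h0 | h0
  · have := congrArg Matrix.det h'
    rw [h0, zero_smul, Matrix.det_one] at this
    cases r with
    | zero => exact h 1 (Matrix.ext fun i => i.elim0)
    | succ m => rw [Matrix.det_zero] at this; exact zero_ne_one this
  · exact h c⁻¹ (by rw [← h', inv_smul_smul₀ h0])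

lemma nonScalar_open {X : Type*} [TopologicalSpace X] {γ : X → Handles n (SLC r)} {x₀ : X}
    (hc : ∀ v, ContM (fun x => gens (γ x) v) x₀) (h : NonScalar (γ x₀)) :
    ∀ᶠ x in 𝓝 x₀, NonScalar (γ x) := by
  have hinv : ∀ v, ContM (fun x => (gensU (γ x) v)⁻¹.val) x₀ := fun v i j => by
    have hg : ContinuousAt (fun x => gens (γ x) v) x₀ :=
      continuousAt_pi.2 fun a => continuousAt_pi.2 fun b => hc v a b
    have := ((Continuous.matrix_adjugate continuous_id).matrix_elem i j).continuousAt.comp hg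
    simpa [Function.comp_def, Matrix.SpecialLinearGroup.coe_inv, gensU_val] using this
  have hC : ContM (fun x => (comm (γ x) 0).val) x₀ := fun i j => by
    simp only [comm, Matrix.SpecialLinearGroup.coe_mul, Matrix.mul_apply]
    refine tendsto_finsetSum _ fun k _ => (tendsto_finsetSum _ fun l _ =>
      (tendsto_finsetSum _ fun m _ => (?_ : Tendsto _ _ _).mul ?_).mul ?_).mul ?_
    · simpa [ContinuousAt, gens] using hc (0, false) i m
    · simpa [ContinuousAt, gens] using hc (0, true) m l
    · simpa [ContinuousAt, gensU] using hinv (0, false) l k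
    · simpa [ContinuousAt, gensU] using hinv (0, true) k j
  by_cases hoff : ∃ i j, i ≠ j ∧ (comm (γ x₀) 0).val i j ≠ 0
  · obtain ⟨i, j, hij, hne⟩ := hoff
    filter_upwards [(hC i j).eventually_ne hne] with x hx c hcx
    exact hx (by rw [hcx]; simp [hij])
  · push Not at hoff
    by_cases hdiag : ∃ i j, (comm (γ x₀) 0).val i i - (comm (γ x₀) 0).val j j ≠ 0
    · obtain ⟨i, j, hne⟩ := hdiag
      filter_upwards [((hC i i).sub (hC j j)).eventually_ne hne] with x hx c hcx
      exact hx (by simp [Pi.sub_apply, hcx])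
    · push Not at hdiag
      cases r with
      | zero => exact absurd (Matrix.ext fun i => i.elim0) (h 1)
      | succ m =>
        refine absurd (Matrix.ext fun i j => ?_) (h ((comm (γ x₀) 0).val 0 0))
        rcases eq_or_ne i j with rfl | hij
        · simpa [sub_eq_zero] using hdiag i 0
        · simp [hoff i j hij, hij]

lemma exists_triv_rot [NeZero r] (hn : 1 ≤ n) {σ₀ : Handles n (SLC r)} (hσ₀ : relator σ₀ = 1)
    (hF₀ : Full (gens σ₀)) (hNS₀ : 2 ≤ n ∨ NonScalar σ₀) {ε : ℝ} (hε : 0 < ε) :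
    ∃ σ : Handles n (SLC r), relator σ = 1 ∧ dist (coord σ) (coord σ₀) < ε ∧
      Triv (tgens (rot σ)) := by
  classical
  let V : Set (Handles n (SLC r)) :=
    {σ | relator σ = 1 ∧ dist (coord σ) (coord σ₀) < ε ∧ Full (gens σ) ∧ (2 ≤ n ∨ NonScalar σ)}
  have hb : BddAbove ((fun σ : Handles n (SLC r) => pA (σ.1 0).val) '' V) :=
    ⟨r, by rintro _ ⟨σ, -, rfl⟩; exact Nat.findGreatest_le r⟩
  obtain ⟨σ₁, hσ₁, hp₁⟩ := Nat.sSup_mem
    (Set.Nonempty.image (fun σ : Handles n (SLC r) => pA (σ.1 0).val)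
      ⟨σ₀, show σ₀ ∈ V from ⟨hσ₀, by simpa using hε, hF₀, hNS₀⟩⟩) hb
  simp only at hp₁
  set p := sSup ((fun σ : Handles n (SLC r) => pA (σ.1 0).val) '' V)
  let V₁ : Set (Handles n (SLC r)) := {σ | σ ∈ V ∧ (hank (σ.1 0).val p).det ≠ 0}
  have hV₁p : ∀ σ ∈ V₁, pA (σ.1 0).val = p := by
    rintro σ ⟨hσ, hd⟩
    refine le_antisymm (le_csSup hb ⟨σ, hσ, rfl⟩) (Nat.le_findGreatest ?_ hd)
    rw [← hp₁]; exact Nat.findGreatest_le r
  have hσ₁V : σ₁ ∈ V₁ := by
    refine ⟨hσ₁, ?_⟩
    obtain ⟨Λ, P, hS⟩ := exists_spec (σ₁.1 0).val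
    rw [← hp₁, hS.card_eq]; exact hS.det_hank_ne
  have hb' : BddAbove (rankTot (n := n) p '' V₁) :=
    ⟨_, by rintro _ ⟨σ, -, rfl⟩; exact rankTot_le p σ⟩
  obtain ⟨σ, hσV, hmax⟩ := Nat.sSup_mem (Set.Nonempty.image (rankTot (n := n) p) ⟨σ₁, hσ₁V⟩) hb'
  obtain ⟨⟨hσ, hdist, hFull, hNSσ⟩, hdet⟩ := hσV
  refine ⟨σ, hσ, hdist, ?_⟩
  have hT := hFull.triv
  set a := (σ.1 0).val with ha
  -- curves stay in the set and have no larger ranks
  have hev : ∀ γ : ℂ → Handles n (SLC r), γ 0 = σ → (∀ᶠ s in 𝓝 0, relator (γ s) = 1) →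
      ∀ δ : Fin (n + 1) × Bool → Mat r, (∀ v, HasD (fun s => gens (γ s) v) (δ v)) →
      (∀ᶠ s in 𝓝 0, rankL (commL fun _ : Unit => ((γ s).1 0).val) ≤
          rankL (commL fun _ : Unit => a)) ∧
      (∀ᶠ s in 𝓝 0, rankL (commL (tgens (γ s))) ≤ rankL (commL (tgens σ))) ∧
      (∀ᶠ s in 𝓝 0, rankL (commL (tgens (rot (γ s)))) ≤ rankL (commL (tgens (rot σ)))) ∧
      ∀ k < r + 2, ∀ᶠ s in 𝓝 0, rankL (qN ((γ s).1 0).val p k) ≤ rankL (qN a p k) := by
    intro γ hγ0 hγ δ hδ
    have hc : ∀ v, ContM (fun s => gens (γ s) v) 0 := fun v => (hδ v).contM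
    have ha' : HasD (fun s => ((γ s).1 0).val) (δ (0, false)) := by
      simpa only [gens_zero] using hδ (0, false)
    have h1 : ∀ᶠ s in 𝓝 0, γ s ∈ V₁ := by
      have e1 : ∀ᶠ s in 𝓝 0, dist (coord (γ s)) (coord σ₀) < ε := by
        have hcont : ContinuousAt (fun s => coord (γ s)) 0 := continuousAt_pi.2 fun v => by
          have := hc v.1 v.2.1 v.2.2
          simpa only [← matOf_eq_gens, matOf, Matrix.of_apply] using this
        exact (hcont.dist continuousAt_const).eventually_lt_const (by simpa [hγ0] using hdist)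
      have e2 : ∀ᶠ s in 𝓝 0, (hank ((γ s).1 0).val p).det ≠ 0 :=
        (differentiableAt_det fun i j => differentiable_hank ha' _).continuousAt.eventually_ne
          (by rw [hγ0]; exact hdet)
      have e3 : ∀ᶠ s in 𝓝 0, Full (gens (γ s)) := full_open hc (by rw [hγ0]; exact hFull)
      have e4 : ∀ᶠ s in 𝓝 0, 2 ≤ n ∨ NonScalar (γ s) := by
        rcases hNSσ with h | h
        · exact .of_forall fun _ => Or.inl h
        · exact (nonScalar_open hc (by rwa [hγ0])).mono fun _ => Or.inr
      filter_upwards [hγ, e1, e2, e3, e4] with s a b c d e using ⟨⟨a, b, d, e⟩, c⟩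
    have h2 : ∀ᶠ s in 𝓝 0, rankTot p (γ s) ≤ rankTot p σ := h1.mono fun s hs =>
      hmax ▸ le_csSup hb' ⟨_, hs, rfl⟩
    have l1 := rank_lsc (M := fun s => commL fun _ : Unit => ((γ s).1 0).val) (x₀ := 0)
      (commL_cont fun _ => ha'.contM)
    have l2 := rank_lsc (M := fun s => commL (tgens (γ s))) (x₀ := 0) (commL_cont fun v => hc _)
    have l3 := rank_lsc (M := fun s => commL (tgens (rot (γ s)))) (x₀ := 0)
      (commL_cont fun v => by
        simpa only [tgens, gens_rot] using hc (finRotate (n + 1) v.1.succ, v.2))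
    have l4 : ∀ k, ∀ᶠ s in 𝓝 0, rankL (qN a p k) ≤ rankL (qN ((γ s).1 0).val p k) := fun k => by
      obtain ⟨dN, qd, hN, -⟩ := hasD_qpoly ha' (m := p) (by rw [hγ0]; exact hdet)
      obtain ⟨dk, hk, -⟩ := hasD_pow_block hN k
      have := rank_lsc (M := fun s => qN ((γ s).1 0).val p k) (x₀ := 0) fun u φ => by
        simp only [qN, Matrix.mulVecLin_apply]
        rw [funext fun s : ℂ =>
          lin_sum φ ((aeval ((γ s).1 0).val (qpoly ((γ s).1 0).val p) ^ k) *ᵥ u)]
        simp only [Matrix.mulVec, dotProduct]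
        exact tendsto_finsetSum _ fun i _ => (tendsto_finsetSum _ fun j _ =>
          (hk i j).continuousAt.tendsto.mul tendsto_const_nhds).mul tendsto_const_nhds
      simpa only [hγ0] using this
    simp only [hγ0, ← ha] at l1 l2 l3
    have l4' : ∀ᶠ s in 𝓝 0, ∀ k ∈ Finset.range (r + 2),
        rankL (qN a p k) ≤ rankL (qN ((γ s).1 0).val p k) :=
      (Finset.eventually_all _).2 fun k _ => l4 k
    have main := h2.and (l1.and (l2.and (l3.and l4')))
    refine ⟨?_, ?_, ?_, fun k hk => ?_⟩ <;> filter_upwards [main] with s hs <;>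
      obtain ⟨t, t1, t2, t3, t4⟩ := hs <;> unfold rankTot at t <;> rw [← ha] at t <;>
      have t5 := Finset.sum_le_sum t4
    · omega
    · omega
    · omega
    · by_contra hlt
      have := Finset.sum_lt_sum t4 ⟨k, Finset.mem_range.2 hk, not_le.1 hlt⟩
      omega
  -- first-order properties
  have hFO : FirstOrd σ := fun τ hτ e he φ hφ => by
    obtain ⟨γ, hγ0, hγ, hγd⟩ := exists_curve hσ hT hτ
    obtain ⟨-, h, -, -⟩ := hev γ hγ0 hγ _ hγd
    exact first_order (M := fun s => commL (tgens (γ s)))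
      (M' := fun u v => u * (tgens σ v * tl (matOf τ (v.1.succ, v.2))) -
        tgens σ v * tl (matOf τ (v.1.succ, v.2)) * u)
      (commL_deriv fun v => hγd _) (by simpa only [hγ0] using h)
      (by rw [hγ0]; exact commL_eq_zero.2 he) (by simpa only [hγ0] using hφ)
  have hσr : relator (rot σ) = 1 := rot_relator hσ
  have hFr : Full (gens (rot σ)) := hFull.comp (π := fun v : Fin (n + 1) × Bool =>
      (finRotate (n + 1) v.1, v.2)) fun v => ⟨((finRotate (n + 1)).symm v.1, v.2), by simp⟩
  have hFOr : FirstOrd (rot σ) := fun τ hτ e he φ hφ => by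
    obtain ⟨γ, hγ0, hγ, hγd⟩ := exists_curve hσr hFr.triv hτ
    obtain ⟨-, -, h, -⟩ := hev (fun s => rotInv (γ s)) (by simp [hγ0, rotInv_rot])
      (hγ.mono fun s hs => rotInv_relator hs) _ (fun v => hγd ((finRotate (n + 1)).symm v.1, v.2))
    simp only [rot_rotInv] at h
    exact first_order (M := fun s => commL (tgens (γ s)))
      (M' := fun u v => u * (tgens (rot σ) v * tl (matOf τ (v.1.succ, v.2))) -
        tgens (rot σ) v * tl (matOf τ (v.1.succ, v.2)) * u)
      (commL_deriv fun v => hγd _) (by simpa only [hγ0] using h)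
      (by rw [hγ0]; exact commL_eq_zero.2 he) (by simpa only [hγ0] using hφ)
  obtain ⟨Λ, P, hS⟩ := exists_spec a
  have hp : Λ.card = p := by rw [← hS.card_eq]; exact hV₁p σ ⟨⟨hσ, hdist, hFull, hNSσ⟩, hdet⟩
  have hq : qpoly a p = ∏ l ∈ Λ, (X - C l) := hp ▸ hS.qpoly_eq
  have hPa : ∀ l ∈ Λ, Commute (P l) a := fun l hl => hS.commute hl (Commute.refl a)
  -- variations of the first generator are orthogonal to the traceless centraliser
  have hmain : ∀ τ, relD σ τ = 0 → ∀ Z, Commute a Z → (∀ l ∈ Λ, (Z * P l).trace = 0) →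
      (Z * (a * tl (matOf τ (0, false)))).trace = 0 := by
    intro τ hτ
    obtain ⟨γ, hγ0, hγ, hγd⟩ := exists_curve hσ hT hτ
    obtain ⟨hA, -, -, hQ⟩ := hev γ hγ0 hγ _ hγd
    set δ := a * tl (matOf τ (0, false)) with hδ
    have ha' : HasD (fun s => ((γ s).1 0).val) δ := by
      simpa only [gens_zero, ← ha, ← hδ] using hγd (0, false)
    have hcm : ∀ X Y, Commute a X → Commute a Y → ((X * Y - Y * X) * δ).trace = 0 := by
      intro X Y hX hY
      let φ : (Unit → Mat r) →ₗ[ℂ] ℂ :=
        Matrix.traceLinearMap (Fin r) ℂ ℂ ∘ₗ LinearMap.mulLeft ℂ X ∘ₗ LinearMap.proj ()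
      have := first_order (M := fun s => commL fun _ : Unit => ((γ s).1 0).val)
        (M' := fun u _ => u * δ - δ * u) (commL_deriv fun _ => ha')
        (by simpa only [hγ0] using hA) (y := Y)
        (by rw [hγ0]; exact commL_eq_zero.2 fun _ => hY) (φ := φ) (fun u => by
          rw [hγ0]
          simp only [φ, commL, LinearMap.comp_apply, LinearMap.mulLeft_apply, LinearMap.proj_apply,
            LinearMap.coe_mk, AddHom.coe_mk, Matrix.traceLinearMap_apply, mul_sub, Matrix.trace_sub]
          rw [← ha, ← Matrix.mul_assoc X a u, ← hX.eq, Matrix.mul_assoc a, Matrix.trace_mul_comm a,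
            Matrix.mul_assoc, sub_self])
      simp only [φ, LinearMap.comp_apply, LinearMap.mulLeft_apply, LinearMap.proj_apply,
        Matrix.traceLinearMap_apply, mul_sub, Matrix.trace_sub] at this
      rw [sub_mul, Matrix.trace_sub, Matrix.mul_assoc, Matrix.mul_assoc Y, Matrix.trace_mul_comm Y,
        Matrix.mul_assoc X δ]
      exact this
    obtain ⟨dN, qd, hN, hNX⟩ := hasD_qpoly ha' (m := p) (by rw [hγ0]; exact hdet)
    simp only [hγ0, ← ha] at hNX
    let Γ : Mat r →ₗ[ℂ] ℂ := Matrix.traceLinearMap (Fin r) ℂ ℂ ∘ₗ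
      (LinearMap.mulLeft ℂ (aeval a qd) +
        LinearMap.mulRight ℂ δ ∘ₗ LinearMap.mulLeft ℂ (aeval a (derivative (qpoly a p))))
    have hΓ : ∀ X, Γ X = (aeval a qd * X).trace +
        (aeval a (derivative (qpoly a p)) * X * δ).trace := fun X => by
      simp [Γ, Matrix.trace_add]
    intro Z hZ hZP
    rw [← Matrix.mul_one Z, ← hS.sum, Finset.mul_sum, Finset.sum_mul, Matrix.trace_sum]
    refine Finset.sum_eq_zero fun l hl => ?_
    have hc := hPa l hl
    obtain ⟨g, hg⟩ : X - C l ∣ qpoly a p := hq ▸ Finset.dvd_prod_of_mem _ hl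
    have hq' : (derivative (qpoly a p)).eval l ≠ 0 := by
      obtain ⟨u, w, huw⟩ := (hq ▸ Polynomial.separable_prod_X_sub_C_iff'.2
        (fun x _ y _ h => h) : (qpoly a p).Separable)
      have h0 : (qpoly a p).eval l = 0 := by rw [hg]; simp
      intro h1
      have := congrArg (Polynomial.eval l) huw
      simp [h0, h1] at this
    have hgl : g.eval l ≠ 0 := by
      intro h1; refine hq' ?_; rw [hg]; simp [h1]
    set N := aeval a (qpoly a p) with hNdef
    have hNP : N ^ (r + 1) * P l = 0 := by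
      have h := hS.nil l hl
      have h1 : Commute (a - l • 1) (P l) :=
        hc.symm.sub_left ((Commute.one_left _).smul_left l)
      have h2 : Commute (a - l • 1) (aeval a g) :=
        ((commute_aeval (Commute.refl a) g).symm).sub_left ((Commute.one_left _).smul_left l)
      rw [h1.mul_pow, show P l ^ (r + 1) = P l from
        IsIdempotentElem.pow_succ_eq r (hS.idem hl)] at h
      rw [hNdef, hg, map_mul, show aeval a (X - C l) = a - l • 1 by
        simp [Algebra.algebraMap_eq_smul_one], h2.mul_pow, Matrix.mul_assoc,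
        ((commute_aeval hc.symm g).pow_left _).eq, ← Matrix.mul_assoc, h, Matrix.zero_mul]
    have hNa : ∀ Y, Commute N Y → P l * Y * P l = Y → Commute a Y := by
      intro Y hY hPY
      obtain ⟨h, u, hu⟩ := exists_comp_eq _ g l hg hgl (r + 1)
      have e : a * P l = aeval N h * P l := by
        conv_lhs => rw [show a = aeval a (X : ℂ[X]) from (aeval_X a).symm, hu]
        rw [map_add, add_mul, aeval_comp, map_mul, Matrix.mul_assoc, (commute_aeval hc.symm u).eq,
          ← Matrix.mul_assoc, map_pow, show aeval a (X - C l) = a - l • 1 by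
            simp [Algebra.algebraMap_eq_smul_one]]
        have h1 : Commute (a - l • 1) (P l) :=
          hc.symm.sub_left ((Commute.one_left _).smul_left l)
        have hn := hS.nil l hl
        rw [h1.mul_pow, IsIdempotentElem.pow_succ_eq r (hS.idem hl)] at hn
        rw [hn, Matrix.zero_mul, add_zero, hNdef]
      have hl1 : P l * Y = Y := by rw [← hPY, ← Matrix.mul_assoc, ← Matrix.mul_assoc, hS.idem hl]
      have hl2 : Y * P l = Y := by rw [← hPY, Matrix.mul_assoc, hS.idem hl]
      show a * Y = Y * a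
      calc a * Y = aeval N h * Y := by
            conv_lhs => rw [← hl1, ← Matrix.mul_assoc, e, Matrix.mul_assoc, hl1]
        _ = Y * aeval N h * P l := by rw [← (commute_aeval hY h).eq, Matrix.mul_assoc, hl2]
        _ = Y * (a * P l) := by rw [e, Matrix.mul_assoc]
        _ = Y * a := by rw [← hc.eq, ← Matrix.mul_assoc, hl2]
    have hΓ0 : ∀ Y, Commute a Y → P l * Y * P l = Y → Γ Y = 0 := fun Y hY hPY => by
      refine centraliser_functional N (P l) (hS.idem hl) (commute_aeval hc.symm _) hNP Γ ?_ ?_ Y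
        (commute_aeval hY _) hPY
      · intro U W hU hW hPU hPW
        have hUa := hNa U hU hPU
        have hWa := hNa W hW hPW
        have hq1 : Commute (aeval a (derivative (qpoly a p))) U := commute_aeval hUa _
        have hq2 : Commute (aeval a (derivative (qpoly a p))) W := commute_aeval hWa _
        rw [hΓ, mul_sub (aeval a qd), Matrix.trace_sub, ← Matrix.mul_assoc,
          (commute_aeval hUa qd).eq, Matrix.mul_assoc, Matrix.trace_mul_comm U, Matrix.mul_assoc,
          sub_self, zero_add]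
        have h := hcm (aeval a (derivative (qpoly a p)) * U) W
          ((commute_aeval (Commute.refl a) _).symm.mul_right hUa) hWa
        rw [← Matrix.mul_assoc W, ← hq2.eq, Matrix.mul_assoc _ W U,
          Matrix.mul_assoc _ U W, ← mul_sub] at h
        exact h
      · intro k v w hk hv hw hPv hwP
        obtain ⟨dk, hdk, hdkM⟩ := hasD_pow_block hN k
        simp only [hγ0, ← ha, ← hNdef] at hdkM
        let φ : (Fin r → ℂ) →ₗ[ℂ] ℂ := dotProductBilin ℂ ℂ w
        have h := first_order (M := fun s => qN ((γ s).1 0).val p k) (M' := fun u => dk *ᵥ u)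
          (fun u φ => by
            simp only [qN, Matrix.mulVecLin_apply]
            rw [funext fun s : ℂ =>
              lin_sum φ ((aeval ((γ s).1 0).val (qpoly ((γ s).1 0).val p) ^ k) *ᵥ u),
              lin_sum φ (dk *ᵥ u)]
            simp only [Matrix.mulVec, dotProduct]
            exact HasDerivAt.fun_sum fun i _ => (HasDerivAt.fun_sum fun j _ =>
              (hdk i j).mul_const _).mul_const _)
          (by simpa only [hγ0] using hQ k (by omega)) (y := v)
          (by simpa only [hγ0, qN, Matrix.mulVecLin_apply, ← ha, ← hNdef] using hv) (φ := φ)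
          (fun u => by
            simp only [φ, hγ0, qN, Matrix.mulVecLin_apply, ← ha, ← hNdef]
            change w ⬝ᵥ (N ^ k *ᵥ u) = 0
            rw [Matrix.dotProduct_mulVec, hw, zero_dotProduct])
        have hTN : Commute N (blockT N k (vecMulVec v w)) := blockT_comm N
          (by rw [Matrix.mul_vecMulVec, hv, Matrix.zero_vecMulVec])
          (by rw [Matrix.vecMulVec_mul, hw, Matrix.vecMulVec_zero])
        have hPN : ∀ j, Commute (P l) (N ^ j) := fun j => ((commute_aeval hc.symm _).pow_left j).symm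
        have hTP : P l * blockT N k (vecMulVec v w) * P l = blockT N k (vecMulVec v w) := by
          simp only [blockT, Finset.mul_sum, Finset.sum_mul]
          refine Finset.sum_congr rfl fun i _ => ?_
          rw [← Matrix.mul_assoc (P l), ← Matrix.mul_assoc (P l), (hPN i).eq,
            Matrix.mul_assoc _ (N ^ (k - 1 - i)) (P l), ← (hPN (k - 1 - i)).eq, ← Matrix.mul_assoc,
            Matrix.mul_assoc (N ^ i) (P l), Matrix.mul_vecMulVec, hPv,
            Matrix.mul_assoc (N ^ i) _ (P l), Matrix.vecMulVec_mul, hwP]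
        rw [hΓ, ← hNX _ (hNa _ hTN hTP), ← hdkM, Matrix.mul_vecMulVec, Matrix.trace_vecMulVec,
          dotProduct_comm]
        exact h
    obtain ⟨u, w, huw⟩ : IsCoprime ((X - C l) ^ (r + 1)) (derivative (qpoly a p)) :=
      (((Polynomial.irreducible_X_sub_C l).coprime_iff_not_dvd).2 fun h =>
        hq' (Polynomial.dvd_iff_isRoot.1 h)).pow_left
    have hZl : Commute a (Z * P l) := hZ.mul_right hc.symm
    have hw1 : aeval a (derivative (qpoly a p)) * aeval a w * P l = P l := by
      have h := congrArg (fun f : ℂ[X] => aeval a f * P l) huw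
      simp only [map_add, map_mul, map_one, Matrix.one_mul, add_mul] at h
      rw [Matrix.mul_assoc (aeval a u), map_pow, show aeval a (X - C l) = a - l • 1 by
        simp [Algebra.algebraMap_eq_smul_one]] at h
      have h1 : Commute (a - l • 1) (P l) :=
        hc.symm.sub_left ((Commute.one_left _).smul_left l)
      have hn := hS.nil l hl
      rw [h1.mul_pow, IsIdempotentElem.pow_succ_eq r (hS.idem hl)] at hn
      rw [hn, Matrix.mul_zero, zero_add, (commute_aeval (commute_aeval (Commute.refl a) w).symm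
        (derivative (qpoly a p))).symm.eq] at h
      exact h
    have hz := hΓ0 (aeval a w * (Z * P l)) ((commute_aeval (Commute.refl a) w).symm.mul_right hZl)
      (by
        have hl1 : P l * Z = Z * P l := (hS.commute hl hZ).eq
        rw [← Matrix.mul_assoc (P l), ← (commute_aeval hc.symm w).eq,
          Matrix.mul_assoc (aeval a w) (P l), ← Matrix.mul_assoc (P l) Z, hl1,
          Matrix.mul_assoc Z (P l) (P l), hS.idem hl, Matrix.mul_assoc,
          Matrix.mul_assoc Z (P l) (P l), hS.idem hl])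
    rw [hΓ, ← Matrix.mul_assoc (aeval a qd) (aeval a w), ← map_mul, hS.trace_block hl hZ,
      hZP l hl, mul_zero, zero_add] at hz
    rw [← Matrix.mul_assoc (aeval a (derivative (qpoly a p))) (aeval a w),
      ← (hS.commute hl hZ).eq, ← Matrix.mul_assoc _ (P l) Z, hw1, (hS.commute hl hZ).eq] at hz
    exact hz
  -- the centraliser of the first generator and the last handles
  let D₀ : Submodule ℂ (Mat r) :=
    { carrier := {Z | Commute a Z ∧ ∀ l ∈ Λ, (Z * P l).trace = 0}
      zero_mem' := ⟨Commute.zero_right a, fun l _ => by simp⟩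
      add_mem' := fun h h' => ⟨h.1.add_right h'.1, fun l hl => by
        rw [add_mul, Matrix.trace_add, h.2 l hl, h'.2 l hl, add_zero]⟩
      smul_mem' := fun c Z h => ⟨h.1.smul_right c, fun l hl => by
        rw [smul_mul_assoc, Matrix.trace_smul, h.2 l hl, smul_zero]⟩ }
  let R : Submodule ℂ (Mat r) :=
    { carrier := {Y | Commute a Y ∧ (∀ v, Commute (tgens σ v) Y) ∧ Y.trace = 0}
      zero_mem' := ⟨Commute.zero_right a, fun v => Commute.zero_right _, Matrix.trace_zero _ _⟩
      add_mem' := fun h h' => ⟨h.1.add_right h'.1, fun v => (h.2.1 v).add_right (h'.2.1 v), by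
        rw [Matrix.trace_add, h.2.2, h'.2.2, add_zero]⟩
      smul_mem' := fun c Y h => ⟨h.1.smul_right c, fun v => (h.2.1 v).smul_right c, by
        rw [Matrix.trace_smul, h.2.2, smul_zero]⟩ }
  have hlocal : ∀ (σ' : Handles n (SLC r)), relator σ' = 1 → (2 ≤ n ∨ NonScalar σ') →
      FirstOrd σ' → ∀ Y : Mat r,
      (∀ v, Commute (tgens σ' v) Y) → ∃ l : ℂ, (Y - l • 1) ^ (r + 1) = 0 := by
    intro σ' hσ' hNS' hFO' Y hY
    obtain ⟨ΛY, PY, hSY⟩ := exists_spec Y
    obtain ⟨l, hl⟩ : ΛY.Nonempty := Finset.nonempty_iff_ne_empty.2 fun h => by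
      have := hSY.sum; rw [h, Finset.sum_empty] at this; exact zero_ne_one this
    refine ⟨l, ?_⟩
    rcases no_idem hn hσ' hNS' hFO' (hSY.idem hl) (fun v => (hSY.commute hl (hY v).symm).symm) with h | h
    · exact absurd h (hSY.ne l hl)
    · simpa [h] using hSY.nil l hl
  have hnil : ∀ Y ∈ R, IsNilpotent Y := fun Y hY => by
    obtain ⟨l, hl⟩ := hlocal σ hσ hNSσ hFO Y hY.2.1
    have h0 := trace_nilpotent ⟨_, hl⟩
    rw [Matrix.trace_sub, hY.2.2, Matrix.trace_smul, Matrix.trace_one, zero_sub, neg_eq_zero,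
      smul_eq_zero] at h0
    rw [h0.resolve_right (by simp [NeZero.ne r]), zero_smul, sub_zero] at hl
    exact ⟨_, hl⟩
  have hmul : ∀ Y ∈ R, ∀ W ∈ R, Y * W ∈ R := fun Y hY W hW => by
    refine ⟨hY.1.mul_right hW.1, fun v => (hY.2.1 v).mul_right (hW.2.1 v), ?_⟩
    obtain ⟨l, hl⟩ := hlocal σ hσ hNSσ hFO (Y * W) fun v => (hY.2.1 v).mul_right (hW.2.1 v)
    rcases eq_or_ne l 0 with rfl | hl0
    · exact trace_nilpotent ⟨_, by simpa using hl⟩
    · exfalso
      have hu : IsUnit (Y * W) := by
        have : IsUnit (l • (1 : Mat r) + (Y * W - l • 1)) :=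
          IsNilpotent.isUnit_add_left_of_commute ⟨_, hl⟩
            (Units.isUnit (Units.mk0 l hl0) |>.map (Matrix.scalar (Fin r)) |> fun h => by
              simpa [Matrix.scalar_apply, Matrix.smul_one_eq_diagonal] using h)
            ((Commute.one_right _).smul_right l)
        simpa using this
      obtain ⟨k, hk⟩ := hnil Y hY
      have hdY : Y.det ^ k = 0 := by rw [← Matrix.det_pow, hk, Matrix.det_zero]
      have := (Matrix.isUnit_iff_isUnit_det _).1 hu
      rw [Matrix.det_mul, eq_zero_of_pow_eq_zero hdY, zero_mul] at this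
      exact not_isUnit_zero this
  have hRD : R ≤ D₀ := fun Y hY => ⟨hY.1, fun l hl =>
    trace_nilpotent ((show Commute Y (P l) from (hS.commute hl hY.1).symm).isNilpotent_mul_right
      (hnil Y hY))⟩
  let ψ : R →ₗ[ℂ] Mat r :=
    R.subtype - (LinearMap.mulLeft ℂ (σ.2 0)⁻¹.val ∘ₗ LinearMap.mulRight ℂ (σ.2 0).val) ∘ₗ R.subtype
  have hψ : ∀ Y : R, ψ Y = Y - (σ.2 0)⁻¹.val * Y * (σ.2 0).val := fun Y => by
    simp [ψ, Matrix.mul_assoc]
  have hsur : D₀ ≤ LinearMap.range ψ := by
    rintro Z ⟨hZ, hZP⟩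
    have ha0 : ∀ l ∈ Λ, l ≠ 0 := by
      rintro l hl rfl
      have h := hS.nil 0 hl
      rw [zero_smul, sub_zero, (hPa 0 hl).symm.mul_pow,
        IsIdempotentElem.pow_succ_eq r (hS.idem hl)] at h
      refine hS.ne 0 hl ?_
      have := congrArg (((σ.1 0)⁻¹.val) ^ (r + 1) * ·) h
      simpa [← Matrix.mul_assoc, ← Matrix.SpecialLinearGroup.coe_pow,
        ← Matrix.SpecialLinearGroup.coe_mul, ha, -Matrix.SpecialLinearGroup.coe_inv] using this
    let φ : (Var n r → ℂ) →ₗ[ℂ] ℂ :=
      { toFun := fun τ => (Z * tl (matOf τ (0, false))).trace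
        map_add' := fun τ τ' => by
          rw [show matOf (τ + τ') ((0 : Fin (n + 1)), false) =
            matOf τ (0, false) + matOf τ' (0, false) from rfl]
          simp [tl, add_div, add_smul, mul_add, mul_sub]
          abel
        map_smul' := fun c τ => by
          rw [show matOf (c • τ) ((0 : Fin (n + 1)), false) = c • matOf τ (0, false) from rfl,
            tl_smul]
          simp }
    have hφ : ∀ τ, relD σ τ = 0 → φ τ = 0 := fun τ hτ => by
      have h := hmain τ hτ (Z * (σ.1 0)⁻¹.val) (hZ.mul_right (commute_inv_val (Commute.refl _)).symm)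
        fun l hl => by
          have h1 := hS.trace_block hl (Z := Z * (σ.1 0)⁻¹.val)
            (hZ.mul_right (commute_inv_val (Commute.refl _)).symm) Polynomial.X
          rw [aeval_X, eval_X, ← Matrix.mul_assoc a, ← Matrix.mul_assoc a, hZ.eq,
            Matrix.mul_assoc Z a, ha, val_mul_inv, Matrix.mul_one, hZP l hl, zero_eq_mul] at h1
          exact h1.resolve_left (ha0 l hl)
      rwa [Matrix.mul_assoc, ← Matrix.mul_assoc _ a, ha, val_inv_mul, Matrix.one_mul] at h
    let G : (Var n r → ℂ) →ₗ[ℂ] (Idx r → ℂ) := fderiv ℂ (relMap σ) 0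
    have hker : φ ∈ (LinearMap.ker G).dualAnnihilator := by
      rw [Submodule.mem_dualAnnihilator]
      intro τ hτ
      refine hφ τ ?_
      have h := LinearMap.mem_ker.1 hτ
      change fderiv ℂ (relMap σ) 0 τ = 0 at h
      rw [fderiv_relMap hσ] at h
      refine Matrix.ext fun i j => ?_
      by_cases hij : (i, j) = (0, 0)
      · obtain ⟨rfl, rfl⟩ := Prod.mk.injEq .. ▸ hij
        have htr : (relD σ τ).trace = 0 := trace_relD σ τ
        rw [Matrix.trace, Finset.sum_eq_single 0 (fun k _ hk => by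
          have := congrFun h ⟨(k, k), fun e => hk (congrArg Prod.fst e)⟩
          simpa using this) (by simp)] at htr
        simpa using htr
      · simpa using congrFun h ⟨(i, j), hij⟩
    rw [← LinearMap.range_dualMap_eq_dualAnnihilator_ker] at hker
    obtain ⟨ψ', hψ'⟩ := hker
    obtain ⟨Y, -, hY⟩ := exists_trace_rep ψ'
    have hpair : ∀ τ, (Y * relD σ τ).trace = (Z * tl (matOf τ (0, false))).trace := fun τ => by
      rw [← hY, ← fderiv_relMap hσ τ]
      exact LinearMap.congr_fun hψ' τ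
    have htail := commute_of_relD_tail σ (Y := Y) fun τ hτ => by
      rw [hpair, show matOf τ ((0 : Fin (n + 1)), false) = 0 from Matrix.ext fun i j => hτ _ (i, j)]
      simp [tl]
    set C₀ := comm σ 0 with hC₀
    have hC : Commute C₀.val (C₀⁻¹.val * Y * C₀.val) := commute_comm_zero hσ htail
    have hY' : C₀⁻¹.val * Y * C₀.val = Y := by
      have := fix_of_commute hC
      have e := congrArg (fun W => C₀.val * W * C₀⁻¹.val) this
      simp only [← Matrix.mul_assoc, val_mul_inv, Matrix.one_mul] at e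
      simp only [Matrix.mul_assoc, val_mul_inv, Matrix.mul_one] at e
      simp only [Matrix.mul_assoc]
      exact e
    rw [hY'] at htail
    set a₀ := σ.1 0
    set b₀ := σ.2 0
    have hzt : Z.trace = 0 := by
      rw [← Matrix.mul_one Z, ← hS.sum, Finset.mul_sum, Matrix.trace_sum]
      exact Finset.sum_eq_zero hZP
    have hslot : ∀ α β : Mat r, α.trace = 0 → β.trace = 0 →
        (Y * pairD a₀ b₀ α β).trace = (Z * α).trace := by
      intro α β hα hβ
      let τ : Var n r → ℂ := fun v => Fin.cases (motive := fun _ => ℂ)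
        (if v.1.2 then β v.2.1 v.2.2 else α v.2.1 v.2.2) (fun _ => 0) v.1.1
      have e0 : matOf τ (0, false) = α := by ext; simp [matOf, τ]
      have e1 : matOf τ (0, true) = β := by ext; simp [matOf, τ]
      have e2 : ∀ (i : Fin n) b, matOf τ (i.succ, b) = 0 := fun i b => by ext; simp [matOf, τ]
      have h := hpair τ
      rw [e0, tl_of_trace hα] at h
      rw [← h]
      simp only [relD, prodD, e0, e1, e2, tl_of_trace hα, tl_of_trace hβ,
        tl_of_trace (Matrix.trace_zero (Fin r) ℂ)]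
      simp only [pairD, map_zero, add_zero, sub_zero]
      rw [show (fun _ : Fin n => (0 : Mat r)) = (0 : ℂ) • (0 : Fin n → Mat r) by simp; rfl,
        prodD_smul, zero_smul, map_zero, add_zero]
    set u := (a₀ * b₀)⁻¹.val * Y * (a₀ * b₀).val with hu
    have hua : Commute a₀.val u := by
      have h2 : u = (a₀⁻¹)⁻¹.val * u * a₀⁻¹.val :=
        eq_of_trace_pair (trace_conj_eq a₀⁻¹ u).symm fun β hβ => by
          have := hslot 0 β (Matrix.trace_zero _ _) hβ
          rwa [trace_pairD, conj_conj (a₀ * b₀) a₀⁻¹, ← hu, mul_zero, mul_zero, Matrix.trace_zero,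
            zero_add, sub_mul, Matrix.trace_sub, sub_eq_zero] at this
      rw [inv_inv] at h2
      show a₀.val * u = u * a₀.val
      conv_rhs => rw [h2]
      rw [Matrix.mul_assoc, val_inv_mul, Matrix.mul_one]
    set v := a₀⁻¹.val * Y * a₀.val with hv
    have hub : u = b₀⁻¹.val * v * b₀.val := conj_conj a₀ b₀ Y
    have hZv : Z = v - u := eq_of_trace_pair
      (by rw [Matrix.trace_sub, hv, hu, trace_conj_eq, trace_conj_eq, sub_self, hzt])
      fun α hα => by
        have := hslot α 0 hα (Matrix.trace_zero _ _)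
        rw [trace_pairD, ← hu, ← hv, mul_zero, Matrix.trace_zero, add_zero] at this
        exact this.symm
    have hab : a₀ * b₀ = C₀ * (b₀ * a₀) := by simp [hC₀, comm, a₀, b₀, mul_assoc]
    have hu' : u = a₀⁻¹.val * (b₀⁻¹.val * Y * b₀.val) * a₀.val := by
      rw [hu, hab, conj_conj, hY', conj_conj]
    have huY : b₀⁻¹.val * Y * b₀.val = u := by
      have h := fix_of_commute hua
      have c1 : ∀ W : Mat r, a₀.val * (a₀⁻¹.val * W * a₀.val) * a₀⁻¹.val = W := fun W => by
        simp only [← Matrix.mul_assoc, val_mul_inv, Matrix.one_mul]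
        rw [Matrix.mul_assoc, val_mul_inv, Matrix.mul_one]
      have := congrArg (fun W => a₀.val * W * a₀⁻¹.val) (hu'.symm.trans h.symm)
      simp only [c1] at this
      exact this
    have hvY : v = Y := by
      have h := hub.symm.trans huY.symm
      have := congrArg (fun W => b₀.val * W * b₀⁻¹.val) h
      simp only [← Matrix.mul_assoc, val_mul_inv, Matrix.one_mul] at this
      simp only [Matrix.mul_assoc, val_mul_inv, Matrix.mul_one] at this
      exact this
    have hYa : Commute a Y := adj_fix hvY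
    refine ⟨⟨tl Y, (show Commute a (tl Y) from hYa.sub_right ((Commute.one_right a).smul_right _)),
      fun w => (htail w).sub_right ((Commute.one_right _).smul_right _),
      trace_tl (NeZero.ne r) Y⟩, ?_⟩
    rw [hψ, hZv, hvY, ← huY]
    simp only [tl, mul_sub, sub_mul, mul_smul_comm, smul_mul_assoc, Matrix.mul_one, val_inv_mul]
    abel
  have hdim : LinearMap.range ψ = D₀ ∧ R = D₀ := by
    have h1 := Submodule.finrank_mono hsur
    have h2 := LinearMap.finrank_range_le ψ
    exact ⟨(Submodule.eq_of_le_of_finrank_le hsur (h2.trans (Submodule.finrank_mono hRD))).symm,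
      Submodule.eq_of_le_of_finrank_le hRD (h1.trans h2)⟩
  obtain ⟨v, hv0, hv⟩ := exists_common_kernel (Nat.pos_of_ne_zero (NeZero.ne r)) R hnil hmul
  let K : Submodule ℂ (Fin r → ℂ) :=
    { carrier := {v | ∀ Y ∈ R, Y *ᵥ v = 0}
      zero_mem' := fun Y _ => Matrix.mulVec_zero Y
      add_mem' := fun h h' Y hY => by rw [Matrix.mulVec_add, h Y hY, h' Y hY, add_zero]
      smul_mem' := fun c v h Y hY => by rw [Matrix.mulVec_smul, h Y hY, smul_zero] }
  have hK : ∀ g, ∀ w ∈ K, gens σ g *ᵥ w ∈ K := by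
    rintro ⟨i, b⟩ w hw Y hY
    induction i using Fin.cases with
    | succ i =>
      have h : Commute (gens σ (i.succ, b)) Y := hY.2.1 (i, b)
      rw [Matrix.mulVec_mulVec, ← h.eq, ← Matrix.mulVec_mulVec, hw Y hY, Matrix.mulVec_zero]
    | zero =>
      cases b
      · rw [gens_zero, Matrix.mulVec_mulVec, ← hY.1.eq, ← Matrix.mulVec_mulVec, hw Y hY,
          Matrix.mulVec_zero]
      · show Y *ᵥ ((σ.2 0).val *ᵥ w) = 0
        have h1 : ψ ⟨Y, hY⟩ ∈ R := hdim.2.ge (hdim.1.le (LinearMap.mem_range_self ψ _))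
        have h2 : (σ.2 0)⁻¹.val * Y * (σ.2 0).val ∈ R := by
          have := R.sub_mem hY h1
          rwa [hψ, sub_sub_cancel] at this
        have h3 := hw _ h2
        rw [← Matrix.mulVec_mulVec, ← Matrix.mulVec_mulVec] at h3
        have := congrArg ((σ.2 0).val *ᵥ ·) h3
        simpa [Matrix.mulVec_mulVec, ← Matrix.mul_assoc, val_mul_inv,
          -Matrix.SpecialLinearGroup.coe_inv] using this
  have hR0 : ∀ Y ∈ R, Y = 0 := fun Y hY => by
    rcases hFull.invariant hK with h | h
    · exact absurd (show v ∈ (⊥ : Submodule ℂ (Fin r → ℂ)) from h ▸ hv) (by simpa using hv0)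
    · refine Matrix.ext_of_mulVec_single fun i => ?_
      rw [(h ▸ Submodule.mem_top : (Pi.single i 1 : Fin r → ℂ) ∈ K) Y hY, Matrix.zero_mulVec]
  have hD : ∀ X, Commute a X → X = ∑ l ∈ Λ, ((X * P l).trace / (P l).trace) • P l := fun X hX => by
    refine sub_eq_zero.1 (hR0 _ (hdim.2.ge (show _ ∈ D₀ from ⟨?_, fun l hl => ?_⟩)))
    · exact hX.sub_right (Commute.sum_right _ _ _ fun l hl => (hPa l hl).symm.smul_right _)
    · rw [sub_mul, Matrix.trace_sub, Finset.sum_mul, Matrix.trace_sum,
        Finset.sum_eq_single l (fun m hm hml => by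
          rw [smul_mul_assoc, hS.mul m hm l hl, if_neg hml, smul_zero, Matrix.trace_zero])
          (fun h => absurd hl h), smul_mul_assoc, hS.idem hl, Matrix.trace_smul, smul_eq_mul,
        div_mul_cancel₀ _ (hS.trace_ne hl), sub_self]
  have hNSr : 2 ≤ n ∨ NonScalar (rot σ) := by
    rcases Nat.lt_or_ge n 2 with h | h
    · obtain rfl : n = 1 := by omega
      exact Or.inr (nonScalar_rot hσ (hNSσ.resolve_left (by omega)))
    · exact Or.inl h
  intro Y hY
  have hYa : Commute a Y := by
    have hlast : Fin.last n = (⟨n - 1, by omega⟩ : Fin n).succ := by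
      ext; simp [Fin.last]; omega
    have h := hY (⟨n - 1, by omega⟩, false)
    simp only [tgens, gens_rot, ← hlast, finRotate_last, gens_zero, ← ha] at h
    exact h
  obtain ⟨l, hl⟩ := hlocal (rot σ) hσr hNSr hFOr Y hY
  refine ⟨l, ?_⟩
  set c : ℂ → ℂ := fun m => (Y * P m).trace / (P m).trace
  have hYc : Y = ∑ m ∈ Λ, c m • P m := hD Y hYa
  rw [hYc]
  conv_rhs => rw [← hS.sum, Finset.smul_sum]
  refine Finset.sum_congr rfl fun m hm => ?_
  congr 1
  have hkey : ∀ k : ℕ, (Y - l • 1) ^ k * P m = (c m - l) ^ k • P m := by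
    intro k
    induction k with
    | zero => simp
    | succ k ih =>
      have h1 : (Y - l • 1) * P m = (c m - l) • P m := by
        rw [hYc, sub_mul, Finset.sum_mul, Finset.sum_eq_single m (fun x hx hxm => by
          rw [smul_mul_assoc, hS.mul x hx m hm, if_neg hxm, smul_zero]) (fun h => absurd hm h),
          smul_mul_assoc, hS.idem hm, smul_mul_assoc, Matrix.one_mul, sub_smul]
      rw [pow_succ, Matrix.mul_assoc, h1, mul_smul_comm, ih, smul_smul, pow_succ']
  have := hkey (r + 1)
  rw [hl, Matrix.zero_mul, eq_comm, smul_eq_zero] at this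
  exact sub_eq_zero.1 (eq_zero_of_pow_eq_zero (this.resolve_right (hS.ne m hm)))

/-- Irreducible representations are limits of representations whose last handles have scalar
centraliser. -/
theorem exists_near_triv [NeZero r] (hn : 1 ≤ n) {σ₀ : Handles n (SLC r)} (hσ₀ : relator σ₀ = 1)
    (hF₀ : Full (gens σ₀)) {ε : ℝ} (hε : 0 < ε) :
    ∃ σ : Handles n (SLC r), relator σ = 1 ∧ dist (coord σ) (coord σ₀) < ε ∧ Triv (tgens σ) := by
  rcases Nat.lt_or_ge r 2 with hr | hr
  · have : Subsingleton (Fin r) := ⟨fun a b => Fin.ext (by omega)⟩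
    refine ⟨σ₀, hσ₀, by simpa using hε, fun Y _ => ⟨Y 0 0, Matrix.ext fun i j => ?_⟩⟩
    rw [Subsingleton.elim i 0, Subsingleton.elim j 0]
    simp
  have hF' : Full (gens (rotInv σ₀)) := hF₀.comp
    (π := fun v : Fin (n + 1) × Bool => ((finRotate (n + 1)).symm v.1, v.2))
      fun v => ⟨(finRotate (n + 1) v.1, v.2), by simp⟩
  have hstart : ∃ σ₁ : Handles n (SLC r), relator σ₁ = 1 ∧
      dist (coord σ₁) (coord (rotInv σ₀)) < ε / 2 ∧ Full (gens σ₁) ∧
      (2 ≤ n ∨ NonScalar σ₁) := by
    rcases Nat.lt_or_ge n 2 with h | h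
    · obtain rfl : n = 1 := by omega
      obtain ⟨σ₁, h1, h2, h3, h4⟩ :=
        exists_near_nonScalar hr (rotInv_relator hσ₀) hF' (half_pos hε)
      exact ⟨σ₁, h1, h2, h3, Or.inr h4⟩
    · exact ⟨_, rotInv_relator hσ₀, by simpa using half_pos hε, hF', Or.inl h⟩
  obtain ⟨σ₁, h1, h2, h3, h4⟩ := hstart
  obtain ⟨σ, hσ, hd', hT⟩ := exists_triv_rot hn h1 h3 h4 (half_pos hε)
  have hd : dist (coord σ) (coord (rotInv σ₀)) < ε :=
    (dist_triangle _ _ _).trans_lt (by linarith)
  refine ⟨rot σ, rot_relator hσ, (dist_coord_lt hε).2 fun v p q => ?_, hT⟩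
  have := (dist_coord_lt hε).1 hd (finRotate (n + 1) v.1, v.2) p q
  simpa [gens, rot, rotInv] using this

end Vale.Agent.P002
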