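import Vale.Agent.P002.Chart

/-!
The neighbourhood theorem.
-/

namespace Vale.Agent.P002

open Matrix MvPolynomial Filter Topology
open scoped ContDiff

variable {r n : ℕ}

/-- Parameters of the chart. -/
abbrev Par (n r N : ℕ) := (Fin (n + 1) → Fin r × Fin r → ℂ) × (Fin N → ℂ)

/-- The chart. -/
noncomputable def chart (A : Fin (n + 1) → SLC r) {N : ℕ} (L : Fin N → List (Fin n))
    (p : Par n r N) : Var n r → ℂ :=
  coord (flow L p.2 (base A p.1))

/-- Some representation has a neighbourhood in the closure of the integral representations. -/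
theorem exists_nbhd_span (hr : 2 ≤ r) (hn : 2 ≤ n) : ∃ A : Fin (n + 1) → SLC r,
    Submodule.span ℂ (Set.range fun l => (vw A l).val) = ⊤ ∧
    ∀ᶠ g in 𝓝 (coord ((A, fun _ => 1) : Handles n (SLC r))),
      ∀ ρ : Handles n (SLC r), relator ρ = 1 → coord ρ = g → ρ ∈ Zd n r := by
  obtain ⟨A, hspan, hgood⟩ := exists_seed hr hn
  refine ⟨A, hspan, ?_⟩
  have hr0 : r ≠ 0 := by omega
  have : NeZero r := ⟨hr0⟩
  obtain ⟨f, hfmem, hfspan, -⟩ :=
    Submodule.exists_fun_fin_finrank_span_eq ℂ (Set.range (dir A))
  generalize Module.finrank ℂ (Submodule.span ℂ (Set.range (dir A))) = N at f hfmem hfspan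
  choose L hL using hfmem
  let Φ : Par n r N → Var n r → ℂ := chart A L
  have hbase : ∀ p : Par n r N, base A p.1 ∈ Zd n r := fun p => slice_mem hr _
  have hmem : ∀ p : Par n r N, flow L p.2 (base A p.1) ∈ Zd n r := fun p => by
    have := flow_mem hr0 hgood L p.2 (σ := fun s => base A (s • p.1))
      (smooth_base A fun i q => by simpa using contDiff_id.mul contDiff_const)
      (fun s => slice_mem hr _) (by rw [zero_smul]; exact base_zero A) 1
    simpa using this
  have hΦ0 : Φ 0 = coord ((A, fun _ => 1) : Handles n (SLC r)) := by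
    simp [Φ, chart, flow_zero, base_zero]
  have hsmooth : ContDiff ℂ ω Φ := SmoothH.coord <|
    smooth_flow L (smooth_base A fun i q => (contDiff_apply_apply ℂ ℂ i q).comp contDiff_fst)
      fun k => (contDiff_apply ℂ ℂ k).comp contDiff_snd
  have hΦd := hsmooth.contDiffAt.hasStrictFDerivAt (x := (0 : Par n r N)) (by simp)
  have hFd := (contDiff_cons' (n := n) (r := r)).contDiffAt.hasStrictFDerivAt (x := Φ 0) (by simp)
  set Ld := fderiv ℂ Φ 0
  set D := fderiv ℂ (cons' (n := n) (r := r)) (Φ 0)
  have hconst : ∀ p, cons' (Φ p) = cons' (Φ 0) := fun p =>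
    (cons'_coord (hmem p).1).trans (cons'_coord (hmem 0).1).symm
  have hDL : ∀ v, D (Ld v) = 0 := fun v => by
    have h1 : HasFDerivAt (cons' ∘ Φ) (D.comp Ld) 0 :=
      hFd.hasFDerivAt.comp 0 hΦd.hasFDerivAt
    have h2 : HasFDerivAt (cons' ∘ Φ)
        (0 : Par n r N →L[ℂ] (Fin (n + 1) × Bool → ℂ) × (Fin r × Fin r → ℂ)) 0 := by
      rw [show cons' ∘ Φ = fun _ => cons' (Φ 0) from funext hconst]
      exact hasFDerivAt_const _ _
    exact congrArg (fun T => T v) (h1.unique h2)
  have hline : ∀ v, HasDerivAt (fun s : ℂ => Φ (s • v)) (Ld v) 0 := fun v => by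
    have h : HasDerivAt (fun s : ℂ => s • v) v 0 := by
      simpa using (hasDerivAt_id (0 : ℂ)).smul_const v
    exact hΦd.hasFDerivAt.comp_hasDerivAt_of_eq 0 h (zero_smul ℂ v).symm
  have hentry : ∀ v i b, HasD (fun s => matOf (Φ (s • v)) (i, b)) (matOf (Ld v) (i, b)) :=
    fun v i b p q => hasDerivAt_pi.1 (hline v) ((i, b), p, q)
  have hstp : ∀ k i, matOf (Ld (0, Pi.single k 1)) (i, true) = dir A (L k) i := fun k i => by
    have hσ : SmoothH fun s : ℂ => twist (bwds (L k) ((A, fun _ => 1) : Handles n (SLC r)))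
        (expT s ((bwds (L k) ((A, fun _ => 1) : Handles n (SLC r))).1 0)) := fun j => by
      refine ⟨Smooth.const ((bwds (L k) ((A, fun _ => 1) : Handles n (SLC r))).1 j).val, ?_⟩
      by_cases hj : j = 0
      · subst hj
        simp only [twist, Function.update_self]
        exact (Smooth.const _).mul (Smooth.exp fun a b => by simpa using contDiff_id.mul contDiff_const)
      · simp only [twist, Function.update_of_ne hj]
        exact Smooth.const _
    have h1 := fwds_deriv (L k) hσ (A := Function.update A 0 (A 0 * vw A (L k)))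
      (β := Pi.single 0 (tl (A 0 * vw A (L k)).val))
      (by simp only [expT_zero, bwds_base, twist, mul_one, Function.update_eq_self])
      (fun j => by
        by_cases hj : j = 0
        · subst hj
          have e : (fun s : ℂ => ((twist (bwds (L k) ((A, fun _ => 1) : Handles n (SLC r)))
              (expT s ((bwds (L k) ((A, fun _ => 1) : Handles n (SLC r))).1 0))).2 0).val) =
              fun s => (expT s (A 0 * vw A (L k))).val :=
            funext fun s => congrArg Subtype.val (by simp [twist, bwds_base]; rfl)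
          rw [e, Pi.single_eq_same]
          exact hasD_exp _
        · simpa [twist, bwds_base, hj] using hasD_const (1 : Mat r)) i
    rw [steps_update] at h1
    refine (hentry (0, Pi.single k 1) i true).unique ?_
    have e : ∀ s : ℂ, matOf (Φ (s • ((0 : Fin (n + 1) → Fin r × Fin r → ℂ), Pi.single k 1)))
        (i, true) = ((stp (L k) s (A, fun _ => 1)).2 i).val := fun s => by
      rw [show s • ((0 : Fin (n + 1) → Fin r × Fin r → ℂ), (Pi.single k 1 : Fin N → ℂ)) =
        (0, Pi.single k s) by simp [Prod.smul_mk, ← Pi.single_smul]]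
      simp only [Φ, chart, flow_single, base_zero, (matOf_coord _ i).2]
    rw [show (fun s : ℂ => matOf (Φ (s • ((0 : Fin (n + 1) → Fin r × Fin r → ℂ), Pi.single k 1)))
      (i, true)) = fun s => ((stp (L k) s (A, fun _ => 1)).2 i).val from funext e]
    exact h1
  have hbaseD : ∀ (γ : Fin (n + 1) → Fin r × Fin r → ℂ) i,
      matOf (Ld (γ, 0)) (i, true) = 0 ∧
        matOf (Ld (γ, 0)) (i, false) = (A i).val * tl (Matrix.of fun a b => γ i (a, b)) := by
    intro γ i
    have e : ∀ s : ℂ, Φ (s • (γ, (0 : Fin N → ℂ))) = coord (base A (s • γ)) := fun s => by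
      simp [Φ, chart, Prod.smul_mk, flow_zero]
    refine ⟨(hentry (γ, 0) i true).unique ?_, (hentry (γ, 0) i false).unique ?_⟩
    · simp only [e, (matOf_coord _ i).2]
      exact hasD_const _
    · have htl : ∀ s : ℂ, tl (Matrix.of fun a b => (s • γ) i (a, b)) =
          s • tl (Matrix.of fun a b => γ i (a, b)) := fun s => by
        rw [show (Matrix.of fun a b => (s • γ) i (a, b)) =
          s • Matrix.of (fun a b => γ i (a, b)) from rfl]
        simp [tl, Matrix.trace, Finset.mul_sum, Finset.sum_div, smul_sub, smul_smul, mul_div_assoc]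
      simp only [e, (matOf_coord _ i).1]
      simp only [base, expM, htl]
      exact ((hasD_const (A i).val).mul (hasD_exp _)).congr (by simp)
  have hker : ∀ w, D w = 0 → ∃ x, Ld x = w := fun w hw => by
    have hDA : HasStrictFDerivAt cons' D (coord ((A, fun _ => 1) : Handles n (SLC r))) := by
      rw [← hΦ0]; exact hFd
    obtain ⟨-, hK⟩ := ker_cons' A hDA hw
    have hb := inK_mem_span hspan hK
    rw [← hfspan, Submodule.mem_span_range_iff_exists_fun] at hb
    obtain ⟨c, hc⟩ := hb
    set w₁ := Ld (0, c) with hw₁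
    have hw₁b : ∀ i, matOf w₁ (i, true) = matOf w (i, true) := fun i => by
      have e : ((0 : Fin (n + 1) → Fin r × Fin r → ℂ), c) =
          ∑ k, c k • ((0 : Fin (n + 1) → Fin r × Fin r → ℂ), (Pi.single k 1 : Fin N → ℂ)) := by
        refine Prod.ext (by simp [Prod.fst_sum]) ?_
        simp [Prod.snd_sum, ← Pi.single_smul, Finset.univ_sum_single]
      rw [hw₁, e, map_sum]
      rw [show matOf w (i, true) = (∑ k, c k • f k) i by rw [hc]]
      ext a b
      simp only [map_smul, matOf, Matrix.of_apply, Finset.sum_apply, Pi.smul_apply,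
        Matrix.sum_apply, Matrix.smul_apply]
      refine Finset.sum_congr rfl fun k _ => ?_
      rw [← hL k, ← hstp k i]
      rfl
    obtain ⟨hA', -⟩ := ker_cons' A hDA (w := w - w₁) (by rw [map_sub, hw, hw₁, hDL, sub_zero])
    let γ : Fin (n + 1) → Fin r × Fin r → ℂ := fun i p =>
      ((A i)⁻¹.val * matOf (w - w₁) (i, false)) p.1 p.2
    refine ⟨(γ, 0) + (0, c), ?_⟩
    rw [map_add, ← hw₁, ← eq_sub_iff_add_eq]
    funext v
    obtain ⟨⟨i, b⟩, p, q⟩ := v
    cases b
    · have h := congrFun (congrFun (hbaseD γ i).2 p) q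
      simp only [tl, γ] at h
      rw [show Matrix.of (fun a b => ((A i)⁻¹.val * matOf (w - w₁) (i, false)) a b) =
        (A i)⁻¹.val * matOf (w - w₁) (i, false) from rfl, hA', zero_div, zero_smul, sub_zero,
        ← Matrix.mul_assoc, val_mul_inv, Matrix.one_mul] at h
      exact h
    · have h := congrFun (congrFun (hbaseD γ i).1 p) q
      have h' := congrFun (congrFun (hw₁b i) p) q
      simp only [matOf, Matrix.of_apply, Matrix.zero_apply] at h h'
      simp [h, h']
  have hloc := local_image hΦd hFd hconst hker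
  rw [hΦ0] at hloc
  filter_upwards [hloc] with g hg ρ hρ hρg
  refine ⟨hρ, ?_⟩
  have hF : cons' g = cons' (coord ((A, fun _ => 1) : Handles n (SLC r))) := by
    rw [← hρg, ← hΦ0, cons'_coord hρ]
    exact (cons'_coord (hmem 0).1).symm
  obtain ⟨x, hx⟩ := hg hF
  rw [hρg, ← hx]
  exact (hmem x).2

end Vale.Agent.P002
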