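import Vale.Agent.P002.Companion
import Vale.Agent.P002.Nbhd

/-!
Paths in the special linear group, and perturbations with prescribed first handle.
-/

namespace Vale.Agent.P002

open Matrix Filter Topology
open scoped ContDiff
open Matrix.SpecialLinearGroup (transvection)

variable {r n : ℕ}

lemma exists_path_one (hr : 2 ≤ r) (M : SLC r) :
    ∃ f : ℂ → SLC r, (Smooth fun s => (f s).val) ∧ f 0 = 1 ∧ f 1 = M := by
  have : Nontrivial (Fin r) := Fin.nontrivial_iff_two_le.2 hr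
  have htr : ∀ (a b : Fin r) (h : a ≠ b) (t : ℂ),
      ∃ f : ℂ → SLC r, (Smooth fun s => (f s).val) ∧ f 0 = 1 ∧ f 1 = transvection h t := by
    refine fun a b h t => ⟨fun s => transvection h (s * t), fun i j => ?_, ?_, by simp⟩
    · simp only [Matrix.SpecialLinearGroup.transvection_coe, Matrix.add_apply, Matrix.single_apply]
      refine contDiff_const.add ?_
      split_ifs
      · exact contDiff_id.mul contDiff_const
      · exact contDiff_const
    · exact Subtype.ext (by simp [Matrix.SpecialLinearGroup.transvection_coe])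
  have hmul : ∀ M N : SLC r, (∃ f : ℂ → SLC r, (Smooth fun s => (f s).val) ∧ f 0 = 1 ∧ f 1 = M) →
      (∃ f : ℂ → SLC r, (Smooth fun s => (f s).val) ∧ f 0 = 1 ∧ f 1 = N) →
      ∃ f : ℂ → SLC r, (Smooth fun s => (f s).val) ∧ f 0 = 1 ∧ f 1 = M * N := by
    rintro M N ⟨f, hf, hf0, hf1⟩ ⟨g, hg, hg0, hg1⟩
    exact ⟨fun s => f s * g s, hf.mul hg, by simp [hf0, hg0], by simp [hf1, hg1]⟩
  refine Matrix.SpecialLinearGroup.diagonal_transvection_induction'
    (fun M => ∃ f : ℂ → SLC r, (Smooth fun s => (f s).val) ∧ f 0 = 1 ∧ f 1 = M) M ?_ htr hmul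
  intro a b hab c hc
  have e : Matrix.SpecialLinearGroup.diag2n hab c hc =
      transvection hab c * transvection hab.symm (-c⁻¹) * transvection hab c *
        (transvection hab (-1) * transvection hab.symm 1 * transvection hab (-1)) := by
    refine Subtype.ext (Matrix.ext fun p q => ?_)
    simp [Matrix.SpecialLinearGroup.diag2n, Matrix.SpecialLinearGroup.transvection_coe,
      mul_add, add_mul, single_mul_single_of_ne, hab, hab.symm, Matrix.one_apply,
      Matrix.single_apply, Matrix.diagonal_apply, Function.update_apply]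
    by_cases hp : p = a <;> by_cases hp' : p = b <;> by_cases hq : q = a <;>
      by_cases hq' : q = b <;> simp_all [eq_comm] <;> field_simp
  rw [e]
  exact hmul _ _ (hmul _ _ (hmul _ _ (htr _ _ hab c) (htr _ _ hab.symm _)) (htr _ _ hab c))
    (hmul _ _ (hmul _ _ (htr _ _ hab _) (htr _ _ hab.symm _)) (htr _ _ hab _))

lemma exists_path (hr : 2 ≤ r) (M N : SLC r) :
    ∃ f : ℂ → SLC r, (Smooth fun s => (f s).val) ∧ f 0 = M ∧ f 1 = N := by
  obtain ⟨f, hf, hf0, hf1⟩ := exists_path_one hr (M⁻¹ * N)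
  exact ⟨fun s => M * f s, (Smooth.const _).mul hf, by simp [hf0], by simp [hf1]⟩

/-- An entire path through three prescribed points. -/
lemma exists_path₃ (hr : 2 ≤ r) (L M N : SLC r) :
    ∃ f : ℂ → SLC r, (Smooth fun s => (f s).val) ∧ f 0 = L ∧ f 1 = M ∧ f 2 = N := by
  obtain ⟨f, hf, hf0, hf1⟩ := exists_path hr L M
  obtain ⟨g, hg, hg0, hg1⟩ := exists_path_one hr ((f 2)⁻¹ * N)
  refine ⟨fun s => f s * g (s * (s - 1) / 2), hf.mul fun i j => ?_, by simp [hf0, hg0],
    by simp [hf1, hg0], ?_⟩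
  · exact (hg i j).comp ((contDiff_id.mul (contDiff_id.sub contDiff_const)).div_const 2)
  · norm_num [hg1]

/-- Countably many analytic conditions, each satisfiable, hold on a dense set of parameters. -/
lemma dense_avoid' {κ : Type*} [Countable κ] (F : κ → ℂ → ℂ) (hF : ∀ k, Differentiable ℂ (F k))
    (h : ∀ k, ∃ x, F k x ≠ 0) : Dense {s | ∀ k, F k s ≠ 0} := by
  rw [show {s | ∀ k, F k s ≠ 0} = ⋂ k, {s | F k s ≠ 0} by ext; simp]
  refine dense_iInter_of_isOpen (fun k => isOpen_ne.preimage (hF k).continuous) fun k => ?_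
  rw [dense_iff_inter_open]
  intro U hU ⟨x, hx⟩
  by_contra hne
  have hz : F k =ᶠ[nhds x] 0 := Filter.eventuallyEq_of_mem (hU.mem_nhds hx) fun y hy => by
    by_contra hy'
    exact hne ⟨y, hy, hy'⟩
  obtain ⟨z, hz'⟩ := h k
  exact hz' ((hF k).differentiableOn.analyticOnNhd isOpen_univ
    |>.eqOn_zero_of_preconnected_of_eventuallyEq_zero isPreconnected_univ (Set.mem_univ x) hz
    (Set.mem_univ z))

/-- Replace the first handle of a perturbation. -/
noncomputable def mixH (σ : Handles n (SLC r)) (P : SLC r × SLC r) (τ : Var n r → ℂ) :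
    Handles n (SLC r) :=
  (Function.update (par σ τ).1 0 P.1, Function.update (par σ τ).2 0 P.2)

lemma mixH_par {σ : Handles n (SLC r)} {τ : Var n r → ℂ} (hτ : ∀ b p, τ ((0, b), p) = 0) :
    mixH σ (σ.1 0, σ.2 0) τ = par σ τ := by
  have h : ∀ b, matOf τ (0, b) = 0 := fun b => Matrix.ext fun i j => hτ b (i, j)
  have h1 : (par σ τ).1 0 = σ.1 0 := by simp [par, h, expM_zero]
  have h2 : (par σ τ).2 0 = σ.2 0 := by simp [par, h, expM_zero]
  simp only [mixH, ← h1, ← h2, Function.update_eq_self]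

lemma range_eq_top_of_tail [NeZero r] {σ : Handles n (SLC r)} (hT : Triv (tgens σ))
    (L : (ℂ × (Var n r → ℂ)) →L[ℂ] ℂ × (Idx r → ℂ)) (hL1 : ∀ v, (L v).1 = v.1)
    (hL2 : ∀ τ, (∀ b p, τ ((0, b), p) = 0) →
      (L (0, τ)).2 = fun p => relD σ τ p.1.1 p.1.2) :
    (L : (ℂ × (Var n r → ℂ)) →ₗ[ℂ] ℂ × (Idx r → ℂ)).range = ⊤ := by
  by_contra hne
  obtain ⟨x, hx⟩ := SetLike.exists_not_mem_of_ne_top _ hne
  obtain ⟨φ, hφx, hφ⟩ := Submodule.exists_dual_map_eq_bot_of_notMem hx inferInstance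
  have hφ0 : ∀ v, φ (L v) = 0 := fun v => by
    have h := Submodule.mem_map_of_mem (f := φ) (LinearMap.mem_range_self
      (L : (ℂ × (Var n r → ℂ)) →ₗ[ℂ] ℂ × (Idx r → ℂ)) v)
    rw [hφ] at h
    simpa using h
  obtain ⟨Y, hY0, hY⟩ := exists_trace_rep (φ ∘ₗ LinearMap.inr ℂ ℂ (Idx r → ℂ))
  have hann : ∀ τ, (∀ b p, τ ((0, b), p) = 0) → (Y * relD σ τ).trace = 0 := fun τ hτ => by
    rw [← hY, ← hL2 τ hτ, LinearMap.comp_apply, LinearMap.inr_apply]
    have e : ((0 : ℂ), (L (0, τ)).2) = L (0, τ) := Prod.ext (hL1 (0, τ)).symm rfl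
    rw [e]
    exact hφ0 _
  obtain ⟨c, hc⟩ := hT _ (commute_of_relD_tail σ hann)
  have hYc : Y = c • 1 := by
    have := congrArg (fun Z => (comm σ 0).val * Z * (comm σ 0)⁻¹.val) hc
    simp only [← Matrix.mul_assoc, val_mul_inv, Matrix.one_mul] at this
    simp only [Matrix.mul_assoc, val_mul_inv, Matrix.mul_one, mul_smul_comm, smul_mul_assoc] at this
    exact this
  have hc0 : c = 0 := by simpa [hYc] using hY0
  have hinr : ∀ y : Idx r → ℂ, φ ((0 : ℂ), y) = 0 := fun y => by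
    have e : y = fun p : Idx r => (Matrix.of fun a b => if h : (a, b) ≠ (0, 0) then y ⟨(a, b), h⟩
        else 0 : Mat r) p.1.1 p.1.2 := funext fun p => by rw [Matrix.of_apply, dif_pos p.2]
    have h := hY (Matrix.of fun a b => if h : (a, b) ≠ (0, 0) then y ⟨(a, b), h⟩ else 0 : Mat r)
    rw [← e, hYc, hc0, zero_smul, Matrix.zero_mul, Matrix.trace_zero] at h
    exact h
  have h1 : φ ((1 : ℂ), 0) = 0 := by
    have h := hφ0 (1, 0)
    rw [show L (1, 0) = ((1 : ℂ), (0 : Idx r → ℂ)) + ((0 : ℂ), (L (1, 0)).2) from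
      Prod.ext (by simpa using hL1 (1, 0)) (by simp), map_add, hinr, add_zero] at h
    exact h
  refine hφx ?_
  rw [show x = x.1 • ((1 : ℂ), (0 : Idx r → ℂ)) + (0, x.2) from Prod.ext (by simp) (by simp),
    map_add, map_smul, h1, hinr, smul_zero, add_zero]

lemma lift_of_surj [NeZero r] {σ : Handles n (SLC r)} (hσ : relator σ = 1)
    (mx : ℂ × (Var n r → ℂ) → Handles n (SLC r)) (hmx : SmoothH mx) (h0 : mx 0 = σ)
    (hsurj : (fderiv ℂ (fun q => (q.1, relF (mx q))) 0 :
      (ℂ × (Var n r → ℂ)) →ₗ[ℂ] ℂ × (Idx r → ℂ)).range = ⊤) {ε : ℝ} (hε : 0 < ε) :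
    ∀ᶠ s in 𝓝 0, ∃ q, q.1 = s ∧ relator (mx q) = 1 ∧ dist (coord (mx q)) (coord σ) < ε := by
  have hΨc : ContDiff ℂ ω fun q => (q.1, relF (mx q)) := contDiff_fst.prodMk
    (contDiff_pi.2 fun p => smooth_relator hmx p.1.1 p.1.2)
  have hΨ := hΨc.contDiffAt.hasStrictFDerivAt (x := (0 : ℂ × (Var n r → ℂ))) (by simp)
  have hU : ∀ᶠ q in 𝓝 (0 : ℂ × (Var n r → ℂ)), dist (coord (mx q)) (coord σ) < ε := by
    refine ((SmoothH.coord hmx).continuous.dist continuous_const).continuousAt.eventually_lt_const ?_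
    simpa [h0] using hε
  have himg := Filter.image_mem_map (m := fun q => (q.1, relF (mx q))) hU
  rw [hΨ.map_nhds_eq_of_surj hsurj] at himg
  have hcur : Tendsto (fun s : ℂ => (s, fun p : Idx r => (1 : Mat r) p.1.1 p.1.2)) (𝓝 0)
      (𝓝 ((0 : ℂ × (Var n r → ℂ)).1, relF (mx 0))) := by
    have e : relF (mx 0) = fun p : Idx r => (1 : Mat r) p.1.1 p.1.2 := by
      funext p
      simp [relF, h0, hσ]
    rw [e]
    exact tendsto_id.prodMk_nhds tendsto_const_nhds
  filter_upwards [hcur.eventually_mem himg] with s hs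
  obtain ⟨q, hq, hqs⟩ := hs
  exact ⟨q, congrArg Prod.fst hqs, eq_one_of_relF (congrArg Prod.snd hqs), hq⟩

/-- Nearby first handles extend to nearby representations. -/
lemma lift_pair [NeZero r] {σ : Handles n (SLC r)} (hσ : relator σ = 1) (hT : Triv (tgens σ))
    (P : ℂ → SLC r × SLC r) (hP1 : Smooth fun s => (P s).1.val)
    (hP2 : Smooth fun s => (P s).2.val) (hP0 : P 0 = (σ.1 0, σ.2 0)) {ε : ℝ} (hε : 0 < ε) :
    ∀ᶠ s in 𝓝 0, ∃ σ' : Handles n (SLC r), relator σ' = 1 ∧ σ'.1 0 = (P s).1 ∧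
      σ'.2 0 = (P s).2 ∧ dist (coord σ') (coord σ) < ε := by
  let mx : ℂ × (Var n r → ℂ) → Handles n (SLC r) := fun q => mixH σ (P q.1) q.2
  have hmx : SmoothH mx := fun i => by
    have hp := smooth_par (smoothH_const (X := ℂ × (Var n r → ℂ)) σ) contDiff_snd
    by_cases hi : i = 0
    · subst hi
      simp only [mx, mixH, Function.update_self]
      exact ⟨fun a b => (hP1 a b).comp contDiff_fst, fun a b => (hP2 a b).comp contDiff_fst⟩
    · simp only [mx, mixH, Function.update_of_ne hi]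
      exact hp i
  let Ψ : ℂ × (Var n r → ℂ) → ℂ × (Idx r → ℂ) := fun q => (q.1, relF (mx q))
  have hΨc : ContDiff ℂ ω Ψ := contDiff_fst.prodMk
    (contDiff_pi.2 fun p => smooth_relator hmx p.1.1 p.1.2)
  have hΨ := hΨc.contDiffAt.hasStrictFDerivAt (x := (0 : ℂ × (Var n r → ℂ))) (by simp)
  set L := fderiv ℂ Ψ 0 with hL
  have hline : ∀ v, HasDerivAt (fun s : ℂ => Ψ (s • v)) (L v) 0 := fun v =>
    hΨ.hasFDerivAt.comp_hasDerivAt_of_eq 0
      (by simpa using (hasDerivAt_id (0 : ℂ)).smul_const v) (zero_smul ℂ v).symm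
  have hL1 : ∀ v, (L v).1 = v.1 := fun v => by
    have h1 := (ContinuousLinearMap.fst ℂ ℂ (Idx r → ℂ)).hasFDerivAt.comp_hasDerivAt 0 (hline v)
    have h2 : HasDerivAt (fun s : ℂ => (s • v).1) v.1 0 := by
      simpa using (hasDerivAt_id (0 : ℂ)).smul_const v.1
    exact h1.unique h2
  have hL2 : ∀ τ, (∀ b p, τ ((0, b), p) = 0) →
      (L (0, τ)).2 = fun p => relD σ τ p.1.1 p.1.2 := by
    intro τ hτ
    funext p
    have h1 := (ContinuousLinearMap.snd ℂ ℂ (Idx r → ℂ)).hasFDerivAt.comp_hasDerivAt 0 (hline (0, τ))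
    refine (hasDerivAt_pi.1 h1 p).unique ?_
    have e : (fun s : ℂ => (Ψ (s • ((0 : ℂ), τ))).2 p) =
        fun s : ℂ => (relator (par σ (s • τ))).val p.1.1 p.1.2 := funext fun s => by
      simp only [Ψ, mx, relF, Prod.smul_mk, smul_zero, hP0]
      rw [mixH_par fun b q => by simp [hτ b q]]
    exact (hasD_relator hσ τ p.1.1 p.1.2).congr_of_eventuallyEq (Eventually.of_forall (congrFun e))
  have h0 : mx 0 = σ := by
    simp only [mx, Prod.fst_zero, Prod.snd_zero, hP0]
    rw [mixH_par fun b q => rfl, par_zero]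
  refine (lift_of_surj hσ mx hmx h0 (range_eq_top_of_tail hT L hL1 hL2) hε).mono fun s hs => ?_
  obtain ⟨q, hq1, hq, hd⟩ := hs
  refine ⟨mx q, hq, ?_, ?_, hd⟩
  · simp only [mx, mixH, hq1, Function.update_self]
  · simp only [mx, mixH, hq1, Function.update_self]

/-- The first handle is in general position. -/
def GoodPair (a b : SLC r) : Prop :=
  ∃ (h : Mat r) (p : Fin r → ℂ), h.det ≠ 0 ∧ a⁻¹.val * h = h * comp' p ∧
    (eqMat h (a * b * a⁻¹ * b⁻¹)⁻¹.val).det ≠ 0 ∧ GoodW a.val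

lemma contDiff_eqMat {X : Type*} [NormedAddCommGroup X] [NormedSpace ℂ X] {h W : X → Mat r}
    (hh : Smooth h) (hW : Smooth W) (p : Fin r → ℂ) (j : Fin r) :
    ContDiff ℂ ω fun x => eqs (h x) (W x) p j := by
  have hs : ∀ (c : ℂ) {f : X → Mat r}, Smooth f → Smooth fun x => c • f x := fun c f hf a b => by
    simpa using contDiff_const.mul (hf a b)
  have hk : Smooth fun x => h x * comp' p := hh.mul (Smooth.const _)
  simp only [eqs, eqDet]
  split_ifs
  · exact ((Smooth.const (0 : Mat r)).sub hk).det.sub ((Smooth.const (0 : Mat r)).sub hh).det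
  · exact ((hs _ (hW.mul hh)).sub hk).det.sub ((hs _ hh).sub hk).det

lemma smooth_eqMat {X : Type*} [NormedAddCommGroup X] [NormedSpace ℂ X] {h W : X → Mat r}
    (hh : Smooth h) (hW : Smooth W) : Smooth fun x => eqMat (h x) (W x) := fun j l => by
  simpa [eqMat] using (contDiff_eqMat hh hW (Pi.single l 1) j).sub (contDiff_eqMat hh hW 0 j)

lemma smooth_kry {X : Type*} [NormedAddCommGroup X] [NormedSpace ℂ X] {y : X → Mat r}
    {v : X → Fin r → ℂ} (hy : Smooth y) (hv : ∀ i, ContDiff ℂ ω fun x => v x i) :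
    Smooth fun x => kry (y x) (v x) := fun i j => by
  have hp : ∀ k : ℕ, Smooth fun x => y x ^ k := fun k => by
    induction k with
    | zero => simpa using Smooth.const (1 : Mat r)
    | succ k ih => simp only [pow_succ]; exact ih.mul hy
  simp only [kry, Matrix.of_apply, Matrix.mulVec, dotProduct]
  exact ContDiff.sum fun l _ => (hp _ i l).mul (hv l)

/-- Representations in general position are dense near those with scalar centraliser of the last
handles. -/
lemma exists_near_good [NeZero r] (hr : 2 ≤ r) {σ : Handles n (SLC r)} (hσ : relator σ = 1)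
    (hT : Triv (tgens σ)) {ε : ℝ} (hε : 0 < ε) :
    ∃ σ' : Handles n (SLC r), relator σ' = 1 ∧ dist (coord σ') (coord σ) < ε ∧
      GoodPair (σ'.1 0) (σ'.2 0) := by
  obtain ⟨m, rfl⟩ : ∃ m, r = m + 1 := ⟨r - 1, by omega⟩
  set W : SLC (m + 1) := ⟨Matrix.diagonal (witS m), det_witS m⟩ with hW
  have hM := det_eqMat_witness m
  set p := solP (1 : Mat (m + 1)) W.val
  obtain ⟨hdet, hint⟩ := handle_spec (h := (1 : Mat (m + 1))) (W := W.val) (by simp) W.2 hM
    (Pi.single 0 1)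
  have hWi : (W.val)⁻¹ = Matrix.diagonal fun i => (witS m i)⁻¹ := by
    refine Matrix.inv_eq_right_inv ?_
    rw [hW, Matrix.diagonal_mul_diagonal, ← Matrix.diagonal_one]
    congr 1
    funext i
    refine mul_inv_cancel₀ ?_
    simp only [witS]; split_ifs <;> simp
  set x : SLC (m + 1) := ⟨comp' p, by simpa using hdet⟩ with hx
  set B := handB (1 : Mat (m + 1)) W.val (Pi.single 0 1) with hB
  have hB0 : B.det ≠ 0 := by
    rw [hB, handB, inv_one, Matrix.mul_one, Matrix.one_mul, Matrix.mul_one, hWi]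
    exact det_kry_witness m _
  obtain ⟨c, hc⟩ := IsAlgClosed.exists_pow_nat_eq B.det⁻¹ (Nat.succ_pos m)
  let b : SLC (m + 1) := ⟨c • B, by
    rw [Matrix.det_smul, Fintype.card_fin, hc, inv_mul_cancel₀ hB0]⟩
  have hWab : (x⁻¹ * b * x⁻¹⁻¹ * b⁻¹)⁻¹ = W := by
    have e : b * x = x * W⁻¹ * b := by
      refine Subtype.ext ?_
      have e2 : (W⁻¹ : SLC (m + 1)).val = (W.val)⁻¹ := by
        symm
        exact Matrix.inv_eq_left_inv (val_inv_mul W)
      simp only [Matrix.SpecialLinearGroup.coe_mul, e2]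
      have := hint
      rw [inv_one, Matrix.mul_one, Matrix.one_mul] at this
      show c • B * comp' p = comp' p * (W.val)⁻¹ * (c • B)
      rw [smul_mul_assoc, mul_smul_comm, this]
    rw [inv_inv, show x⁻¹ * b * x * b⁻¹ = x⁻¹ * (b * x) * b⁻¹ by group, e]
    group
  obtain ⟨G, hG⟩ := exists_good (r := m + 1) (by omega) fun _ : Unit => (1 : SLC (m + 1))
  obtain ⟨fa, hfa, hfa0, hfa1, hfa2⟩ := exists_path₃ hr (σ.1 0) x⁻¹ G
  obtain ⟨fb, hfb, hfb0, hfb1⟩ := exists_path hr (σ.2 0) b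
  have hfW : Smooth fun s => (fa s * fb s * (fa s)⁻¹ * (fb s)⁻¹)⁻¹.val :=
    (((hfa.mul hfb).mul hfa.adjugate).mul hfb.adjugate).adjugate
  have hfx : Smooth fun s => (fa s)⁻¹.val := hfa.adjugate
  let e₀ : Fin (m + 1) → ℂ := Pi.single 0 1
  have hk : Smooth fun s => kry ((fa s)⁻¹.val) e₀ := smooth_kry hfx fun i => contDiff_const
  let κ := Option (Option {q : (Fin (m + 1) → ℕ) × (Fin (m + 1) → ℕ) // ¬ ConstDiff q.1 q.2})
  let F : κ → ℂ → ℂ := fun o => match o with
    | none => fun s => (kry ((fa s)⁻¹.val) e₀).det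
    | some none => fun s => (eqMat (kry ((fa s)⁻¹.val) e₀)
        (fa s * fb s * (fa s)⁻¹ * (fb s)⁻¹)⁻¹.val).det
    | some (some q) => fun s => MvPolynomial.eval (fun v => (fa s).val v.1 v.2) (entryPoly q.1.1 q.1.2)
  have hF : ∀ k, Differentiable ℂ (F k) := fun k => match k with
    | none => hk.det.differentiable (by simp)
    | some none => (smooth_eqMat hk hfW).det.differentiable (by simp)
    | some (some q) => (contDiff_eval (f := fun s (v : Fin (m + 1) × Fin (m + 1)) =>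
        (fa s).val v.1 v.2) (fun v => hfa v.1 v.2) _).differentiable (by simp)
  have hk1 : kry ((fa 1)⁻¹.val) e₀ = 1 := by
    have h := eq_kry (x := x.val) (h := (1 : Mat (m + 1))) (p := p) (Nat.succ_pos m)
      (by simp [hx])
    rw [hfa1, inv_inv]
    rw [Matrix.one_mulVec] at h
    exact h.symm
  have hne : ∀ k, ∃ z, F k z ≠ 0 := fun k => match k with
    | none => ⟨1, by simp only [F, hk1, Matrix.det_one]; exact one_ne_zero⟩
    | some none => ⟨1, by
        simp only [F, hk1]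
        rw [hfa1, hfb1, hWab]
        exact hM⟩
    | some (some q) => ⟨2, by
        simp only [F, hfa2]
        simpa using hG () q.1.1 q.1.2 q.2⟩
  have hev := lift_pair hσ hT (fun s => (fa s, fb s)) hfa hfb (by simp [hfa0, hfb0]) hε
  obtain ⟨U, hU, hUo, hU0⟩ := eventually_nhds_iff.1 hev
  obtain ⟨s, hs, hsU⟩ := (dense_avoid' F hF hne).exists_mem_open hUo ⟨0, hU0⟩
  obtain ⟨σ', h1, h2, h3, h4⟩ := hU s (by assumption)
  refine ⟨σ', h1, h4, ?_⟩
  rw [h2, h3]
  have hs' : ∀ k, F k s ≠ 0 := by assumption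
  obtain ⟨p', hp'⟩ := kry_spec (hs' none)
  exact ⟨_, p', hs' none, hp', hs' (some none),
    goodW_of_avoids fun d d' hd => hs' (some (some ⟨(d, d'), hd⟩))⟩

end Vale.Agent.P002
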