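import Mathlib

/-!
Substitutions preserving the surface relator, and twists along the first handle.
-/

namespace Vale.Agent.P002

open scoped commutatorElement

variable {G : Type*} [Group G] {n : ℕ}

/-- Tuples of handle generators. -/
abbrev Handles (n : ℕ) (G : Type*) := (Fin (n + 1) → G) × (Fin (n + 1) → G)

/-- The commutators of the handles after the first one. -/
def tailComm (ρ : Handles n G) : List G :=
  List.ofFn fun k : Fin n => ⁅ρ.1 k.succ, ρ.2 k.succ⁆

/-- The surface relator. -/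
def relator (ρ : Handles n G) : G := ⁅ρ.1 0, ρ.2 0⁆ * (tailComm ρ).prod

/-- The product of the commutators strictly between the first handle and handle `k + 1`. -/
def mid (ρ : Handles n G) (k : Fin n) : G := ((tailComm ρ).take k).prod

/-- The elementary substitution `a ↦ a x`. -/
def theta (a b x y : G) : G × G × G × G :=
  (a * x, x⁻¹ * b * x, x⁻¹ * b * x * b⁻¹ * x, y * x⁻¹ * b⁻¹ * x)

/-- Its inverse. -/
def thetaInv (a b x y : G) : G × G × G × G :=
  (a * b⁻¹ * x⁻¹ * b, b⁻¹ * x * b * x⁻¹ * b, b⁻¹ * x * b, y * b)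

/-- Apply a substitution of two handles to the first handle and the conjugate of handle `k + 1`. -/
def slide (θ : G → G → G → G → G × G × G × G) (k : Fin n) (ρ : Handles n G) : Handles n G :=
  let K := mid ρ k
  let q := θ (ρ.1 0) (ρ.2 0) (K * ρ.1 k.succ * K⁻¹) (K * ρ.2 k.succ * K⁻¹)
  (Function.update (Function.update ρ.1 0 q.1) k.succ (K⁻¹ * q.2.2.1 * K),
   Function.update (Function.update ρ.2 0 q.2.1) k.succ (K⁻¹ * q.2.2.2 * K))

/-- The substitution along handle `k + 1`. -/
def fwd (k : Fin n) (ρ : Handles n G) : Handles n G := slide theta k ρ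

/-- Its inverse. -/
def bwd (k : Fin n) (ρ : Handles n G) : Handles n G := slide thetaInv k ρ

/-- Composite substitution along a list of handles. -/
def fwds : List (Fin n) → Handles n G → Handles n G
  | [], ρ => ρ
  | k :: l, ρ => fwds l (fwd k ρ)

/-- Inverse of the composite substitution. -/
def bwds : List (Fin n) → Handles n G → Handles n G
  | [], ρ => ρ
  | k :: l, ρ => bwd k (bwds l ρ)

/-- Multiply `b₀` on the right. -/
def twist (ρ : Handles n G) (z : G) : Handles n G :=
  (ρ.1, Function.update ρ.2 0 (ρ.2 0 * z))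

lemma theta_comm (a b x y : G) :
    ⁅(theta a b x y).1, (theta a b x y).2.1⁆ * ⁅(theta a b x y).2.2.1, (theta a b x y).2.2.2⁆ =
      ⁅a, b⁆ * ⁅x, y⁆ := by
  simp only [theta, commutatorElement_def]; group

lemma thetaInv_comm (a b x y : G) :
    ⁅(thetaInv a b x y).1, (thetaInv a b x y).2.1⁆ *
      ⁅(thetaInv a b x y).2.2.1, (thetaInv a b x y).2.2.2⁆ = ⁅a, b⁆ * ⁅x, y⁆ := by
  simp only [thetaInv, commutatorElement_def]; group

lemma conj_comm (K x y : G) : ⁅K * x * K⁻¹, K * y * K⁻¹⁆ = K * ⁅x, y⁆ * K⁻¹ := by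
  simp only [commutatorElement_def]; group

lemma conj_comm' (K x y : G) : ⁅K⁻¹ * x * K, K⁻¹ * y * K⁆ = K⁻¹ * ⁅x, y⁆ * K := by
  simp only [commutatorElement_def]; group

lemma mid_slide (θ : G → G → G → G → G × G × G × G) (k : Fin n) (ρ : Handles n G) :
    mid (slide θ k ρ) k = mid ρ k := by
  simp only [mid]
  congr 1
  refine List.ext_getElem (by simp [tailComm]) fun i h1 h2 => ?_
  simp only [List.getElem_take, tailComm, List.getElem_ofFn]
  have hik : i < (k : ℕ) := by simp [tailComm] at h1; omega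
  simp [slide, Function.update_apply, Fin.succ_inj, Fin.ext_iff, hik.ne]

lemma slide_relator {θ : G → G → G → G → G × G × G × G}
    (hθ : ∀ a b x y, ⁅(θ a b x y).1, (θ a b x y).2.1⁆ * ⁅(θ a b x y).2.2.1, (θ a b x y).2.2.2⁆ =
      ⁅a, b⁆ * ⁅x, y⁆) (k : Fin n) (ρ : Handles n G) : relator (slide θ k ρ) = relator ρ := by
  have hsplit : ∀ σ : Handles n G, (tailComm σ).prod =
      mid σ k * ⁅σ.1 k.succ, σ.2 k.succ⁆ * ((tailComm σ).drop (k + 1)).prod := by
    intro σ
    have hl : (k : ℕ) < (tailComm σ).length := by simp [tailComm]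
    conv_lhs => rw [← List.take_append_drop (k : ℕ) (tailComm σ), List.prod_append,
      List.drop_eq_getElem_cons hl, List.prod_cons]
    simp [mid, tailComm, mul_assoc]
  have hdrop : (tailComm (slide θ k ρ)).drop (k + 1) = (tailComm ρ).drop (k + 1) := by
    refine List.ext_getElem (by simp [tailComm]) fun i h1 h2 => ?_
    simp [List.getElem_drop, tailComm, slide, Function.update_apply, Fin.succ_inj, Fin.ext_iff,
      show (k : ℕ) + 1 + i ≠ k by omega]
  rw [relator, relator, hsplit, hsplit ρ, hdrop, mid_slide]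
  set K := mid ρ k with hK
  have h := hθ (ρ.1 0) (ρ.2 0) (K * ρ.1 k.succ * K⁻¹) (K * ρ.2 k.succ * K⁻¹)
  rw [conj_comm] at h
  simp only [slide, ← hK]
  rw [Function.update_self, Function.update_self, Function.update_of_ne (Fin.succ_ne_zero k).symm,
    Function.update_of_ne (Fin.succ_ne_zero k).symm, Function.update_self, Function.update_self,
    conj_comm']
  simp only [← mul_assoc]
  congr 1
  simp only [mul_assoc, mul_inv_cancel_left]
  simp only [← mul_assoc, h]
  group

lemma slide_slide {θ θ' : G → G → G → G → G × G × G × G}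
    (h : ∀ a b x y, θ' (θ a b x y).1 (θ a b x y).2.1 (θ a b x y).2.2.1 (θ a b x y).2.2.2 =
      (a, b, x, y)) (k : Fin n) (ρ : Handles n G) : slide θ' k (slide θ k ρ) = ρ := by
  have hm := mid_slide θ k ρ
  set K := mid ρ k with hK
  have e0 : ∀ v : G, K * (K⁻¹ * v * K) * K⁻¹ = v := fun v => by group
  have e1 : ∀ v : G, K⁻¹ * (K * v * K⁻¹) * K = v := fun v => by group
  have hq := h (ρ.1 0) (ρ.2 0) (K * ρ.1 k.succ * K⁻¹) (K * ρ.2 k.succ * K⁻¹)
  unfold slide at hm ⊢
  simp only [hm, ← hK, Function.update_self, Function.update_of_ne (Fin.succ_ne_zero k).symm,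
    e0, hq, e1]
  ext i <;> by_cases h1 : i = k.succ <;> by_cases h0 : i = 0 <;>
    simp_all [Function.update_apply, Fin.succ_ne_zero]

lemma fwd_bwd (k : Fin n) (ρ : Handles n G) : fwd k (bwd k ρ) = ρ :=
  slide_slide (fun a b x y => by simp only [theta, thetaInv, Prod.mk.injEq]; and_intros <;> group)
    k ρ

lemma bwd_fwd (k : Fin n) (ρ : Handles n G) : bwd k (fwd k ρ) = ρ :=
  slide_slide (fun a b x y => by simp only [theta, thetaInv, Prod.mk.injEq]; and_intros <;> group)
    k ρ

lemma fwds_bwds : ∀ (l : List (Fin n)) (ρ : Handles n G), fwds l (bwds l ρ) = ρ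
  | [], _ => rfl
  | k :: l, ρ => by simp [fwds, bwds, fwd_bwd, fwds_bwds l]

lemma fwd_relator (k : Fin n) (ρ : Handles n G) : relator (fwd k ρ) = relator ρ :=
  slide_relator theta_comm k ρ

lemma bwd_relator (k : Fin n) (ρ : Handles n G) : relator (bwd k ρ) = relator ρ :=
  slide_relator thetaInv_comm k ρ

lemma twist_relator (ρ : Handles n G) {z : G} (hz : Commute (ρ.1 0) z) :
    relator (twist ρ z) = relator ρ := by
  have h : tailComm (twist ρ z) = tailComm ρ := by
    simp [tailComm, twist, Fin.succ_ne_zero]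
  simp only [relator, h, twist, Function.update_self, commutatorElement_def, mul_inv_rev]
  congr 1
  calc ρ.1 0 * (ρ.2 0 * z) * (ρ.1 0)⁻¹ * (z⁻¹ * (ρ.2 0)⁻¹)
      = ρ.1 0 * ρ.2 0 * (z * (ρ.1 0)⁻¹ * z⁻¹) * (ρ.2 0)⁻¹ := by group
    _ = ρ.1 0 * ρ.2 0 * (ρ.1 0)⁻¹ * (ρ.2 0)⁻¹ := by
      rw [hz.symm.inv_right.eq, mul_inv_cancel_right]

end Vale.Agent.P002
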