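import Vale.Agent.P002.Closure

/-!
Integral tuples are dense among all tuples in the special linear group, so handlebody
representations lie in the closure of the integral representations.
-/

namespace Vale.Agent.P002

open Matrix MvPolynomial
open Matrix.SpecialLinearGroup (transvection)

variable {r n : ℕ}

/-- Entries of a tuple. -/
def coordA (A : Fin (n + 1) → SLC r) : Fin (n + 1) × Fin r × Fin r → ℂ :=
  fun v => (A v.1).val v.2.1 v.2.2

/-- The closure of the integral tuples. -/
def Qset (n r : ℕ) : Set (Fin (n + 1) → SLC r) :=
  {A | coordA A ∈ polyCl (Set.range fun s : Fin (n + 1) → Matrix.SpecialLinearGroup (Fin r) ℤ =>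
    coordA (castSL r ∘ s))}

/-- Right multiplication of slot `i` by a transvection. -/
noncomputable def slot (i : Fin (n + 1)) {a b : Fin r} (h : a ≠ b) (t : ℂ)
    (A : Fin (n + 1) → SLC r) : Fin (n + 1) → SLC r :=
  Function.update A i (A i * transvection h t)

/-- The polynomial substitution of `slot`. -/
noncomputable def slotPoly {κ : Type*} (i : Fin (n + 1)) (a b : Fin r)
    (t : MvPolynomial κ ℂ) (x : Fin (n + 1) × Fin r × Fin r → MvPolynomial κ ℂ)
    (v : Fin (n + 1) × Fin r × Fin r) : MvPolynomial κ ℂ :=
  x v + if v.1 = i ∧ v.2.2 = b then t * x (i, v.2.1, a) else 0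

lemma coordA_slot (i : Fin (n + 1)) {a b : Fin r} (h : a ≠ b) (t : ℂ)
    (A : Fin (n + 1) → SLC r) (v : Fin (n + 1) × Fin r × Fin r) :
    coordA (slot i h t A) v =
      coordA A v + if v.1 = i ∧ v.2.2 = b then t * coordA A (i, v.2.1, a) else 0 := by
  obtain ⟨j, p, q⟩ := v
  by_cases hj : j = i
  · subst hj
    simp only [coordA, slot, Function.update_self, Matrix.SpecialLinearGroup.coe_mul, true_and,
      Matrix.SpecialLinearGroup.transvection_coe, mul_add, mul_one, Matrix.add_apply]
    by_cases hq : q = b
    · subst hq; simp [mul_comm]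
    · simp [hq]
  · simp [coordA, slot, hj]

lemma slot_mem {A : Fin (n + 1) → SLC r} (hA : A ∈ Qset n r) (i : Fin (n + 1)) {a b : Fin r}
    (h : a ≠ b) (t : ℂ) : slot i h t A ∈ Qset n r := by
  have hint : ∀ m : ℤ, slot i h (m : ℂ) A ∈ Qset n r := by
    intro m
    have e : coordA (slot i h (m : ℂ) A) = fun v => eval (coordA A)
        (slotPoly i a b (C (m : ℂ)) X v) := by
      funext v
      rw [coordA_slot, slotPoly]
      split_ifs <;> simp
    show coordA (slot i h (m : ℂ) A) ∈ polyCl _
    rw [e]
    refine polyCl_map _ ?_ hA
    rintro y ⟨s, rfl⟩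
    refine subset_polyCl _ ⟨Function.update s i (s i * transvection h m), ?_⟩
    have e2 : (castSL r ∘ Function.update s i (s i * transvection h m)) =
        slot i h (m : ℂ) (castSL r ∘ s) := by
      rw [Function.comp_update, slot, map_mul]
      congr 2
      ext p q
      simp [castSL, Matrix.SpecialLinearGroup.transvection_coe, Matrix.one_apply, Matrix.single_apply]
    funext v
    simp only [e2, coordA_slot, slotPoly]
    split_ifs <;> simp
  intro P hP
  set u : MvPolynomial (Fin 1) ℂ :=
    bind₁ (slotPoly i a b (X 0) fun v => C (coordA A v)) P with hu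
  have key : ∀ s : ℂ, eval (fun _ => s) u = eval (coordA (slot i h s A)) P := fun s => by
    rw [hu, eval, eval₂Hom_bind₁]
    congr 1
    congr 1
    funext v
    rw [coordA_slot, slotPoly]
    split_ifs <;> simp
  have hz : u = 0 := by
    refine funext_set (fun _ => Set.range ((↑) : ℤ → ℂ))
      (fun _ => Set.infinite_range_of_injective Int.cast_injective) fun x hx => ?_
    obtain ⟨m, hm⟩ := hx 0 (Set.mem_univ _)
    rw [show x = fun _ => (m : ℂ) from funext fun j => by rw [Subsingleton.elim j 0, hm]]
    rw [key, map_zero]
    exact hint m P hP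
  rw [← key, hz, map_zero]

lemma qset_univ (hr : 2 ≤ r) (A : Fin (n + 1) → SLC r) : A ∈ Qset n r := by
  have : Nontrivial (Fin r) := Fin.nontrivial_iff_two_le.2 hr
  have hslot : ∀ (i : Fin (n + 1)) (M : SLC r), ∀ A ∈ Qset n r,
      Function.update A i (A i * M) ∈ Qset n r := by
    intro i M
    refine Matrix.SpecialLinearGroup.diagonal_transvection_induction'
      (fun M => ∀ A ∈ Qset n r, Function.update A i (A i * M) ∈ Qset n r) M ?_
      (fun a b h t A hA => slot_mem hA i h t) fun M N hM hN A hA => ?_
    · intro a b hab c hc A hA
      have e : Matrix.SpecialLinearGroup.diag2n hab c hc =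
          transvection hab c * transvection hab.symm (-c⁻¹) * transvection hab c *
            (transvection hab (-1) * transvection hab.symm 1 * transvection hab (-1)) := by
        refine Subtype.ext (Matrix.ext fun p q => ?_)
        simp [Matrix.SpecialLinearGroup.diag2n, Matrix.SpecialLinearGroup.transvection_coe,
          mul_add, add_mul, single_mul_single_of_ne, hab, hab.symm, Matrix.one_apply,
          Matrix.single_apply, Matrix.diagonal_apply, Function.update_apply]
        by_cases hp : p = a <;> by_cases hp' : p = b <;> by_cases hq : q = a <;>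
          by_cases hq' : q = b <;> simp_all [eq_comm] <;> field_simp
      have step : ∀ {x y : Fin r} (h : x ≠ y) (t : ℂ) (N : SLC r),
          Function.update A i (A i * N) ∈ Qset n r →
          Function.update A i (A i * (N * transvection h t)) ∈ Qset n r := fun h t N hN => by
        have := slot_mem hN i h t
        rwa [slot, Function.update_self, Function.update_idem, mul_assoc] at this
      have start : Function.update A i (A i * transvection hab c) ∈ Qset n r := slot_mem hA i hab c
      rw [e]
      simp only [← mul_assoc]
      have h6 := step hab (-1) _ (step hab.symm 1 _ (step hab (-1) _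
        (step hab c _ (step hab.symm (-c⁻¹) _ start))))
      simpa only [← mul_assoc] using h6
    · have := hN _ (hM A hA)
      rwa [Function.update_self, Function.update_idem, mul_assoc] at this
  have h1 : (fun _ => 1 : Fin (n + 1) → SLC r) ∈ Qset n r :=
    subset_polyCl _ ⟨fun _ => 1, by simp [coordA, Function.comp_def]⟩
  have : ∀ s : Finset (Fin (n + 1)), (fun i => if i ∈ s then A i else 1) ∈ Qset n r := by
    intro s
    induction s using Finset.induction with
    | empty => simpa using h1
    | insert i s hi ih =>
      have := hslot i (A i) _ ih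
      rw [if_neg hi, one_mul] at this
      convert this using 1
      funext j
      by_cases hj : j = i <;> simp [hj]
  simpa using this Finset.univ

/-- Handlebody representations lie in the closure. -/
lemma slice_mem (hr : 2 ≤ r) (A : Fin (n + 1) → SLC r) : (A, fun _ => 1) ∈ Zd n r := by
  refine ⟨by simp [relator, tailComm], ?_⟩
  let q : Var n r → MvPolynomial (Fin (n + 1) × Fin r × Fin r) ℂ := fun v =>
    if v.1.2 then C ((1 : Matrix (Fin r) (Fin r) ℂ) v.2.1 v.2.2) else X (v.1.1, v.2.1, v.2.2)
  have e : ∀ B : Fin (n + 1) → SLC r,
      coord ((B, fun _ => 1) : Handles n (SLC r)) = fun v => eval (coordA B) (q v) := fun B => by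
    funext ⟨⟨i, b⟩, a, c⟩
    cases b <;> simp [coord, q, coordA]
  rw [e]
  refine polyCl_map q ?_ (qset_univ hr A)
  rintro y ⟨s, rfl⟩
  rw [← e]
  refine subset_polyCl _ ⟨(s, fun _ => 1), by simp [relator, tailComm], ?_⟩
  simp [mapH, Function.comp_def]

end Vale.Agent.P002
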