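import Vale.Agent.P002.Twist

/-!
The twist directions pushed by substitutions span the tangent space along the handles `b`.
-/

namespace Vale.Agent.P002

open Matrix

variable {r n : ℕ}

/-- The matrix algebra. -/
abbrev Mat (r : ℕ) := Matrix (Fin r) (Fin r) ℂ

/-- Effect of the substitution along handle `k + 1` on first variations of `b` at `b = 1`. -/
noncomputable def step (A : Fin (n + 1) → SLC r) (k : Fin n) (β : Fin (n + 1) → Mat r) :
    Fin (n + 1) → Mat r :=
  Function.update (Function.update β 0 ((A k.succ)⁻¹.val * β 0 * (A k.succ).val)) k.succ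
    (β k.succ - (A k.succ)⁻¹.val * β 0 * (A k.succ).val)

/-- Effect of a composite substitution. -/
noncomputable def steps (A : Fin (n + 1) → SLC r) :
    List (Fin n) → (Fin (n + 1) → Mat r) → Fin (n + 1) → Mat r
  | [], β => β
  | k :: l, β => steps A l (step A k β)

/-- The product by which `a₀` must be divided. -/
noncomputable def vw (A : Fin (n + 1) → SLC r) : List (Fin n) → SLC r
  | [] => 1
  | k :: l => vw A l * (A k.succ)⁻¹

/-- The pushed twist direction. -/
noncomputable def dir (A : Fin (n + 1) → SLC r) (l : List (Fin n)) : Fin (n + 1) → Mat r :=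
  steps A l (Pi.single 0 (tl (A 0 * vw A l).val))

/-- First variations of `b` compatible with the relation at `(A, 1)`. -/
def InK (A : Fin (n + 1) → SLC r) (β : Fin (n + 1) → Mat r) : Prop :=
  (∀ i, (β i).trace = 0) ∧ ∑ i, ((A i).val * β i * (A i)⁻¹.val - β i) = 0

/-- Variation of `vw` along a covector. -/
noncomputable def dvw (A : Fin (n + 1) → SLC r) (lam : Fin (n + 1) → Mat r) :
    List (Fin n) → Mat r
  | [] => 0
  | k :: l => dvw A lam l * (A k.succ)⁻¹.val - (vw A l).val * (lam k.succ * (A k.succ)⁻¹.val)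

/-- The covector transported by a composite substitution. -/
noncomputable def transp (A : Fin (n + 1) → SLC r) (lam : Fin (n + 1) → Mat r) :
    List (Fin n) → Mat r
  | [] => lam 0
  | k :: l => (A k.succ).val * (transp A lam l - lam k.succ) * (A k.succ)⁻¹.val

lemma val_mul_inv (U : SLC r) : U.val * U⁻¹.val = 1 := by
  rw [← Matrix.SpecialLinearGroup.coe_mul, mul_inv_cancel, Matrix.SpecialLinearGroup.coe_one]

lemma val_inv_mul (U : SLC r) : U⁻¹.val * U.val = 1 := by
  rw [← Matrix.SpecialLinearGroup.coe_mul, inv_mul_cancel, Matrix.SpecialLinearGroup.coe_one]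

variable {A : Fin (n + 1) → SLC r} {lam : Fin (n + 1) → Mat r}

lemma pair_steps : ∀ (l : List (Fin n)) (β : Fin (n + 1) → Mat r),
    ∑ i, (lam i * steps A l β i).trace =
      ∑ i, (lam i * β i).trace + (β 0 * (transp A lam l - lam 0)).trace
  | [], β => by simp [steps, transp]
  | k :: l, β => by
    rw [steps, pair_steps l]
    have h0 : (k.succ : Fin (n + 1)) ≠ 0 := Fin.succ_ne_zero k
    set Z := (A k.succ)⁻¹.val * β 0 * (A k.succ).val with hZ
    have hs : ∀ i, step A k β i =
        β i + ((if i = 0 then Z - β 0 else 0) + if i = k.succ then -Z else 0) := fun i => by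
      by_cases hk : i = k.succ
      · subst hk; simp [step, hZ, sub_eq_add_neg]
      · by_cases hi : i = 0
        · subst hi; simp [step, hZ, hk]
        · simp [step, hk, hi]
    have hs0 : step A k β 0 = Z := by simp [step, hZ, h0.symm]
    simp only [hs, mul_add, Matrix.trace_add, Finset.sum_add_distrib, mul_ite, mul_zero,
      apply_ite Matrix.trace, Matrix.trace_zero, Finset.sum_ite_eq', Finset.mem_univ, if_true]
    rw [if_neg h0.symm, add_zero, add_sub_cancel]
    have e : ∀ Y : Mat r, (Z * Y).trace =
        (β 0 * ((A k.succ).val * Y * (A k.succ)⁻¹.val)).trace := fun Y => by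
      rw [hZ]; simp only [Matrix.mul_assoc]; rw [Matrix.trace_mul_comm]; simp only [Matrix.mul_assoc]
    simp only [mul_sub, Matrix.trace_sub, mul_neg, Matrix.trace_neg]
    rw [Matrix.trace_mul_comm (lam 0) Z, Matrix.trace_mul_comm (lam k.succ) Z,
      Matrix.trace_mul_comm (lam 0) (β 0), e, e, e, transp]
    simp only [mul_sub, sub_mul, Matrix.trace_sub]
    ring

lemma transp_eq : ∀ l : List (Fin n), transp A lam l =
    (vw A l)⁻¹.val * lam 0 * (vw A l).val + (vw A l)⁻¹.val * dvw A lam l
  | [] => by simp [transp, vw, dvw]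
  | k :: l => by
    rw [transp, transp_eq l, vw, dvw, _root_.mul_inv_rev, inv_inv, Matrix.SpecialLinearGroup.coe_mul,
      Matrix.SpecialLinearGroup.coe_mul]
    simp only [mul_sub, sub_mul, mul_add, add_mul, Matrix.mul_assoc]
    rw [← Matrix.mul_assoc ((vw A l)⁻¹.val) (vw A l).val, val_inv_mul, Matrix.one_mul]
    abel

lemma trace_transp (htr : ∀ i, (lam i).trace = 0) : ∀ l : List (Fin n), (transp A lam l).trace = 0
  | [] => htr 0
  | k :: l => by
    rw [transp, Matrix.trace_mul_comm, ← Matrix.mul_assoc, val_inv_mul, Matrix.one_mul,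
      Matrix.trace_sub, trace_transp htr l, htr, sub_zero]

lemma vw_append : ∀ l l' : List (Fin n), vw A (l ++ l') = vw A l' * vw A l
  | [], l' => by simp [vw]
  | k :: l, l' => by simp [vw, vw_append l l', mul_assoc]

lemma dvw_append : ∀ l l' : List (Fin n),
    dvw A lam (l ++ l') = dvw A lam l' * (vw A l).val + (vw A l').val * dvw A lam l
  | [], l' => by simp [vw, dvw]
  | k :: l, l' => by
    simp only [List.cons_append, dvw, vw, dvw_append l l', vw_append,
      Matrix.SpecialLinearGroup.coe_mul, add_mul, mul_sub, Matrix.mul_assoc]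
    abel

/-- A derivation of the matrix algebra is inner. -/
lemma derivation_inner [NeZero r] (D : Mat r →ₗ[ℂ] Mat r)
    (hD : ∀ P Q, D (P * Q) = D P * Q + P * D Q) : ∃ Y : Mat r, ∀ P, D P = Y * P - P * Y := by
  let e : Fin r → Fin r → Mat r := fun a b => Matrix.single a b 1
  have emul : ∀ a b c d, e a b * e c d = if b = c then e a d else 0 := fun a b c d => by
    by_cases h : b = c
    · subst h; simp [e]
    · simp [e, h, single_mul_single_of_ne]
  have h1 : ∑ i, e i i = (1 : Mat r) := by
    ext a b
    simp only [e, Matrix.sum_apply, Matrix.single_apply, Matrix.one_apply, ite_and, Finset.sum_ite_eq',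
      Finset.mem_univ, if_true]
  refine ⟨∑ i, D (e i 0) * e 0 i, fun P => ?_⟩
  suffices H : ∀ j k, D (e j k) =
      (∑ i, D (e i 0) * e 0 i) * e j k - e j k * ∑ i, D (e i 0) * e 0 i by
    have hL : D = LinearMap.mulLeft ℂ (∑ i, D (e i 0) * e 0 i) -
        LinearMap.mulRight ℂ (∑ i, D (e i 0) * e 0 i) :=
      (Matrix.stdBasis ℂ (Fin r) (Fin r)).ext fun jk => by
        obtain ⟨j, k⟩ := jk
        rw [Matrix.stdBasis_eq_single]
        simpa [e] using H j k
    conv_lhs => rw [hL]
    simp
  intro j k
  have hz : e j 0 * D (e 0 0) * e 0 k = 0 := by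
    have h := hD (e 0 0) (e 0 0)
    rw [emul, if_pos rfl] at h
    have h' : e 0 0 * D (e 0 0) * e 0 0 = 0 := by
      have h2 := congrArg (fun Z => e 0 0 * Z * e 0 0) h
      simp only [mul_add, add_mul, Matrix.mul_assoc, emul, if_true] at h2 ⊢
      simp only [← Matrix.mul_assoc, emul, if_true] at h2 ⊢
      exact add_eq_left.1 h2.symm
    calc e j 0 * D (e 0 0) * e 0 k
        = e j 0 * e 0 0 * D (e 0 0) * (e 0 0 * e 0 k) := by simp [emul]
      _ = e j 0 * (e 0 0 * D (e 0 0) * e 0 0) * e 0 k := by simp only [Matrix.mul_assoc]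
      _ = 0 := by rw [h', mul_zero, zero_mul]
  have hl : (∑ i, D (e i 0) * e 0 i) * e j k = D (e j 0) * e 0 k := by
    simp [Finset.sum_mul, Matrix.mul_assoc, emul, mul_ite]
  have hr : e j k * ∑ i, D (e i 0) * e 0 i = - (e j 0 * D (e 0 k)) := by
    have h3 : ∀ i, e j k * D (e i 0) * e 0 i =
        (if k = i then e j 0 * D (e 0 0) * e 0 i else 0) - e j 0 * D (e 0 k) * e i i := fun i => by
      have h := hD (e 0 k) (e i 0)
      rw [emul] at h
      have h' : e 0 k * D (e i 0) = (if k = i then D (e 0 0) else 0) - D (e 0 k) * e i 0 := by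
        rw [eq_sub_iff_add_eq, add_comm, ← h]
        split_ifs <;> simp
      calc e j k * D (e i 0) * e 0 i = e j 0 * (e 0 k * D (e i 0)) * e 0 i := by
            rw [← Matrix.mul_assoc (e j 0), emul, if_pos rfl]
        _ = _ := by
          rw [h']
          split_ifs <;> simp [mul_sub, sub_mul, Matrix.mul_assoc, emul]
    rw [Finset.mul_sum]
    simp only [← Matrix.mul_assoc, h3, Finset.sum_sub_distrib, Finset.sum_ite_eq, Finset.mem_univ,
      if_true, hz, ← Finset.mul_sum, h1, mul_one, zero_sub]
  rw [hl, hr, sub_neg_eq_add]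
  calc D (e j k) = D (e j 0 * e 0 k) := by rw [emul, if_pos rfl]
    _ = _ := hD _ _

lemma pair_zero [NeZero r] (hspan : Submodule.span ℂ (Set.range fun l => (vw A l).val) = ⊤)
    (htr : ∀ i, (lam i).trace = 0) (hdir : ∀ l, ∑ i, (lam i * dir A l i).trace = 0)
    {β : Fin (n + 1) → Mat r} (hβ : InK A β) : ∑ i, (lam i * β i).trace = 0 := by
  have hc : ∀ l, ((A 0).val * lam 0 * (vw A l).val).trace +
      ((A 0).val * dvw A lam l).trace = 0 := fun l => by
    have h := hdir l
    simp only [dir, pair_steps, Pi.single_eq_same] at h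
    rw [Finset.sum_eq_single 0 (fun i _ hi => by simp [hi]) (by simp), Pi.single_eq_same, mul_sub,
      Matrix.trace_sub, Matrix.trace_mul_comm (lam 0), add_sub_cancel] at h
    rw [tl, sub_mul, Matrix.trace_sub, smul_mul_assoc, Matrix.one_mul, Matrix.trace_smul,
      trace_transp htr, smul_zero, sub_zero, transp_eq, Matrix.SpecialLinearGroup.coe_mul, mul_add,
      Matrix.trace_add] at h
    simp only [← Matrix.mul_assoc] at h
    rw [Matrix.mul_assoc (A 0).val (vw A l).val, val_mul_inv, Matrix.mul_one] at h
    exact h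
  let cb := Finsupp.linearCombination ℂ fun l => (vw A l).val
  let db := Finsupp.linearCombination ℂ fun l => dvw A lam l
  have hsur : Function.Surjective cb := by
    rw [← LinearMap.range_eq_top, Finsupp.range_linearCombination]; exact hspan
  have hwd : ∀ c, cb c = 0 → db c = 0 := by
    intro c hc0
    have key : ∀ l', ((A 0).val * (db c * (vw A l').val)).trace = 0 := fun l' => by
      have hsum : (c.sum fun l a => a • (((A 0).val * lam 0 * (vw A (l' ++ l)).val).trace +
          ((A 0).val * dvw A lam (l' ++ l)).trace)) = 0 := by simp [hc]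
      have h1 : (c.sum fun l a => a • ((A 0).val * lam 0 * (vw A (l' ++ l)).val).trace) =
          ((A 0).val * lam 0 * (cb c * (vw A l').val)).trace := by
        simp [cb, Finsupp.linearCombination_apply, Finsupp.sum, Finset.sum_mul, Finset.mul_sum,
          Matrix.trace_sum, vw_append]
      have h2 : (c.sum fun l a => a • ((A 0).val * dvw A lam (l' ++ l)).trace) =
          ((A 0).val * (db c * (vw A l').val + cb c * dvw A lam l')).trace := by
        simp [cb, db, Finsupp.linearCombination_apply, Finsupp.sum, Finset.sum_mul, Finset.mul_sum,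
          Matrix.trace_sum, dvw_append, mul_add, Finset.sum_add_distrib]
      simp only [smul_add, Finsupp.sum_add, h1, h2, hc0, zero_mul, mul_zero, Matrix.trace_zero,
        zero_add, add_zero] at hsum
      exact hsum
    have key2 : ∀ Z, ((A 0).val * (db c * Z)).trace = 0 := fun Z => by
      obtain ⟨x, rfl⟩ := hsur Z
      simp [cb, Finsupp.linearCombination_apply, Finsupp.sum, Finset.mul_sum, Matrix.trace_sum, key]
    have h0 : (A 0).val * db c = 0 := Matrix.ext_iff_trace_mul_right.2 fun Z => by
      simp [Matrix.mul_assoc, key2]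
    have := congrArg ((A 0)⁻¹.val * ·) h0
    simp only [← Matrix.mul_assoc, val_inv_mul, Matrix.one_mul, mul_zero] at this
    exact this
  obtain ⟨R, hR⟩ := cb.exists_rightInverse_of_surjective (LinearMap.range_eq_top.2 hsur)
  let D := db.comp R
  have hDv : ∀ c, D (cb c) = db c := fun c => by
    rw [← sub_eq_zero, LinearMap.comp_apply, ← map_sub]
    refine hwd _ ?_
    rw [map_sub, show cb (R (cb c)) = cb c from LinearMap.congr_fun hR (cb c), sub_self]
  have hDl : ∀ l, D (vw A l).val = dvw A lam l := fun l => by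
    simpa [cb, db] using hDv (Finsupp.single l 1)
  have hprod : ∀ l l', D ((vw A l).val * (vw A l').val) =
      D (vw A l).val * (vw A l').val + (vw A l).val * D (vw A l').val := fun l l' => by
    rw [← Matrix.SpecialLinearGroup.coe_mul, ← vw_append, hDl, hDl, hDl, dvw_append]
  have hder : ∀ P Q, D (P * Q) = D P * Q + P * D Q := by
    intro P Q
    obtain ⟨x, rfl⟩ := hsur P
    obtain ⟨y, rfl⟩ := hsur Q
    simp only [cb, Finsupp.linearCombination_apply, Finsupp.sum, Finset.sum_mul, Finset.mul_sum,
      map_sum, smul_mul_assoc, mul_smul_comm, map_smul, hprod, smul_add, Finset.sum_add_distrib]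
  obtain ⟨Y, hY⟩ := derivation_inner D hder
  have hk : ∀ k : Fin n, lam k.succ = (A k.succ)⁻¹.val * Y * (A k.succ).val - Y := fun k => by
    have e : -(lam k.succ * (A k.succ)⁻¹.val) =
        Y * (A k.succ)⁻¹.val - (A k.succ)⁻¹.val * Y := by
      have h := hDl [k]
      rw [hY] at h
      simpa [vw, dvw] using h.symm
    have e' := congrArg (· * (A k.succ).val) e
    simp only [neg_mul, sub_mul, Matrix.mul_assoc, val_inv_mul, Matrix.mul_one] at e'
    rw [← neg_neg (lam k.succ), e', neg_sub, Matrix.mul_assoc]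
  have h0 : lam 0 = (A 0)⁻¹.val * Y * (A 0).val - Y := by
    have hM : (A 0).val * lam 0 + ((A 0).val * Y - Y * (A 0).val) = 0 := by
      refine Matrix.ext_iff_trace_mul_right.2 fun Z => ?_
      obtain ⟨x, rfl⟩ := hsur Z
      rw [zero_mul, Matrix.trace_zero]
      simp only [cb, Finsupp.linearCombination_apply, Finsupp.sum, Finset.mul_sum,
        Matrix.trace_sum, mul_smul_comm, Matrix.trace_smul]
      refine Finset.sum_eq_zero fun l _ => ?_
      have h := hc l
      rw [← hDl, hY, mul_sub, Matrix.trace_sub, ← Matrix.mul_assoc, ← Matrix.mul_assoc,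
        Matrix.trace_mul_comm ((A 0).val * (vw A l).val) Y, ← Matrix.mul_assoc] at h
      simp only [add_mul, sub_mul, Matrix.trace_add, Matrix.trace_sub]
      rw [h, smul_zero]
    have h := congrArg ((A 0)⁻¹.val * ·) hM
    simp only [mul_add, mul_sub, mul_zero, ← Matrix.mul_assoc, val_inv_mul, Matrix.one_mul] at h
    rw [← sub_eq_zero, ← h]
    abel
  have hall : ∀ i, lam i = (A i)⁻¹.val * Y * (A i).val - Y := fun i =>
    Fin.cases h0 hk i
  calc ∑ i, (lam i * β i).trace
      = ∑ i, (Y * ((A i).val * β i * (A i)⁻¹.val - β i)).trace :=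
        Finset.sum_congr rfl fun i _ => by
          rw [hall, sub_mul, mul_sub, Matrix.trace_sub, Matrix.trace_sub]
          congr 1
          simp only [← Matrix.mul_assoc]
          rw [Matrix.trace_mul_comm (Y * (A i).val * β i), ← Matrix.mul_assoc, ← Matrix.mul_assoc]
    _ = 0 := by rw [← Matrix.trace_sum, ← Finset.mul_sum, hβ.2, mul_zero, Matrix.trace_zero]

/-- The pushed twist directions span the compatible variations. -/
theorem inK_mem_span [NeZero r]
    (hspan : Submodule.span ℂ (Set.range fun l => (vw A l).val) = ⊤)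
    {β : Fin (n + 1) → Mat r} (hβ : InK A β) :
    β ∈ Submodule.span ℂ (Set.range (dir A)) := by
  by_contra hcon
  obtain ⟨φ, hφβ, hφS⟩ := Submodule.exists_dual_map_eq_bot_of_notMem hcon inferInstance
  have hφS' : ∀ x ∈ Submodule.span ℂ (Set.range (dir A)), φ x = 0 := fun x hx => by
    have h := Submodule.mem_map_of_mem (f := φ) hx
    rw [hφS] at h
    simpa using h
  let lam0 : Fin (n + 1) → Mat r := fun i =>
    Matrix.of fun a b => φ (Pi.single i (Matrix.single b a 1))
  have hrep : ∀ γ, φ γ = ∑ i, (lam0 i * γ i).trace := fun γ => by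
    have e : γ = ∑ i, ∑ a, ∑ b, γ i b a •
        (Pi.single i (Matrix.single b a (1 : ℂ)) : Fin (n + 1) → Mat r) := by
      funext j
      simp [Finset.sum_apply, Pi.single_apply, Matrix.smul_single]
      rw [Finset.sum_comm]
      exact Matrix.matrix_eq_sum_single _
    conv_lhs => rw [e]
    simp only [map_sum, map_smul, smul_eq_mul, Matrix.trace, Matrix.diag, Matrix.mul_apply, lam0,
      Matrix.of_apply]
    exact Finset.sum_congr rfl fun i _ => Finset.sum_congr rfl fun a _ =>
      Finset.sum_congr rfl fun b _ => mul_comm _ _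
  let lam : Fin (n + 1) → Mat r := fun i => lam0 i - ((lam0 i).trace / r) • 1
  have hr : (r : ℂ) ≠ 0 := Nat.cast_ne_zero.2 (NeZero.ne r)
  have hrep' : ∀ γ : Fin (n + 1) → Mat r, (∀ i, (γ i).trace = 0) →
      φ γ = ∑ i, (lam i * γ i).trace := fun γ hγ => by
    rw [hrep]
    exact Finset.sum_congr rfl fun i _ => by
      simp [lam, sub_mul, Matrix.trace_sub, Matrix.trace_smul, hγ i]
  have hdirtr : ∀ (l : List (Fin n)) (γ : Fin (n + 1) → Mat r), (∀ i, (γ i).trace = 0) →
      ∀ i, (steps A l γ i).trace = 0 := by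
    intro l
    induction l with
    | nil => exact fun γ h => h
    | cons k l ih =>
      refine fun γ h => ih _ fun i => ?_
      have e : ((A k.succ)⁻¹.val * γ 0 * (A k.succ).val).trace = 0 := by
        rw [Matrix.trace_mul_comm, ← Matrix.mul_assoc, val_mul_inv, Matrix.one_mul, h]
      by_cases hk : i = k.succ
      · subst hk; simp [step, Matrix.trace_sub, h, e, -Matrix.SpecialLinearGroup.coe_inv]
      · by_cases hi : i = 0
        · subst hi; simp [step, hk, e, -Matrix.SpecialLinearGroup.coe_inv]
        · simp [step, hk, hi, h]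
  refine hφβ ?_
  rw [hrep' β hβ.1]
  refine pair_zero hspan (fun i => trace_tl (NeZero.ne r) (lam0 i)) (fun l => ?_) hβ
  refine (hrep' (dir A l) (hdirtr l _ fun i => ?_)).symm.trans
    (hφS' _ (Submodule.subset_span ⟨l, rfl⟩))
  by_cases hi : i = 0
  · subst hi; simp [trace_tl (NeZero.ne r)]
  · simp [hi]

end Vale.Agent.P002
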