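import Vale.Agent.P002.FirstOrder

/-!
Spectral projections, and functionals on centralisers which vanish on commutators and on cyclic
blocks.
-/

namespace Vale.Agent.P002

open Matrix Polynomial

variable {r : ℕ}

/-- Spectral projections of a matrix as polynomials in it. -/
theorem exists_spectral (a : Mat r) : ∃ (Λ : Finset ℂ) (e : ℂ → ℂ[X]),
    (∑ l ∈ Λ, aeval a (e l) = 1) ∧
    (∀ l ∈ Λ, ∀ m ∈ Λ, aeval a (e l) * aeval a (e m) = if l = m then aeval a (e l) else 0) ∧
    (∀ l ∈ Λ, ((a - l • 1) * aeval a (e l)) ^ (r + 1) = 0) ∧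
    (∀ l ∈ Λ, aeval a (e l) ≠ 0 ∧ ∃ v : Fin r → ℂ, v ≠ 0 ∧ a *ᵥ v = l • v) := by
  classical
  set Λ := a.charpoly.roots.toFinset with hΛ
  let F : ℂ → ℂ[X] := fun l => (X - C l) ^ r
  let G : ℂ → ℂ[X] := fun l => ∏ m ∈ Λ.erase l, F m
  have hco : ∀ l m, l ≠ m → IsCoprime (F l) (F m) := fun l m h =>
    (isCoprime_X_sub_C_of_isUnit_sub (sub_ne_zero.2 h).isUnit).pow
  have hco' : ∀ l, IsCoprime (F l) (G l) := fun l =>
    IsCoprime.prod_right fun m hm => hco l m (Finset.ne_of_mem_erase hm).symm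
  choose u w huw using hco'
  let e : ℂ → ℂ[X] := fun l => w l * G l
  have hall : aeval a (∏ m ∈ Λ, F m) = 0 := by
    have hd : a.charpoly ∣ ∏ m ∈ Λ, F m := by
      rw [(IsAlgClosed.splits a.charpoly).eq_prod_roots_of_monic (Matrix.charpoly_monic a),
        Finset.prod_multiset_map_count]
      refine Finset.prod_dvd_prod_of_dvd _ _ fun m hm => pow_dvd_pow _ ?_
      refine (Multiset.count_le_card _ _).trans ((Polynomial.card_roots' _).trans ?_)
      rw [Matrix.charpoly_natDegree_eq_dim]; simp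
    obtain ⟨c, hc⟩ := hd
    rw [hc, map_mul, Matrix.aeval_self_charpoly, zero_mul]
  have hkill : ∀ P : ℂ[X], (∀ m ∈ Λ, F m ∣ P) → aeval a P = 0 := fun P hP => by
    obtain ⟨c, hc⟩ := Finset.prod_dvd_of_coprime (fun l _ m _ h => hco l m h) hP
    rw [hc, map_mul, hall, zero_mul]
  have he1 : ∀ l, F l ∣ e l - 1 := fun l => ⟨-u l, by linear_combination huw l⟩
  have he0 : ∀ l, ∀ m ∈ Λ, m ≠ l → F m ∣ e l := fun l m hm hml =>
    (Finset.dvd_prod_of_mem F (Finset.mem_erase.2 ⟨hml, hm⟩)).mul_left _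
  have hsum : ∑ l ∈ Λ, aeval a (e l) = 1 := by
    rw [← map_sum, ← sub_eq_zero, ← map_one (aeval (R := ℂ) a), ← map_sub]
    refine hkill _ fun m hm => ?_
    rw [← Finset.add_sum_erase _ _ hm, add_sub_right_comm]
    exact dvd_add (he1 m) (Finset.dvd_sum fun l hl => he0 l m hm (Finset.ne_of_mem_erase hl).symm)
  have hidem : ∀ l ∈ Λ, ∀ m ∈ Λ,
      aeval a (e l) * aeval a (e m) = if l = m then aeval a (e l) else 0 := by
    intro l hl m hm
    split_ifs with h
    · subst h
      rw [← map_mul, ← sub_eq_zero, ← map_sub]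
      refine hkill _ fun x hx => ?_
      by_cases hxl : x = l
      · subst hxl
        have := (he1 x).mul_left (e x)
        rwa [mul_sub, mul_one] at this
      · exact dvd_sub ((he0 l x hx hxl).mul_left _) (he0 l x hx hxl)
    · rw [← map_mul]
      refine hkill _ fun x hx => ?_
      by_cases hxl : x = l
      · subst hxl; exact (he0 m x hx h).mul_left _
      · exact (he0 l x hx hxl).mul_right _
  refine ⟨Λ, e, hsum, hidem, fun l hl => ?_, fun l hl => ?_⟩
  · rw [show a - l • (1 : Mat r) = aeval a (X - C l) by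
      simp [Algebra.algebraMap_eq_smul_one], ← map_mul, ← map_pow, mul_pow]
    refine hkill _ fun x hx => ?_
    by_cases hxl : x = l
    · subst hxl; exact (pow_dvd_pow _ (Nat.le_succ r)).mul_right _
    · exact ((he0 l x hx hxl).pow (Nat.succ_ne_zero r)).mul_left _
  · have hroot : a.charpoly.IsRoot l :=
      (Polynomial.mem_roots (Matrix.charpoly_monic a).ne_zero).1 (Multiset.mem_toFinset.1 hl)
    rw [Polynomial.IsRoot, Matrix.eval_charpoly] at hroot
    obtain ⟨v, hv0, hv⟩ := Matrix.exists_mulVec_eq_zero_iff.2 hroot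
    rw [Matrix.sub_mulVec, sub_eq_zero] at hv
    have hav : a *ᵥ v = l • v := by simpa using hv.symm
    have hP : ∀ P : ℂ[X], aeval a P *ᵥ v = P.eval l • v := fun P => by
      induction P using Polynomial.induction_on with
      | C c => simp [Algebra.algebraMap_eq_smul_one, Matrix.smul_mulVec]
      | add p q hp hq => simp [Matrix.add_mulVec, hp, hq, add_smul]
      | monomial k c ih =>
        rw [pow_succ, ← mul_assoc, map_mul, aeval_X, ← Matrix.mulVec_mulVec, hav,
          Matrix.mulVec_smul, ih, smul_smul]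
        simp only [eval_mul, eval_X]
        ring_nf
    refine ⟨fun h => ?_, v, hv0, hav⟩
    have hr0 : r ≠ 0 := by
      rintro rfl
      exact hv0 (Subsingleton.elim _ _)
    have h1 : (e l).eval l = 1 := by
      obtain ⟨c, hc⟩ := he1 l
      have := congrArg (Polynomial.eval l) hc
      simpa [F, zero_pow hr0, sub_eq_zero] using this
    have := hP (e l)
    rw [h, Matrix.zero_mulVec, h1, one_smul] at this
    exact hv0 this.symm

lemma commute_aeval {a X : Mat r} (h : Commute a X) (p : ℂ[X]) : Commute (aeval a p) X := by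
  induction p using Polynomial.induction_on with
  | C c => simpa using Algebra.commute_algebraMap_left c X
  | add p q hp hq => simpa using hp.add_left hq
  | monomial k c ih =>
    rw [pow_succ, ← mul_assoc, map_mul, aeval_X]
    exact ih.mul_left h

lemma trace_nilpotent {Z : Mat r} (h : IsNilpotent Z) : Z.trace = 0 :=
  (Matrix.isNilpotent_trace_of_isNilpotent h).eq_zero

lemma trace_idem_ne_zero {e : Mat r} (h : e * e = e) (h0 : e ≠ 0) : e.trace ≠ 0 := by
  have hp : LinearMap.IsProj (LinearMap.range (Matrix.toLin' e)) (Matrix.toLin' e) :=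
    ⟨fun x => LinearMap.mem_range_self _ x, by
      rintro _ ⟨x, rfl⟩
      rw [← LinearMap.comp_apply, ← Matrix.toLin'_mul, h]⟩
  rw [← Matrix.trace_toLin'_eq, hp.trace]
  intro hc
  rw [Nat.cast_eq_zero, Submodule.finrank_eq_zero, LinearMap.range_eq_bot] at hc
  exact h0 (Matrix.toLin'.injective (by rw [hc, map_zero]))

/-- The value of a polynomial in `a` paired with an element of a spectral block. -/
lemma trace_aeval_block {a P Z : Mat r} {l : ℂ} (hN : IsNilpotent ((a - l • 1) * P))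
    (hPa : Commute a P) (hZ : Commute a Z) (hPZ : P * Z = Z) (hZP : Z * P = Z) (f : ℂ[X]) :
    (aeval a f * Z).trace = f.eval l * Z.trace := by
  obtain ⟨g, hg⟩ := Polynomial.X_sub_C_dvd_sub_C_eval (a := l) (p := f)
  have e : aeval a f = f.eval l • 1 + (a - l • 1) * aeval a g := by
    have := congrArg (aeval a) hg
    simp only [map_sub, map_mul, aeval_X, aeval_C, Algebra.algebraMap_eq_smul_one] at this
    rw [← this]; abel
  rw [e, add_mul, Matrix.trace_add, smul_mul_assoc, Matrix.one_mul, Matrix.trace_smul,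
    smul_eq_mul, add_eq_left]
  refine trace_nilpotent ?_
  have e2 : (a - l • 1) * aeval a g * Z = (a - l • 1) * P * (aeval a g * Z) := by
    conv_lhs => rw [← hPZ]
    rw [Matrix.mul_assoc, ← Matrix.mul_assoc (aeval a g) P Z, (commute_aeval hPa g).eq]
    simp only [Matrix.mul_assoc]
  rw [e2]
  have hc : Commute (a - l • 1) (aeval a g * Z) :=
    (((commute_aeval (Commute.refl a) g).symm.mul_right hZ).sub_left
      ((Commute.one_left _).smul_left l))
  have hc' : Commute P (aeval a g * Z) :=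
    (commute_aeval hPa g).symm.mul_right (show P * Z = Z * P by rw [hPZ, hZP])
  exact (hc.mul_left hc').isNilpotent_mul_right hN

/-- Cyclic block element. -/
def blockT (N : Mat r) (k : ℕ) (M : Mat r) : Mat r :=
  ∑ i ∈ Finset.range k, N ^ i * M * N ^ (k - 1 - i)

lemma blockT_comm (N : Mat r) {k : ℕ} {M : Mat r} (h1 : N ^ k * M = 0) (h2 : M * N ^ k = 0) :
    Commute N (blockT N k M) := by
  show N * blockT N k M = blockT N k M * N
  rw [← sub_eq_zero, blockT, Finset.mul_sum, Finset.sum_mul, ← Finset.sum_sub_distrib]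
  let f : ℕ → Mat r := fun i => N ^ i * M * N ^ (k - i)
  have e : ∀ i ∈ Finset.range k, N * (N ^ i * M * N ^ (k - 1 - i)) -
      N ^ i * M * N ^ (k - 1 - i) * N = f (i + 1) - f i := by
    intro i hi
    have hi' := Finset.mem_range.1 hi
    simp only [f]
    rw [pow_succ' N i, show k - (i + 1) = k - 1 - i by omega,
      show k - i = k - 1 - i + 1 by omega, pow_succ]
    simp only [Matrix.mul_assoc]
  rw [Finset.sum_congr rfl e, Finset.sum_range_sub f]
  simp [f, h1, h2]

/-- A functional on a centraliser vanishing on commutators and cyclic blocks is zero. -/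
theorem centraliser_functional (N P : Mat r) (hPP : P * P = P) (hNP : Commute N P)
    {K : ℕ} (hnil : N ^ K * P = 0) (Γ : Mat r →ₗ[ℂ] ℂ)
    (hΓc : ∀ X Y : Mat r, Commute N X → Commute N Y → P * X * P = X → P * Y * P = Y →
      Γ (X * Y - Y * X) = 0)
    (hΓT : ∀ (k : ℕ) (v w : Fin r → ℂ), k ≤ K → N ^ k *ᵥ v = 0 → w ᵥ* N ^ k = 0 → P *ᵥ v = v →
      w ᵥ* P = w → Γ (blockT N k (vecMulVec v w)) = 0)
    (X : Mat r) (hX : Commute N X) (hPX : P * X * P = X) : Γ X = 0 := by
  classical
  suffices H : ∀ m : ℕ, ∀ e : Mat r, Module.finrank ℂ (LinearMap.range (Matrix.mulVecLin e)) = m →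
      e * e = e → Commute N e → P * e = e → e * P = e →
      ∀ Y, Commute N Y → e * Y * e = Y → Γ Y = 0 from
    H _ P rfl hPP hNP hPP hPP X hX hPX
  intro m
  induction m using Nat.strong_induction_on with
  | _ m ih =>
  intro e hm hee hNe hPe heP Y hY heY
  by_cases he0 : e = 0
  · subst he0; rw [← heY]; simp
  have hex : ∃ k, N ^ k * e = 0 := by
    exact ⟨K, by rw [← hPe, ← Matrix.mul_assoc, hnil, Matrix.zero_mul]⟩
  set k := Nat.find hex with hk
  have hke : N ^ k * e = 0 := Nat.find_spec hex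
  have hk0 : k ≠ 0 := fun h => he0 (by simpa [h] using hke)
  have hkK : k ≤ K := Nat.find_le (by rw [← hPe, ← Matrix.mul_assoc, hnil, Matrix.zero_mul])
  have hkm : N ^ (k - 1) * e ≠ 0 := Nat.find_min hex (by omega)
  obtain ⟨v₀, hv₀⟩ : ∃ v, (N ^ (k - 1) * e) *ᵥ v ≠ 0 := by
    by_contra h
    push Not at h
    exact hkm (Matrix.ext_of_mulVec_single fun i => by rw [h, Matrix.zero_mulVec])
  set v := e *ᵥ v₀ with hv
  have hev : e *ᵥ v = v := by rw [hv, Matrix.mulVec_mulVec, hee]
  have hNv : N ^ (k - 1) *ᵥ v ≠ 0 := by rwa [hv, Matrix.mulVec_mulVec]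
  have hkv : ∀ j, k ≤ j → N ^ j *ᵥ v = 0 := fun j hj => by
    obtain ⟨t, rfl⟩ := Nat.exists_eq_add_of_le hj
    rw [add_comm, pow_add, hv, Matrix.mulVec_mulVec, Matrix.mul_assoc, hke, Matrix.mul_zero,
      Matrix.zero_mulVec]
  let L : (Fin k → ℂ) →ₗ[ℂ] (Fin r → ℂ) := Fintype.linearCombination ℂ fun i : Fin k => N ^ (i : ℕ) *ᵥ v
  have hinj : LinearMap.ker L = ⊥ := by
    rw [LinearMap.ker_eq_bot']
    intro c hc
    simp only [L, Fintype.linearCombination_apply] at hc
    have key : ∀ t : ℕ, ∀ i : Fin k, (i : ℕ) = t → c i = 0 := by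
      intro t
      induction t using Nat.strong_induction_on with
      | _ t iht =>
      intro i hi
      have h := congrArg (N ^ (k - 1 - t) *ᵥ ·) hc
      simp only [Matrix.mulVec_sum, Matrix.mulVec_smul, Matrix.mulVec_mulVec, ← pow_add,
        Matrix.mulVec_zero] at h
      rw [Finset.sum_eq_single i (fun j _ hj => ?_) (by simp)] at h
      · rw [show k - 1 - t + (i : ℕ) = k - 1 by omega] at h
        exact (smul_eq_zero.1 h).resolve_right hNv
      · have hj' : (j : ℕ) ≠ t := fun h' => hj (Fin.ext (h'.trans hi.symm))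
        rcases Nat.lt_or_gt_of_ne hj' with hlt | hgt
        · rw [iht _ hlt j rfl, zero_smul]
        · rw [hkv _ (by omega), smul_zero]
    exact funext fun i => key _ i rfl
  obtain ⟨J, hJ⟩ := LinearMap.exists_leftInverse_of_injective L hinj
  let w₀ : Fin r → ℂ := fun i => J (Pi.single i 1) ⟨k - 1, by omega⟩
  have hw₀ : ∀ z, w₀ ⬝ᵥ z = J z ⟨k - 1, by omega⟩ := fun z => by
    conv_rhs => rw [pi_eq_sum_univ' z]
    simp [map_sum, dotProduct, w₀, Finset.sum_apply, mul_comm]
  set w := w₀ ᵥ* e with hw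
  have hwe : w ᵥ* e = w := by rw [hw, Matrix.vecMul_vecMul, hee]
  have hwN : ∀ j, w ⬝ᵥ (N ^ j *ᵥ v) = if j = k - 1 then 1 else 0 := fun j => by
    have e1 : e *ᵥ (N ^ j *ᵥ v) = N ^ j *ᵥ v := by
      rw [Matrix.mulVec_mulVec, ← ((hNe.pow_left j).eq), ← Matrix.mulVec_mulVec, hev]
    rw [hw, ← Matrix.dotProduct_mulVec, e1, hw₀]
    by_cases hj : j < k
    · have := LinearMap.congr_fun hJ (Pi.single (⟨j, hj⟩ : Fin k) 1)
      simp only [L, LinearMap.comp_apply, Fintype.linearCombination_apply_single, one_smul,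
        LinearMap.id_apply] at this
      rw [this]
      by_cases hjk : j = k - 1
      · subst hjk; simp
      · rw [if_neg hjk, Pi.single_eq_of_ne (fun h => hjk (congrArg Fin.val h).symm)]
    · rw [hkv j (by omega), map_zero, Pi.zero_apply, if_neg (by omega)]
  have hwk : w ᵥ* N ^ k = 0 := by
    rw [← hwe, Matrix.vecMul_vecMul, ← (hNe.pow_left k).eq, hke, Matrix.vecMul_zero]
  set T := blockT N k (vecMulVec v w) with hT
  have hTapp : ∀ x, T *ᵥ x =
      ∑ i ∈ Finset.range k, (w ⬝ᵥ (N ^ (k - 1 - i) *ᵥ x)) • (N ^ i *ᵥ v) := fun x => by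
    rw [hT, blockT, Matrix.sum_mulVec]
    refine Finset.sum_congr rfl fun i _ => ?_
    rw [← Matrix.mulVec_mulVec, ← Matrix.mulVec_mulVec, Matrix.vecMulVec_mulVec,
      op_smul_eq_smul, Matrix.mulVec_smul]
  have hTN : Commute N T := blockT_comm N
    (by rw [Matrix.mul_vecMulVec, hkv k le_rfl, Matrix.zero_vecMulVec])
    (by rw [Matrix.vecMulVec_mul, hwk, Matrix.vecMulVec_zero])
  have hTv : T *ᵥ v = v := by
    rw [hTapp, Finset.sum_eq_single 0 (fun i hi hi0 => ?_) (fun h => absurd (by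
      simpa using Nat.pos_of_ne_zero hk0) h)]
    · simp [hwN]
    · have := Finset.mem_range.1 hi
      rw [hwN, if_neg (by omega), zero_smul]
  have hTj : ∀ j, T *ᵥ (N ^ j *ᵥ v) = N ^ j *ᵥ v := fun j => by
    rw [Matrix.mulVec_mulVec, ← (hTN.pow_left j).eq, ← Matrix.mulVec_mulVec, hTv]
  have hTT : T * T = T := Matrix.ext_of_mulVec_single fun x => by
    rw [← Matrix.mulVec_mulVec, hTapp (Pi.single x 1), Matrix.mulVec_sum]
    simp only [Matrix.mulVec_smul, hTj]
  have hej : ∀ j, Commute e (N ^ j) := fun j => (hNe.pow_left j).symm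
  have heT : e * T = T := by
    simp only [hT, blockT, Finset.mul_sum, ← Matrix.mul_assoc, (hej _).eq]
    refine Finset.sum_congr rfl fun i _ => ?_
    rw [Matrix.mul_assoc (N ^ i) e, Matrix.mul_vecMulVec, hev]
  have hTe : T * e = T := by
    simp only [hT, blockT, Finset.sum_mul, Matrix.mul_assoc, ← (hej _).eq]
    refine Finset.sum_congr rfl fun i _ => ?_
    rw [← Matrix.mul_assoc (vecMulVec v w) e, Matrix.vecMulVec_mul, hwe]
  have hPT : P * T = T := by rw [← heT, ← Matrix.mul_assoc, hPe]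
  have hTP : T * P = T := by rw [← hTe, Matrix.mul_assoc, heP]
  have hTXT : ∀ Z, Commute N Z → T * Z * T =
      ∑ j ∈ Finset.range k, (w ⬝ᵥ (N ^ (k - 1 - j) *ᵥ (Z *ᵥ v))) •
        blockT N k (vecMulVec (N ^ j *ᵥ v) w) := by
    intro Z hZ
    have e2 : ∀ j, blockT N k (vecMulVec (N ^ j *ᵥ v) w) = N ^ j * T := fun j => by
      simp only [hT, blockT, Finset.mul_sum, ← Matrix.mul_vecMulVec, ← Matrix.mul_assoc,
        ((Commute.refl N).pow_pow _ _).eq]
    simp only [e2]
    refine Matrix.ext_of_mulVec_single fun x => ?_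
    set d : Fin r → ℂ := Pi.single x 1 with hd
    rw [Matrix.sum_mulVec]
    simp only [Matrix.smul_mulVec, ← Matrix.mulVec_mulVec, hTapp d, Matrix.mulVec_sum,
      Matrix.mulVec_smul]
    have e3 : ∀ i, T *ᵥ (Z *ᵥ (N ^ i *ᵥ v)) = N ^ i *ᵥ (T *ᵥ (Z *ᵥ v)) := fun i => by
      simp only [Matrix.mulVec_mulVec]
      rw [← (hZ.pow_left i).eq, ← Matrix.mul_assoc T, ← (hTN.pow_left i).eq, Matrix.mul_assoc]
    simp only [e3]
    simp only [hTapp (Z *ᵥ v)]
    simp only [Matrix.mulVec_sum, Matrix.mulVec_smul, Finset.smul_sum]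
    simp only [smul_smul, Matrix.mulVec_mulVec, ← pow_add]
    rw [Finset.sum_comm]
    refine Finset.sum_congr rfl fun i _ => Finset.sum_congr rfl fun j _ => ?_
    rw [mul_comm, add_comm]
  have h11 : Γ (T * Y * T) = 0 := by
    rw [hTXT Y hY, map_sum]
    refine Finset.sum_eq_zero fun j _ => ?_
    rw [map_smul, hΓT k _ w hkK ?_ hwk ?_ ?_, smul_zero]
    · rw [Matrix.mulVec_mulVec, ← pow_add, hkv _ (by omega)]
    · rw [Matrix.mulVec_mulVec, ← (hNP.pow_left j).eq, ← Matrix.mulVec_mulVec]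
      congr 1
      conv_lhs => rw [← hev]
      rw [Matrix.mulVec_mulVec, hPe, hev]
    · rw [← hwe, Matrix.vecMul_vecMul, heP]
  set e' := e - T with he'
  have he'e : e' * e' = e' := by
    rw [he', sub_mul, mul_sub, mul_sub, hee, heT, hTe, hTT]; abel
  have hTe' : T * e' = 0 := by rw [he', mul_sub, hTe, hTT, sub_self]
  have he'T : e' * T = 0 := by rw [he', sub_mul, heT, hTT, sub_self]
  have hlt : Module.finrank ℂ (LinearMap.range (Matrix.mulVecLin e')) < m := by
    rw [← hm]
    refine Submodule.finrank_lt_finrank_of_lt (lt_of_le_of_ne ?_ ?_)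
    · rintro _ ⟨x, rfl⟩
      refine ⟨e' *ᵥ x, ?_⟩
      simp only [Matrix.mulVecLin_apply, Matrix.mulVec_mulVec]
      rw [he', mul_sub, hee, heT]
    · intro hEq
      have hvm : v ∈ LinearMap.range (Matrix.mulVecLin e') := hEq ▸ ⟨v, hev⟩
      obtain ⟨x, hx⟩ := hvm
      have := congrArg (T *ᵥ ·) hx
      simp only [Matrix.mulVecLin_apply, Matrix.mulVec_mulVec, hTe', Matrix.zero_mulVec, hTv] at this
      exact hNv (by rw [← this, Matrix.mulVec_zero])
  have hNe' : Commute N e' := hNe.sub_right hTN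
  have hPe' : P * e' = e' := by rw [he', mul_sub, hPe, hPT]
  have he'P : e' * P = e' := by rw [he', sub_mul, heP, hTP]
  have h22 : Γ (e' * Y * e') = 0 :=
    ih _ hlt e' rfl he'e hNe' hPe' he'P _ ((hNe'.mul_right hY).mul_right hNe')
      (by simp only [← Matrix.mul_assoc, he'e]; rw [Matrix.mul_assoc _ e' e', he'e])
  have h12 : Γ (T * Y * e') = 0 := by
    have := hΓc T (T * Y * e') hTN ((hTN.mul_right hY).mul_right hNe') (by rw [hPT, hTP])
      (by simp only [← Matrix.mul_assoc, hPT]; rw [Matrix.mul_assoc _ e' P, he'P])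
    rwa [← Matrix.mul_assoc T (T * Y) e', ← Matrix.mul_assoc T T Y, hTT,
      Matrix.mul_assoc (T * Y) e' T, he'T, Matrix.mul_zero, sub_zero] at this
  have h21 : Γ (e' * Y * T) = 0 := by
    have := hΓc (e' * Y * T) T ((hNe'.mul_right hY).mul_right hTN) hTN
      (by simp only [← Matrix.mul_assoc, hPe']; rw [Matrix.mul_assoc _ T P, hTP]) (by rw [hPT, hTP])
    rwa [Matrix.mul_assoc (e' * Y) T T, hTT, ← Matrix.mul_assoc T (e' * Y) T,
      ← Matrix.mul_assoc T e' Y, hTe', Matrix.zero_mul, Matrix.zero_mul, sub_zero] at this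
  have hY' : Y = T * Y * T + T * Y * e' + e' * Y * T + e' * Y * e' := by
    conv_lhs => rw [← heY]
    rw [he']
    simp only [sub_mul, mul_sub, Matrix.mul_assoc]
    abel
  rw [hY', map_add, map_add, map_add, h11, h12, h21, h22]
  simp

end Vale.Agent.P002
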