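import Vale.Agent.P002.Chart

/-!
The linearised relator at an arbitrary representation, its surjectivity, and curves of
representations with prescribed velocity.
-/

namespace Vale.Agent.P002

open Matrix Filter Topology
open scoped ContDiff

variable {r n : ℕ}

/-- Conjugation. -/
noncomputable def adj (g : SLC r) : Mat r →ₗ[ℂ] Mat r :=
  LinearMap.mulLeft ℂ g.val ∘ₗ LinearMap.mulRight ℂ g⁻¹.val

lemma adj_apply (g : SLC r) (X : Mat r) : adj g X = g.val * X * g⁻¹.val := by
  simp [adj, Matrix.mul_assoc]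

lemma trace_adj (g : SLC r) (X Y : Mat r) :
    (Y * adj g X).trace = (g⁻¹.val * Y * g.val * X).trace := by
  rw [adj_apply, ← Matrix.mul_assoc, ← Matrix.mul_assoc, Matrix.trace_mul_comm]
  simp only [Matrix.mul_assoc]

/-- First variation of a commutator. -/
noncomputable def pairD (a b : SLC r) (α β : Mat r) : Mat r :=
  adj a α + adj (a * b) β - adj (a * b) α - adj (a * b * a⁻¹) β

/-- First variation of a product. -/
noncomputable def prodD : ∀ {k : ℕ}, (Fin k → SLC r) → (Fin k → Mat r) → Mat r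
  | 0, _, _ => 0
  | _ + 1, C, X => X 0 + adj (C 0) (prodD (fun i => C i.succ) fun i => X i.succ)

lemma prodD_add : ∀ {k : ℕ} (C : Fin k → SLC r) (X X' : Fin k → Mat r),
    prodD C (X + X') = prodD C X + prodD C X'
  | 0, _, _, _ => by simp [prodD]
  | k + 1, C, X, X' => by
    simp only [prodD, Pi.add_apply]
    rw [show (fun i : Fin k => X i.succ + X' i.succ) = (fun i => X i.succ) + fun i => X' i.succ
      from rfl, prodD_add, map_add]
    abel

lemma prodD_smul : ∀ {k : ℕ} (C : Fin k → SLC r) (c : ℂ) (X : Fin k → Mat r),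
    prodD C (c • X) = c • prodD C X
  | 0, _, _, _ => by simp [prodD]
  | k + 1, C, c, X => by
    simp only [prodD, Pi.smul_apply]
    rw [show (fun i : Fin k => c • X i.succ) = c • (fun i => X i.succ) from rfl, prodD_smul,
      map_smul, smul_add]

/-- The handle commutator. -/
def comm (σ : Handles n (SLC r)) (i : Fin (n + 1)) : SLC r :=
  σ.1 i * σ.2 i * (σ.1 i)⁻¹ * (σ.2 i)⁻¹

lemma relator_comm (σ : Handles n (SLC r)) : relator σ = (List.ofFn (comm σ)).prod :=
  relator_ofFn σ

/-- First variation of the relator. -/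
noncomputable def relD (σ : Handles n (SLC r)) (τ : Var n r → ℂ) : Mat r :=
  prodD (comm σ) fun i =>
    pairD (σ.1 i) (σ.2 i) (tl (matOf τ (i, false))) (tl (matOf τ (i, true)))

/-- Perturbation of a representation. -/
noncomputable def par (σ : Handles n (SLC r)) (τ : Var n r → ℂ) : Handles n (SLC r) :=
  (fun i => σ.1 i * expM (matOf τ (i, false)), fun i => σ.2 i * expM (matOf τ (i, true)))

lemma expM_zero : expM (0 : Mat r) = 1 := Subtype.ext (by simp [expM, tl])

lemma matOf_zero (v : Fin (n + 1) × Bool) : matOf (0 : Var n r → ℂ) v = 0 := by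
  ext; simp [matOf]

lemma par_zero (σ : Handles n (SLC r)) : par σ 0 = σ := by
  simp [par, matOf_zero, expM_zero]

lemma tl_smul (c : ℂ) (M : Mat r) : tl (c • M) = c • tl M := by
  simp [tl, Matrix.trace_smul, smul_sub, smul_smul, mul_div_assoc]

lemma tl_of_trace {M : Mat r} (h : M.trace = 0) : tl M = M := by simp [tl, h]

variable {X : Type*} [NormedAddCommGroup X] [NormedSpace ℂ X]

lemma smooth_par {σ : X → Handles n (SLC r)} {τ : X → Var n r → ℂ} (hσ : SmoothH σ)
    (hτ : ContDiff ℂ ω τ) : SmoothH fun x => par (σ x) (τ x) := fun i => by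
  have h : ∀ v, Smooth fun x => (expM (matOf (τ x) v)).val := fun v =>
    Smooth.exp (Smooth.tl fun a b => (contDiff_apply ℂ ℂ (v, a, b)).comp hτ)
  exact ⟨(hσ i).1.mul (h _), (hσ i).2.mul (h _)⟩

lemma smooth_relator {σ : X → Handles n (SLC r)} (hσ : SmoothH σ) :
    Smooth fun x => (relator (σ x)).val := by
  have hS := smooth_stable (r := r) (X := X)
  simp only [relator_ofFn]
  exact hS.list_prod _ fun i =>
    hS.mul _ _ (hS.mul _ _ (hS.mul _ _ (hσ i).1 (hσ i).2) (hS.inv _ (hσ i).1)) (hS.inv _ (hσ i).2)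

lemma hasD_mulRight {M : ℂ → Mat r} {v : Mat r} (h : HasD M v) (G : Mat r) :
    HasD (fun s => M s * G) (v * G) := (h.mul (hasD_const G)).congr (by simp)

lemma hasD_prod : ∀ {k : ℕ} (f : Fin k → ℂ → SLC r) (X : Fin k → Mat r),
    (∀ i, HasD (fun s => (f i s).val) (X i * (f i 0).val)) →
    HasD (fun s => ((List.ofFn fun i => f i s).prod).val)
      (prodD (fun i => f i 0) X * ((List.ofFn fun i => f i 0).prod).val)
  | 0, f, X, _ => by simpa [prodD] using hasD_const (1 : Mat r)
  | k + 1, f, X, h => by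
    simp only [List.ofFn_succ, List.prod_cons, Matrix.SpecialLinearGroup.coe_mul]
    refine ((h 0).mul (hasD_prod (fun i => f i.succ) (fun i => X i.succ) fun i => h i.succ)).congr ?_
    simp only [prodD, adj_apply, add_mul, Matrix.mul_assoc]
    rw [← Matrix.mul_assoc (f 0 0)⁻¹.val (f 0 0).val, val_inv_mul, Matrix.one_mul]

lemma hasD_expM (M : Mat r) : HasD (fun s => (expM (s • M)).val) (tl M) := by
  simpa [expM, tl_smul] using hasD_exp (tl M)

lemma comm_alg {R : Type*} [Ring R] (A B A' B' α β : R) (hA : A' * A = 1) (hB : B' * B = 1)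
    (hA' : A * A' = 1) :
    ((A * α * B + A * (B * β)) * A' + A * B * -(α * A')) * B' + A * B * A' * -(β * B') =
      (A * α * A' + A * B * β * (B' * A') - A * B * α * (B' * A') -
          A * B * A' * β * (A * (B' * A'))) * (A * B * A' * B') := by
  have c1 : ∀ Z, A' * (A * Z) = Z := fun Z => by rw [← mul_assoc, hA, one_mul]
  have c2 : ∀ Z, B' * (B * Z) = Z := fun Z => by rw [← mul_assoc, hB, one_mul]
  have c3 : ∀ Z, A * (A' * Z) = Z := fun Z => by rw [← mul_assoc, hA', one_mul]
  simp only [add_mul, sub_mul, mul_neg, neg_mul, mul_assoc, c1, c2, c3]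
  abel

lemma hasD_comm_curves (a b : SLC r) {f g : ℂ → SLC r} {α β : Mat r}
    (hf : Smooth fun s => (f s).val) (hg : Smooth fun s => (g s).val)
    (hA : HasD (fun s => (f s).val) α) (hB : HasD (fun s => (g s).val) β)
    (hf0 : f 0 = 1) (hg0 : g 0 = 1) :
    HasD (fun s => (a * f s * (b * g s) * (a * f s)⁻¹ * (b * g s)⁻¹).val)
      (pairD a b α β * (a * b * a⁻¹ * b⁻¹).val) := by
  have k1 : HasD (fun s => (a * f s).val) (a.val * α) :=
    ((hasD_const a.val).mul hA).congr (by simp)
  have k2 : HasD (fun s => (b * g s).val) (b.val * β) :=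
    ((hasD_const b.val).mul hB).congr (by simp)
  have k3 : HasD (fun s => ((f s)⁻¹ * a⁻¹).val) (-(α * a⁻¹.val)) :=
    ((hasD_inv_of_one hf hA hf0).mul (hasD_const a⁻¹.val)).congr (by simp [neg_mul])
  have k4 : HasD (fun s => ((g s)⁻¹ * b⁻¹).val) (-(β * b⁻¹.val)) :=
    ((hasD_inv_of_one hg hB hg0).mul (hasD_const b⁻¹.val)).congr (by simp [neg_mul])
  have e : (fun s : ℂ => (a * f s * (b * g s) * (a * f s)⁻¹ * (b * g s)⁻¹).val) =
      fun s => (a * f s).val * (b * g s).val * ((f s)⁻¹ * a⁻¹).val * ((g s)⁻¹ * b⁻¹).val :=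
    funext fun s => congrArg Subtype.val
      (show a * f s * (b * g s) * (a * f s)⁻¹ * (b * g s)⁻¹ =
        a * f s * (b * g s) * ((f s)⁻¹ * a⁻¹) * ((g s)⁻¹ * b⁻¹) by
        rw [_root_.mul_inv_rev, _root_.mul_inv_rev])
  rw [e]
  refine (((k1.mul k2).mul k3).mul k4).congr ?_
  simp only [hf0, hg0, inv_one, one_mul, mul_one, pairD, adj_apply, _root_.mul_inv_rev, inv_inv,
    Matrix.SpecialLinearGroup.coe_mul]
  exact comm_alg a.val b.val a⁻¹.val b⁻¹.val α β (val_inv_mul a) (val_inv_mul b)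
    (val_mul_inv a)

lemma hasD_comm (a b : SLC r) (α β : Mat r) :
    HasD (fun s => (a * expM (s • α) * (b * expM (s • β)) * (a * expM (s • α))⁻¹ *
      (b * expM (s • β))⁻¹).val)
      (pairD a b (tl α) (tl β) * (a * b * a⁻¹ * b⁻¹).val) := by
  have hsm : ∀ M : Mat r, Smooth fun s : ℂ => (expM (s • M)).val := fun M =>
    Smooth.exp (Smooth.tl fun i j => by simpa using contDiff_id.mul contDiff_const)
  exact hasD_comm_curves a b (hsm α) (hsm β) (hasD_expM α) (hasD_expM β)
    (by rw [zero_smul]; exact expM_zero) (by rw [zero_smul]; exact expM_zero)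

lemma hasD_relator {σ : Handles n (SLC r)} (hσ : relator σ = 1) (τ : Var n r → ℂ) :
    HasD (fun s => (relator (par σ (s • τ))).val) (relD σ τ) := by
  have hm : ∀ (s : ℂ) v, matOf (s • τ) v = s • matOf τ v := fun s v => by ext; simp [matOf]
  have h := hasD_prod (fun i s => comm (par σ (s • τ)) i)
    (fun i => pairD (σ.1 i) (σ.2 i) (tl (matOf τ (i, false))) (tl (matOf τ (i, true)))) fun i => by
      simp only [comm, zero_smul, par_zero]
      simp only [par, hm]
      exact hasD_comm _ _ _ _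
  simp only [zero_smul, par_zero] at h
  have e : (List.ofFn fun i => comm σ i).prod = 1 := by
    rw [← hσ, relator_comm]
  rw [e, Matrix.SpecialLinearGroup.coe_one, Matrix.mul_one] at h
  simp only [relator_comm]
  exact h

/-- Two matrices defining the same functional on traceless matrices. -/
lemma eq_of_trace_pair [NeZero r] {M M' : Mat r} (ht : M.trace = M'.trace)
    (h : ∀ α : Mat r, α.trace = 0 → (M * α).trace = (M' * α).trace) : M = M' := by
  refine Matrix.ext_iff_trace_mul_right.2 fun Z => ?_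
  have hZ := h (tl Z) (trace_tl (NeZero.ne r) Z)
  rwa [tl, mul_sub, mul_sub, Matrix.trace_sub, Matrix.trace_sub, mul_smul_comm, mul_smul_comm,
    Matrix.mul_one, Matrix.mul_one, Matrix.trace_smul, Matrix.trace_smul, ht, sub_left_inj] at hZ

lemma trace_conj_eq (g : SLC r) (X : Mat r) : (g⁻¹.val * X * g.val).trace = X.trace := by
  rw [Matrix.trace_mul_comm, ← Matrix.mul_assoc, val_mul_inv, Matrix.one_mul]

lemma adj_fix {g : SLC r} {Y : Mat r} (h : g⁻¹.val * Y * g.val = Y) : Commute g.val Y := by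
  show g.val * Y = Y * g.val
  conv_lhs => rw [← h]
  simp only [← Matrix.mul_assoc, val_mul_inv, Matrix.one_mul]

lemma fix_of_commute {g : SLC r} {Y : Mat r} (h : Commute g.val Y) :
    g⁻¹.val * Y * g.val = Y := by
  rw [Matrix.mul_assoc, ← h.eq, ← Matrix.mul_assoc, val_inv_mul, Matrix.one_mul]

/-- Pairing with the variation of a commutator. -/
lemma trace_pairD (a b : SLC r) (Y α β : Mat r) :
    (Y * pairD a b α β).trace =
      ((a⁻¹.val * Y * a.val - (a * b)⁻¹.val * Y * (a * b).val) * α).trace +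
      (((a * b)⁻¹.val * Y * (a * b).val -
        (a * b * a⁻¹)⁻¹.val * Y * (a * b * a⁻¹).val) * β).trace := by
  simp only [pairD, mul_add, mul_sub, sub_mul, Matrix.trace_add, Matrix.trace_sub, trace_adj]
  ring

lemma conj_conj (g h : SLC r) (Y : Mat r) :
    (g * h)⁻¹.val * Y * (g * h).val = h⁻¹.val * (g⁻¹.val * Y * g.val) * h.val := by
  simp only [_root_.mul_inv_rev, Matrix.SpecialLinearGroup.coe_mul, Matrix.mul_assoc]

lemma commute_of_ann [NeZero r] {a b : SLC r} {Y : Mat r}
    (h : ∀ α β : Mat r, α.trace = 0 → β.trace = 0 → (Y * pairD a b α β).trace = 0) :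
    Commute a.val Y ∧ Commute b.val Y := by
  set v := a⁻¹.val * Y * a.val with hv
  set u := (a * b)⁻¹.val * Y * (a * b).val with hu
  have hu' : u = b⁻¹.val * v * b.val := conj_conj a b Y
  have h1 : v = u := eq_of_trace_pair (by rw [hv, hu, trace_conj_eq, trace_conj_eq])
    fun α hα => by
      have := h α 0 hα (Matrix.trace_zero _ _)
      rwa [trace_pairD, ← hv, ← hu, mul_zero, Matrix.trace_zero, add_zero, sub_mul,
        Matrix.trace_sub, sub_eq_zero] at this
  have h2 : u = (a⁻¹)⁻¹.val * u * (a⁻¹).val := eq_of_trace_pair (trace_conj_eq a⁻¹ u).symm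
    fun β hβ => by
      have := h 0 β (Matrix.trace_zero _ _) hβ
      rwa [trace_pairD, conj_conj (a * b) a⁻¹, ← hu, mul_zero, Matrix.trace_zero, zero_add,
        sub_mul, Matrix.trace_sub, sub_eq_zero] at this
  have hau : Commute a.val u := by
    show a.val * u = u * a.val
    rw [inv_inv] at h2
    conv_rhs => rw [h2]
    rw [Matrix.mul_assoc, val_inv_mul, Matrix.mul_one]
  have hY : Y = v := by
    have e : a.val * v * a⁻¹.val = Y := by
      rw [hv]
      simp only [← Matrix.mul_assoc, val_mul_inv, Matrix.one_mul]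
      rw [Matrix.mul_assoc, val_mul_inv, Matrix.mul_one]
    rw [← e, (h1 ▸ hau : Commute a.val v).eq, Matrix.mul_assoc, val_mul_inv, Matrix.mul_one]
  refine ⟨?_, ?_⟩
  · rw [hY, h1]; exact hau
  · rw [hY]
    exact adj_fix (by rw [← hu', ← h1])

/-- Annihilators of product variations commute with all factors. -/
lemma commute_of_prodD [NeZero r] : ∀ {k : ℕ} (a b : Fin k → SLC r) {Y : Mat r},
    (∀ α β : Fin k → Mat r, (∀ i, (α i).trace = 0) → (∀ i, (β i).trace = 0) →
      (Y * prodD (fun i => a i * b i * (a i)⁻¹ * (b i)⁻¹)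
        fun i => pairD (a i) (b i) (α i) (β i)).trace = 0) →
    ∀ i, Commute (a i).val Y ∧ Commute (b i).val Y
  | 0, _, _, _, _ => fun i => i.elim0
  | k + 1, a, b, Y, h => by
    have hp : ∀ g h' : SLC r, pairD g h' (0 : Mat r) 0 = 0 := fun g h' => by simp [pairD]
    have hz : ∀ C : Fin k → SLC r, prodD C 0 = 0 := fun C => by
      simpa using prodD_smul C (0 : ℂ) 0
    have h0 : Commute (a 0).val Y ∧ Commute (b 0).val Y := commute_of_ann fun α β hα hβ => by
      have := h (Fin.cons α fun _ => 0) (Fin.cons β fun _ => 0)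
        (Fin.cases (by simpa) fun _ => by simp) (Fin.cases (by simpa) fun _ => by simp)
      simp only [prodD, Fin.cons_zero, Fin.cons_succ, hp] at this
      rwa [show (fun _ : Fin k => (0 : Mat r)) = 0 from rfl, hz, map_zero, add_zero] at this
    have hc : Commute (a 0 * b 0 * (a 0)⁻¹ * (b 0)⁻¹).val Y := by
      have hi : ∀ g : SLC r, Commute g.val Y → Commute g⁻¹.val Y := fun g hg => by
        refine adj_fix ?_
        rw [inv_inv, hg.eq, Matrix.mul_assoc, val_mul_inv, Matrix.mul_one]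
      simp only [Matrix.SpecialLinearGroup.coe_mul]
      exact ((h0.1.mul_left h0.2).mul_left (hi _ h0.1)).mul_left (hi _ h0.2)
    refine Fin.cases h0 (commute_of_prodD (fun i => a i.succ) (fun i => b i.succ)
      fun α β hα hβ => ?_)
    have := h (Fin.cons 0 α) (Fin.cons 0 β) (Fin.cases (by simp) (by simpa using hα))
      (Fin.cases (by simp) (by simpa using hβ))
    simp only [prodD, Fin.cons_zero, Fin.cons_succ, hp, zero_add, trace_adj,
      fix_of_commute hc] at this
    exact this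

/-- Only scalars commute with the given matrices. -/
def Triv {κ : Type*} (g : κ → Mat r) : Prop :=
  ∀ Y : Mat r, (∀ k, Commute (g k) Y) → ∃ c : ℂ, Y = c • 1

/-- All generators. -/
def gens (σ : Handles n (SLC r)) (v : Fin (n + 1) × Bool) : Mat r :=
  if v.2 then (σ.2 v.1).val else (σ.1 v.1).val

/-- The generators of the last handles. -/
def tgens (σ : Handles n (SLC r)) (v : Fin n × Bool) : Mat r := gens σ (v.1.succ, v.2)

lemma matOf_eq_gens (σ : Handles n (SLC r)) (v : Fin (n + 1) × Bool) :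
    matOf (coord σ) v = gens σ v := by
  obtain ⟨i, b⟩ := v
  cases b
  · simp [gens, (matOf_coord σ i).1]
  · simp [gens, (matOf_coord σ i).2]

/-- An annihilator of the linearised relator. -/
lemma commute_of_relD [NeZero r] (σ : Handles n (SLC r)) {Y : Mat r}
    (h : ∀ τ, (Y * relD σ τ).trace = 0) : ∀ v, Commute (gens σ v) Y := by
  have := commute_of_prodD σ.1 σ.2 (Y := Y) fun α β hα hβ => by
    have h' := h fun v => if v.1.2 then β v.1.1 v.2.1 v.2.2 else α v.1.1 v.2.1 v.2.2
    have e1 : ∀ i, matOf (fun v : Var n r => if v.1.2 then β v.1.1 v.2.1 v.2.2 else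
        α v.1.1 v.2.1 v.2.2) (i, false) = α i := fun i => by ext; simp [matOf]
    have e2 : ∀ i, matOf (fun v : Var n r => if v.1.2 then β v.1.1 v.2.1 v.2.2 else
        α v.1.1 v.2.1 v.2.2) (i, true) = β i := fun i => by ext; simp [matOf]
    simp only [relD, e1, e2, tl_of_trace (hα _), tl_of_trace (hβ _)] at h'
    exact h'
  rintro ⟨i, b⟩
  cases b
  exacts [(this i).1, (this i).2]

/-- An annihilator of the linearised relator restricted to the last handles. -/
lemma commute_of_relD_tail [NeZero r] (σ : Handles n (SLC r)) {Y : Mat r}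
    (h : ∀ τ, (∀ b p, τ ((0, b), p) = 0) → (Y * relD σ τ).trace = 0) :
    ∀ v, Commute (tgens σ v) ((comm σ 0)⁻¹.val * Y * (comm σ 0).val) := by
  have := commute_of_prodD (fun i : Fin n => σ.1 i.succ) (fun i => σ.2 i.succ)
    (Y := (comm σ 0)⁻¹.val * Y * (comm σ 0).val) fun α β hα hβ => by
    let τ : Var n r → ℂ := fun v => Fin.cases (motive := fun _ => ℂ) 0
      (fun i => if v.1.2 then β i v.2.1 v.2.2 else α i v.2.1 v.2.2) v.1.1
    have h' := h τ fun b p => by simp [τ]
    have e0 : ∀ b, matOf τ (0, b) = 0 := fun b => by ext; simp [matOf, τ]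
    have e1 : ∀ i : Fin n, matOf τ (i.succ, false) = α i := fun i => by ext; simp [matOf, τ]
    have e2 : ∀ i : Fin n, matOf τ (i.succ, true) = β i := fun i => by ext; simp [matOf, τ]
    simp only [relD, prodD, e0, e1, e2, tl_of_trace (hα _), tl_of_trace (hβ _),
      tl_of_trace (Matrix.trace_zero (Fin r) ℂ)] at h'
    simp only [pairD, map_zero, add_zero, sub_zero, zero_add, trace_adj] at h'
    exact h'
  rintro ⟨i, b⟩
  cases b
  exacts [(this i).1, (this i).2]

/-- Entry pairs other than the first. -/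
abbrev Idx (r : ℕ) [NeZero r] := {p : Fin r × Fin r // p ≠ (0, 0)}

/-- The relation in coordinates. -/
noncomputable def relF [NeZero r] (σ : Handles n (SLC r)) : Idx r → ℂ :=
  fun p => (relator σ).val p.1.1 p.1.2

lemma eq_one_of_relF [NeZero r] {σ : Handles n (SLC r)}
    (h : relF σ = fun p => (1 : Mat r) p.1.1 p.1.2) : relator σ = 1 := by
  have h' : ∀ p, p ≠ ((0 : Fin r), (0 : Fin r)) →
      (relator σ).val p.1 p.2 = (1 : Mat r) p.1 p.2 := fun p hp => congrFun h ⟨p, hp⟩
  have hd : (relator σ).val = Matrix.diagonal (fun i => (relator σ).val i i) := by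
    ext i j
    by_cases hij : i = j
    · simp [hij]
    · simp [hij, h' (i, j) fun e => hij ((congrArg Prod.fst e).trans (congrArg Prod.snd e).symm)]
  have hdet := congrArg Matrix.det hd
  rw [Matrix.SpecialLinearGroup.det_coe, Matrix.det_diagonal,
    Finset.prod_eq_single 0 (fun i _ hi => by
      rw [h' (i, i) fun e => hi (congrArg Prod.fst e)]; simp) (by simp)] at hdet
  refine Subtype.ext (Matrix.ext fun i j => ?_)
  by_cases h0 : (i, j) = (0, 0)
  · obtain ⟨rfl, rfl⟩ := Prod.mk.injEq .. ▸ h0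
    simp [← hdet]
  · simpa using h' (i, j) h0

/-- A functional on coordinates is pairing with a matrix. -/
lemma exists_trace_rep [NeZero r] (φ : (Idx r → ℂ) →ₗ[ℂ] ℂ) : ∃ Y : Mat r, Y 0 0 = 0 ∧
    ∀ Z : Mat r, φ (fun p => Z p.1.1 p.1.2) = (Y * Z).trace := by
  classical
  refine ⟨Matrix.of fun b a => if h : (a, b) ≠ (0, 0) then φ (Pi.single ⟨(a, b), h⟩ 1) else 0,
    by simp, fun Z => ?_⟩
  conv_lhs => rw [← Finset.univ_sum_single (fun p : Idx r => Z p.1.1 p.1.2)]
  simp only [map_sum, Matrix.trace, Matrix.diag, Matrix.mul_apply, Matrix.of_apply]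
  rw [Finset.sum_comm, ← Fintype.sum_prod_type']
  rw [← Finset.sum_subtype (Finset.univ.filter fun p : Fin r × Fin r => p ≠ (0, 0)) (by simp)
    (fun p => if h : p ≠ (0, 0) then φ (Pi.single ⟨p, h⟩ (Z p.1 p.2)) else 0) |>.trans
    (Finset.sum_congr rfl fun p _ => dif_pos p.2), Finset.sum_filter]
  refine Finset.sum_congr rfl fun p _ => ?_
  by_cases hp : p = (0, 0)
  · subst hp; simp
  · rw [if_pos hp, dif_pos hp, dif_pos hp,
      show Pi.single (⟨p, hp⟩ : Idx r) (Z p.1 p.2) =
        Z p.1 p.2 • (Pi.single (⟨p, hp⟩ : Idx r) (1 : ℂ) : Idx r → ℂ) by simp [← Pi.single_smul],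
      map_smul, smul_eq_mul, mul_comm]

/-- The perturbed relation. -/
noncomputable def relMap [NeZero r] (σ : Handles n (SLC r)) (τ : Var n r → ℂ) : Idx r → ℂ :=
  relF (par σ τ)

lemma smoothH_const (σ : Handles n (SLC r)) : SmoothH fun _ : X => σ :=
  fun _ => ⟨Smooth.const _, Smooth.const _⟩

lemma hasStrict_relMap [NeZero r] (σ : Handles n (SLC r)) :
    HasStrictFDerivAt (relMap σ) (fderiv ℂ (relMap σ) 0) 0 :=
  (contDiff_pi.2 fun p : Idx r => (smooth_relator (smooth_par (smoothH_const σ) contDiff_id))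
    p.1.1 p.1.2 : ContDiff ℂ ω (relMap σ)).contDiffAt.hasStrictFDerivAt (by simp)

lemma fderiv_relMap [NeZero r] {σ : Handles n (SLC r)} (hσ : relator σ = 1) (τ : Var n r → ℂ) :
    fderiv ℂ (relMap σ) 0 τ = fun p => relD σ τ p.1.1 p.1.2 := by
  have h1 : HasDerivAt (fun s : ℂ => relMap σ (s • τ)) (fderiv ℂ (relMap σ) 0 τ) 0 :=
    (hasStrict_relMap σ).hasFDerivAt.comp_hasDerivAt_of_eq 0
      (by simpa using (hasDerivAt_id (0 : ℂ)).smul_const τ) (zero_smul ℂ τ).symm
  funext p
  exact (hasDerivAt_pi.1 h1 p).unique (hasD_relator hσ τ p.1.1 p.1.2)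

/-- Surjectivity of the linearised relation. -/
lemma range_relMap [NeZero r] {σ : Handles n (SLC r)} (hσ : relator σ = 1)
    (hT : Triv (gens σ)) :
    (fderiv ℂ (relMap σ) 0 : (Var n r → ℂ) →ₗ[ℂ] (Idx r → ℂ)).range = ⊤ := by
  by_contra hne
  obtain ⟨x, hx⟩ := SetLike.exists_not_mem_of_ne_top _ hne
  obtain ⟨φ, hφx, hφ⟩ := Submodule.exists_dual_map_eq_bot_of_notMem hx inferInstance
  obtain ⟨Y, hY0, hY⟩ := exists_trace_rep φ
  obtain ⟨c, rfl⟩ := hT Y (commute_of_relD σ fun τ => by
    rw [← hY, ← fderiv_relMap hσ τ]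
    have h := Submodule.mem_map_of_mem (f := φ) (LinearMap.mem_range_self
      (fderiv ℂ (relMap σ) 0 : (Var n r → ℂ) →ₗ[ℂ] (Idx r → ℂ)) τ)
    rw [hφ] at h
    simpa using h)
  have hc : c = 0 := by simpa using hY0
  refine hφx ?_
  have e : x = fun p : Idx r => (Matrix.of fun a b => if h : (a, b) ≠ (0, 0) then x ⟨(a, b), h⟩
      else 0 : Mat r) p.1.1 p.1.2 := funext fun p => by
    rw [Matrix.of_apply, dif_pos p.2]
  rw [e, hY, hc, zero_smul, Matrix.zero_mul, Matrix.trace_zero]

/-- Curves of representations with prescribed velocity. -/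
lemma exists_curve [NeZero r] {σ : Handles n (SLC r)} (hσ : relator σ = 1) (hT : Triv (gens σ))
    {τ : Var n r → ℂ} (hτ : relD σ τ = 0) :
    ∃ γ : ℂ → Handles n (SLC r), γ 0 = σ ∧ (∀ᶠ s in 𝓝 0, relator (γ s) = 1) ∧
      (∀ v, HasD (fun s => gens (γ s) v) (gens σ v * tl (matOf τ v))) := by
  have hf := hasStrict_relMap σ
  have hr := range_relMap hσ hT
  let κ := (fderiv ℂ (relMap σ) 0 : (Var n r → ℂ) →ₗ[ℂ] (Idx r → ℂ)).ker
  have hτk : τ ∈ κ := by
    rw [LinearMap.mem_ker]
    change fderiv ℂ (relMap σ) 0 τ = 0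
    rw [fderiv_relMap hσ τ, hτ]
    rfl
  let c : ℂ → Var n r → ℂ := fun s =>
    hf.implicitFunction _ _ hr (relMap σ 0) (s • (⟨τ, hτk⟩ : κ))
  have hline : HasDerivAt (fun s : ℂ => s • (⟨τ, hτk⟩ : κ)) (⟨τ, hτk⟩ : κ) 0 := by
    simpa using (hasDerivAt_id (0 : ℂ)).smul_const (⟨τ, hτk⟩ : κ)
  have hc : HasDerivAt c τ 0 :=
    (hf.to_implicitFunction hr).hasFDerivAt.comp_hasDerivAt_of_eq 0 hline (zero_smul ℂ _).symm
  have hc0 : c 0 = 0 := by
    simp only [c, zero_smul]
    exact hf.implicitFunction_apply_image hr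
  refine ⟨fun s => par σ (c s), by simp only [hc0, par_zero], ?_, fun v => ?_⟩
  · have hev := hf.map_implicitFunction_eq hr
    have hcont : Tendsto (fun s : ℂ => (relMap σ 0, s • (⟨τ, hτk⟩ : κ))) (𝓝 0)
        (𝓝 (relMap σ 0, 0)) :=
      tendsto_const_nhds.prodMk_nhds (by simpa using hline.continuousAt.tendsto)
    filter_upwards [hcont.eventually hev] with s hs
    refine eq_one_of_relF (hs.trans ?_)
    funext p
    simp [relMap, relF, par_zero, hσ]
  · have hP : HasStrictFDerivAt (fun τ => coord (par σ τ))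
        (fderiv ℂ (fun τ => coord (par σ τ)) 0) (0 : Var n r → ℂ) :=
      (SmoothH.coord (smooth_par (smoothH_const σ) contDiff_id)).contDiffAt.hasStrictFDerivAt
        (by simp)
    have h1 := hP.hasFDerivAt.comp_hasDerivAt_of_eq 0 hc hc0.symm
    have h2 := hP.hasFDerivAt.comp_hasDerivAt_of_eq 0
      (by simpa using (hasDerivAt_id (0 : ℂ)).smul_const τ) (zero_smul ℂ τ).symm
    intro i j
    have e : fderiv ℂ (fun τ => coord (par σ τ)) 0 τ (v, i, j) =
        (gens σ v * tl (matOf τ v)) i j := by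
      refine (hasDerivAt_pi.1 h2 (v, i, j)).unique ?_
      have h3 : HasD (fun s : ℂ => gens (par σ (s • τ)) v) (gens σ v * tl (matOf τ v)) := by
        have hm : ∀ (s : ℂ) w, matOf (s • τ) w = s • matOf τ w := fun s w => by ext; simp [matOf]
        obtain ⟨i, b⟩ := v
        cases b <;>
          · simp only [gens, par, hm, Matrix.SpecialLinearGroup.coe_mul, if_true, if_false,
              Bool.false_eq_true]
            exact ((hasD_const _).mul (hasD_expM _)).congr (by simp)
      have h4 := h3 i j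
      simp only [← matOf_eq_gens] at h4 ⊢
      exact h4
    rw [← e]
    have h5 := hasDerivAt_pi.1 h1 (v, i, j)
    simp only [← matOf_eq_gens]
    exact h5

end Vale.Agent.P002
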