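import Vale.Agent.P002.Burnside
import Vale.Agent.P002.Absolute

/-!
Conjugation-invariant functions along one-parameter tori.
-/

namespace Vale.Agent.P002

open Matrix Filter Topology
open scoped ContDiff

variable {r n : ℕ}

/-- A polynomial that is invariant under conjugation on representations. -/
def ConjInv (P : MvPolynomial (Var n r) ℂ) : Prop :=
  ∀ (h : SLC r) (ρ : Handles n (SLC r)), relator ρ = 1 →
    MvPolynomial.eval (coord (mapH (MulAut.conj h).toMonoidHom ρ)) P =
      MvPolynomial.eval (coord ρ) P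

/-- Conjugation by an invertible matrix. -/
noncomputable def conjU (U : (Mat r)ˣ) : SLC r →* SLC r where
  toFun g := ⟨U.val * g.val * U⁻¹.val, by rw [Matrix.det_units_conj]; exact g.2⟩
  map_one' := Subtype.ext (by simp)
  map_mul' g g' := Subtype.ext (by
    show U.val * (g.val * g'.val) * U⁻¹.val =
      (U.val * g.val * U⁻¹.val) * (U.val * g'.val * U⁻¹.val)
    simp only [Matrix.mul_assoc, Units.inv_mul_cancel_left])

lemma conjU_val (U : (Mat r)ˣ) (g : SLC r) : (conjU U g).val = U.val * g.val * U⁻¹.val := rfl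

lemma gens_mapH (φ : SLC r →* SLC r) (ρ : Handles n (SLC r)) (v : Fin (n + 1) × Bool) :
    gens (mapH φ ρ) v = (φ (if v.2 then ρ.2 v.1 else ρ.1 v.1)).val := by
  obtain ⟨i, b⟩ := v
  cases b <;> simp [gens, mapH]

lemma coord_eq_of_gens {ρ ρ' : Handles n (SLC r)} (h : ∀ v, gens ρ v = gens ρ' v) :
    coord ρ = coord ρ' := by
  funext ⟨v, p, q⟩
  have := congrFun (congrFun (h v) p) q
  rwa [← matOf_eq_gens, ← matOf_eq_gens] at this

lemma ConjInv.conjU [NeZero r] {P : MvPolynomial (Var n r) ℂ} (hP : ConjInv P) (U : (Mat r)ˣ)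
    {ρ : Handles n (SLC r)} (hρ : relator ρ = 1) :
    MvPolynomial.eval (coord (mapH (P002.conjU U) ρ)) P = MvPolynomial.eval (coord ρ) P := by
  have hU : U.val.det ≠ 0 := ((Matrix.isUnit_iff_isUnit_det _).1 U.isUnit).ne_zero
  obtain ⟨c, hc⟩ := IsAlgClosed.exists_pow_nat_eq U.val.det⁻¹ (Nat.pos_of_neZero r)
  have hc0 : c ≠ 0 := fun e => by
    rw [e, zero_pow (NeZero.ne r)] at hc
    exact inv_ne_zero hU hc.symm
  let h : SLC r := ⟨c • U.val, by
    rw [Matrix.det_smul, Fintype.card_fin, hc, inv_mul_cancel₀ hU]⟩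
  have hh : h⁻¹.val = c⁻¹ • U⁻¹.val := by
    rw [coe_inv_SL]
    refine Matrix.inv_eq_left_inv ?_
    rw [show h.val = c • U.val from rfl, smul_mul_assoc, mul_smul_comm, smul_smul,
      inv_mul_cancel₀ hc0, one_smul, Units.inv_mul]
  rw [← hP h ρ hρ, coord_eq_of_gens (ρ := mapH (P002.conjU U) ρ)
    (ρ' := mapH (MulAut.conj h).toMonoidHom ρ) fun v => ?_]
  simp only [gens_mapH, conjU_val, MulEquiv.coe_toMonoidHom, MulAut.conj_apply,
    Matrix.SpecialLinearGroup.coe_mul, hh]
  rw [show h.val = c • U.val from rfl]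
  simp only [smul_mul_assoc, mul_smul_comm, smul_smul, inv_mul_cancel₀ hc0, one_smul]

/-- Scale the entries leading from outside `S` into `S`. -/
def scaleS (S : Finset (Fin r)) (s : ℂ) (g : Mat r) : Mat r :=
  Matrix.of fun a b => if a ∈ S ∧ b ∉ S then s * g a b else g a b

/-- Entries leading from `S` outside vanish. -/
def Tri (S : Finset (Fin r)) (g : Mat r) : Prop := ∀ a b, a ∉ S → b ∈ S → g a b = 0

/-- The diagonal torus element. -/
noncomputable def torU (S : Finset (Fin r)) (s : ℂ) (hs : s ≠ 0) : (Mat r)ˣ where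
  val := Matrix.diagonal fun a => if a ∈ S then s else 1
  inv := Matrix.diagonal fun a => if a ∈ S then s⁻¹ else 1
  val_inv := by
    rw [Matrix.diagonal_mul_diagonal, ← Matrix.diagonal_one]
    congr 1; funext a; split_ifs <;> simp [hs]
  inv_val := by
    rw [Matrix.diagonal_mul_diagonal, ← Matrix.diagonal_one]
    congr 1; funext a; split_ifs <;> simp [hs]

lemma torU_conj (S : Finset (Fin r)) (s : ℂ) (hs : s ≠ 0) (g : Mat r) (a b : Fin r) :
    ((torU S s hs).val * g * (torU S s hs)⁻¹.val) a b =
      (if a ∈ S then s else 1) * g a b * (if b ∈ S then s⁻¹ else 1) := by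
  simp only [torU, Units.inv_mk]
  rw [Matrix.mul_diagonal, Matrix.diagonal_mul]

lemma scaleS_eq (S : Finset (Fin r)) {s : ℂ} (hs : s ≠ 0) {g : Mat r} (h : Tri S g) :
    scaleS S s g = (torU S s hs).val * g * (torU S s hs)⁻¹.val := by
  ext a b
  rw [torU_conj, scaleS, Matrix.of_apply]
  by_cases ha : a ∈ S <;> by_cases hb : b ∈ S
  · simp only [ha, hb, not_true, and_false, if_false, if_true]; field_simp
  · simp [ha, hb]
  · simp [ha, hb, h a b ha hb]
  · simp [ha, hb]

lemma scaleS_one (S : Finset (Fin r)) (g : Mat r) : scaleS S 1 g = g := by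
  ext a b; simp [scaleS]

lemma smooth_scaleS (S : Finset (Fin r)) (g : Mat r) : Smooth fun s : ℂ => scaleS S s g :=
  fun a b => by
    simp only [scaleS, Matrix.of_apply]
    split_ifs
    exacts [contDiff_id.mul contDiff_const, contDiff_const]

lemma det_scaleS (S : Finset (Fin r)) (s : ℂ) {g : SLC r} (h : Tri S g.val) :
    (scaleS S s g.val).det = 1 := by
  have hc : Continuous fun s : ℂ => (scaleS S s g.val).det :=
    (smooth_scaleS S g.val).det.continuous
  refine congrFun (Continuous.ext_on (dense_compl_singleton (0 : ℂ)) hc continuous_const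
    fun t ht => ?_) s
  rw [scaleS_eq S ht h, Matrix.det_units_conj]
  exact g.2

/-- Triangular representations have the invariants of their block diagonal parts. -/
lemma torus_limit [NeZero r] {P : MvPolynomial (Var n r) ℂ} (hP : ConjInv P) (S : Finset (Fin r))
    {ρ : Handles n (SLC r)} (hρ : relator ρ = 1) (hT : ∀ v, Tri S (gens ρ v)) :
    ∃ ρ' : Handles n (SLC r), relator ρ' = 1 ∧ (∀ v, gens ρ' v = scaleS S 0 (gens ρ v)) ∧
      MvPolynomial.eval (coord ρ') P = MvPolynomial.eval (coord ρ) P := by
  have hA : ∀ i, Tri S (ρ.1 i).val := fun i => by simpa [gens] using hT (i, false)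
  have hB : ∀ i, Tri S (ρ.2 i).val := fun i => by simpa [gens] using hT (i, true)
  let c : ℂ → Handles n (SLC r) := fun s =>
    (fun i => ⟨scaleS S s (ρ.1 i).val, det_scaleS S s (hA i)⟩,
      fun i => ⟨scaleS S s (ρ.2 i).val, det_scaleS S s (hB i)⟩)
  have hc : SmoothH c := fun i => ⟨smooth_scaleS S _, smooth_scaleS S _⟩
  have hgens : ∀ s v, gens (c s) v = scaleS S s (gens ρ v) := by
    rintro s ⟨i, b⟩
    cases b <;> simp [gens, c]
  have hconj : ∀ s (hs : s ≠ 0), c s = mapH (conjU (torU S s hs)) ρ := fun s hs =>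
    Prod.ext (funext fun i => Subtype.ext (scaleS_eq S hs (hA i)))
      (funext fun i => Subtype.ext (scaleS_eq S hs (hB i)))
  have hrel : ∀ s, relator (c s) = 1 := by
    intro s
    refine Subtype.ext (Matrix.ext fun a b => ?_)
    refine congrFun (Continuous.ext_on (dense_compl_singleton (0 : ℂ))
      ((smooth_relator hc) a b).continuous
      (continuous_const (y := (1 : SLC r).val a b)) fun t ht => ?_) s
    beta_reduce
    rw [hconj t ht, mapH_relator, hρ, map_one]
  refine ⟨c 0, hrel 0, hgens 0, ?_⟩
  refine congrFun (Continuous.ext_on (f := fun s => MvPolynomial.eval (coord (c s)) P)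
    (g := fun _ => MvPolynomial.eval (coord ρ) P)
    (dense_compl_singleton (0 : ℂ))
    (contDiff_eval (fun v => contDiff_pi.1 hc.coord v) P).continuous continuous_const
    fun t ht => ?_) 0
  beta_reduce
  rw [hconj t ht, hP.conjU _ hρ]

section Ext

/-- Supported on rows in `S` and columns outside. -/
def Corner (S : Finset (Fin r)) (N : Mat r) : Prop := ∀ a b, ¬(a ∈ S ∧ b ∉ S) → N a b = 0

lemma corner_mul_self {S : Finset (Fin r)} {N N' : Mat r} (h : Corner S N) (h' : Corner S N') :
    N * N' = 0 := by
  ext a b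
  rw [Matrix.mul_apply]
  refine Finset.sum_eq_zero fun c _ => ?_
  by_cases hc : c ∈ S
  · rw [h a c (fun e => e.2 hc), zero_mul]
  · rw [h' c b (fun e => hc e.1), mul_zero]

lemma corner_trace {S : Finset (Fin r)} {N : Mat r} (h : Corner S N) : N.trace = 0 :=
  Finset.sum_eq_zero fun a _ => h a a fun e => e.2 e.1

open scoped Matrix.Norms.Operator in
lemma exp_sq_zero {N : Mat r} (h : N * N = 0) : NormedSpace.exp N = 1 + N := by
  rw [congrFun (NormedSpace.exp_eq_tsum ℂ) N,
    tsum_eq_sum (s := Finset.range 2) fun k hk => by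
      rw [show k = 2 + (k - 2) by simp only [Finset.mem_range] at hk; omega, pow_add, pow_two, h,
        zero_mul, smul_zero]]
  simp [Finset.sum_range_succ]

lemma expM_corner {S : Finset (Fin r)} {N : Mat r} (h : Corner S N) : (expM N).val = 1 + N := by
  show NormedSpace.exp (tl N) = _
  rw [tl_of_trace (corner_trace h), exp_sq_zero (corner_mul_self h h)]

lemma gens_par (σ : Handles n (SLC r)) (τ : Var n r → ℂ) (v : Fin (n + 1) × Bool) :
    gens (par σ τ) v = gens σ v * (expM (matOf τ v)).val := by
  obtain ⟨i, b⟩ := v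
  cases b <;> simp [gens, par]

/-- Block diagonal with respect to `S`. -/
def Split (S : Finset (Fin r)) (g : Mat r) : Prop :=
  ∀ a b, ¬(a ∈ S ↔ b ∈ S) → g a b = 0

lemma Split.mul_corner {S : Finset (Fin r)} {g N : Mat r} (hg : Split S g) (hN : Corner S N) :
    Corner S (g * N) := by
  intro a b hab
  rw [Matrix.mul_apply]
  refine Finset.sum_eq_zero fun c _ => ?_
  by_cases hc : c ∈ S ∧ b ∉ S
  · rw [hg a c fun e => hab ⟨e.2 hc.1, hc.2⟩, zero_mul]
  · rw [hN c b hc, mul_zero]

/-- An extension by a block is governed by the linearised relator. -/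
lemma relator_corner [NeZero r] {S : Finset (Fin r)} {σ : Handles n (SLC r)}
    (hσ : relator σ = 1) (hS : ∀ v, Split S (gens σ v)) {τ : Var n r → ℂ}
    (hτ : ∀ v, Corner S (matOf τ v)) :
    (relator (par σ τ)).val = 1 + relD σ τ ∧ Corner S (relD σ τ) := by
  set R := (relator (par σ τ)).val
  have hconj : ∀ s (hs : s ≠ 0), par σ (s • τ) = mapH (conjU (torU S s hs)) (par σ τ) := by
    intro s hs
    have key : ∀ v, gens (par σ (s • τ)) v = gens (mapH (conjU (torU S s hs)) (par σ τ)) v := by
      intro v
      rw [gens_mapH, conjU_val, show ((if v.2 then (par σ τ).2 v.1 else (par σ τ).1 v.1 : SLC r).val)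
        = gens (par σ τ) v by unfold gens; split_ifs <;> rfl, gens_par, gens_par,
        show matOf (s • τ) v = s • matOf τ v by ext; simp [matOf]]
      have h1 : Corner S (s • matOf τ v) := fun a b h => by simp [hτ v a b h]
      rw [expM_corner h1, expM_corner (hτ v), mul_add, mul_add, Matrix.mul_one, mul_smul_comm]
      ext a b
      have hK := (hS v).mul_corner (hτ v) a b
      rw [torU_conj, Matrix.add_apply, Matrix.add_apply, Matrix.smul_apply, smul_eq_mul]
      by_cases ha : a ∈ S <;> by_cases hb : b ∈ S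
      · rw [hK fun e => e.2 hb, if_pos ha, if_pos hb]; field_simp; ring
      · rw [hS v a b (by simp [ha, hb]), if_pos ha, if_neg hb]; ring
      · rw [hS v a b (by simp [ha, hb]), hK fun e => ha e.1]; ring
      · rw [hK fun e => ha e.1, if_neg ha, if_neg hb]; ring
    refine Prod.ext (funext fun i => Subtype.ext ?_) (funext fun i => Subtype.ext ?_)
    · simpa [gens] using key (i, false)
    · simpa [gens] using key (i, true)
  have hR : ∀ s (hs : s ≠ 0) a b, (relator (par σ (s • τ))).val a b =
      (if a ∈ S then s else 1) * R a b * (if b ∈ S then s⁻¹ else 1) := fun s hs a b => by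
    rw [hconj s hs, mapH_relator, conjU_val, torU_conj]
  have hsm : Smooth fun s : ℂ => (relator (par σ (s • τ))).val :=
    smooth_relator (smooth_par (smoothH_const σ) (contDiff_id.smul contDiff_const))
  have hd := hasD_relator hσ τ
  have h0 : ∀ a b, (relator (par σ ((0 : ℂ) • τ))).val a b = (1 : Mat r) a b := fun a b => by
    rw [zero_smul, par_zero, hσ, Matrix.SpecialLinearGroup.coe_one]
  have key : ∀ a b, R a b = (1 : Mat r) a b + relD σ τ a b ∧
      (¬(a ∈ S ∧ b ∉ S) → relD σ τ a b = 0) := by
    intro a b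
    have hc := (hsm a b).continuous
    by_cases ha : a ∈ S <;> by_cases hb : b ∈ S
    · have e : (fun s : ℂ => (relator (par σ (s • τ))).val a b) = fun _ => R a b :=
        Continuous.ext_on (dense_compl_singleton (0 : ℂ)) hc continuous_const fun s hs => by
          beta_reduce
          rw [hR s hs, if_pos ha, if_pos hb]
          field_simp [show s ≠ 0 from hs]
      have hD := hd a b
      rw [e] at hD
      have h1 := hD.unique (hasDerivAt_const _ _)
      refine ⟨?_, fun _ => h1⟩
      rw [h1, add_zero, ← h0 a b]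
      exact (congrFun e 0).symm
    · have e : (fun s : ℂ => (relator (par σ (s • τ))).val a b) = fun s => s * R a b :=
        Continuous.ext_on (dense_compl_singleton (0 : ℂ)) hc (continuous_id'.mul continuous_const)
          fun s hs => by
            beta_reduce
            rw [hR s hs, if_pos ha, if_neg hb, mul_one]
      have hD := hd a b
      rw [e] at hD
      have h1 := hD.unique (hasDerivAt_mul_const (R a b))
      refine ⟨?_, fun h => absurd ⟨ha, hb⟩ h⟩
      rw [h1, Matrix.one_apply_ne (fun e : a = b => hb (e ▸ ha)), zero_add]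
    · have e : (fun s : ℂ => s * (relator (par σ (s • τ))).val a b) = fun _ => R a b :=
        Continuous.ext_on (dense_compl_singleton (0 : ℂ)) (continuous_id'.mul hc) continuous_const
          fun s hs => by
            beta_reduce
            rw [hR s hs, if_neg ha, if_pos hb]
            field_simp [show s ≠ 0 from hs]
      have hR0 : R a b = 0 := by simpa using (congrFun e 0).symm
      have e2 : (fun s : ℂ => (relator (par σ (s • τ))).val a b) = fun _ => (0 : ℂ) :=
        Continuous.ext_on (dense_compl_singleton (0 : ℂ)) hc continuous_const fun s hs => by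
          beta_reduce
          rw [hR s hs, hR0, mul_zero, zero_mul]
      have hD := hd a b
      rw [e2] at hD
      have h1 := hD.unique (hasDerivAt_const _ _)
      refine ⟨?_, fun _ => h1⟩
      rw [h1, hR0, Matrix.one_apply_ne (fun e : a = b => ha (e ▸ hb)), add_zero]
    · have e : (fun s : ℂ => (relator (par σ (s • τ))).val a b) = fun _ => R a b :=
        Continuous.ext_on (dense_compl_singleton (0 : ℂ)) hc continuous_const fun s hs => by
          beta_reduce
          rw [hR s hs, if_neg ha, if_neg hb, one_mul, mul_one]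
      have hD := hd a b
      rw [e] at hD
      have h1 := hD.unique (hasDerivAt_const _ _)
      refine ⟨?_, fun _ => h1⟩
      rw [h1, add_zero, ← h0 a b]
      exact (congrFun e 0).symm
  exact ⟨Matrix.ext fun a b => (key a b).1, fun a b h => (key a b).2 h⟩

end Ext

end Vale.Agent.P002
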