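import Vale.Agent.P002.Slice
import Vale.Agent.P002.Eigen

/-!
Twist flows preserve the closure of the integral representations.
-/

namespace Vale.Agent.P002

open Matrix MvPolynomial
open scoped Matrix.Norms.Operator

variable {r n : ℕ}

lemma det_exp_eq (M : Matrix (Fin r) (Fin r) ℂ) :
    (NormedSpace.exp M).det = Complex.exp M.trace := by
  set d : ℂ → ℂ := fun s => (NormedSpace.exp (s • M)).det with hd
  have h0 : d 0 = 1 := by simp [hd]
  have hadd : ∀ s u, d (s + u) = d s * d u := fun s u => by
    simp only [hd, add_smul]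
    rw [Matrix.exp_add_of_commute _ _ ((Commute.refl M).smul_left s |>.smul_right u), Matrix.det_mul]
  have hder : HasDerivAt d M.trace 0 := by
    have hlin := hasDerivAt_exp_smul_const (𝕂 := ℂ) M (0 : ℂ)
    rw [zero_smul, NormedSpace.exp_zero, one_mul] at hlin
    have hentry : ∀ i j, HasDerivAt (fun s : ℂ => NormedSpace.exp (s • M) i j) (M i j) 0 := fun i j =>
      (LinearMap.toContinuousLinearMap (Matrix.entryLinearMap ℂ ℂ i j)).hasFDerivAt.comp_hasDerivAt 0
        hlin
    have hk := HasDerivAt.fun_sum (u := (Finset.univ : Finset (Equiv.Perm (Fin r)))) fun σ _ =>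
      (HasDerivAt.fun_finsetProd (u := Finset.univ) fun i _ => hentry (σ i) i).const_mul
        (((Equiv.Perm.sign σ : ℤˣ) : ℤ) : ℂ)
    have hfun : d = fun s => ∑ σ : Equiv.Perm (Fin r),
        (((Equiv.Perm.sign σ : ℤˣ) : ℤ) : ℂ) * ∏ i, NormedSpace.exp (s • M) (σ i) i :=
      funext fun s => Matrix.det_apply' _
    rw [hfun]
    refine hk.congr_deriv ?_
    rw [Finset.sum_eq_single 1 (fun σ _ hσ => ?_) (by simp)]
    · simp [Matrix.trace, Matrix.one_apply]
    · refine mul_eq_zero_of_right _ (Finset.sum_eq_zero fun i _ => ?_)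
      obtain ⟨j, hj, hji⟩ : ∃ j, j ≠ i ∧ σ j ≠ j := by
        by_contra hcon
        push Not at hcon
        refine hσ (Equiv.ext fun j => ?_)
        by_cases hji : j = i
        · subst hji
          by_contra hne
          simp only [Equiv.Perm.coe_one, id_eq] at hne
          exact hne (σ.injective (hcon (σ j) hne))
        · exact hcon j hji
      refine smul_eq_zero_of_left (Finset.prod_eq_zero (Finset.mem_erase.2 ⟨hj, Finset.mem_univ j⟩) ?_) _
      simp [Matrix.one_apply, hji]
  have hder' : ∀ s, HasDerivAt d (M.trace * d s) s := fun s => by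
    have h := (HasDerivAt.comp (h := fun u => u - s) (h' := 1) (h₂ := d) (h₂' := M.trace) s
      (by simpa using hder) ((hasDerivAt_id s).sub_const s)).const_mul (d s)
    simp only [mul_one, Function.comp_def] at h
    rw [mul_comm]
    refine h.congr_of_eventuallyEq (Filter.Eventually.of_forall fun u => ?_)
    simp only [← hadd, add_sub_cancel]
  have hconst : ∀ s, d s * Complex.exp (-(s * M.trace)) = d 0 * Complex.exp (-(0 * M.trace)) := by
    intro s
    refine is_const_of_deriv_eq_zero (f := fun s => d s * Complex.exp (-(s * M.trace)))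
      (fun x => ((hder' x).differentiableAt.mul
        (Complex.differentiableAt_exp.comp x (by fun_prop)))) (fun x => ?_) s 0
    have h2 : HasDerivAt (fun s => Complex.exp (-(s * M.trace)))
        (Complex.exp (-(x * M.trace)) * -M.trace) x :=
      ((hasDerivAt_mul_const M.trace).neg).cexp
    rw [((hder' x).fun_mul h2).deriv]
    ring
  have := hconst 1
  rw [h0] at this
  simp only [hd, one_smul, one_mul, zero_mul, neg_zero, Complex.exp_zero, Complex.exp_neg] at this
  exact eq_of_mul_inv_eq_one this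

/-- Traceless part. -/
noncomputable def tl (W : Matrix (Fin r) (Fin r) ℂ) : Matrix (Fin r) (Fin r) ℂ :=
  W - (W.trace / r) • 1

lemma trace_tl (hr : r ≠ 0) (W : Matrix (Fin r) (Fin r) ℂ) : (tl W).trace = 0 := by
  simp [tl, Matrix.trace_sub, Matrix.trace_smul]
  field_simp
  ring

/-- The twist element `exp (t W₀)`. -/
noncomputable def expT (t : ℂ) (W : SLC r) : SLC r :=
  ⟨NormedSpace.exp (t • tl W.val), by
    rcases eq_or_ne r 0 with rfl | hr
    · exact Matrix.det_isEmpty
    · rw [det_exp_eq, Matrix.trace_smul, trace_tl hr, smul_zero, Complex.exp_zero]⟩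

lemma expT_zero (W : SLC r) : expT 0 W = 1 := Subtype.ext (by simp [expT])

lemma commute_expT (t : ℂ) (W : SLC r) : Commute W (expT t W) := by
  refine Subtype.ext ?_
  rw [Matrix.SpecialLinearGroup.coe_mul, Matrix.SpecialLinearGroup.coe_mul]
  exact (((Commute.refl W.val).sub_right ((Commute.one_right _).smul_right _)).smul_right t).exp_right

lemma twist_exp_mem (hr : r ≠ 0) {ρ : Handles n (SLC r)} (hρ : ρ ∈ Zd n r)
    (hW : GoodW (ρ.1 0).val) (t : ℂ) : twist ρ (expT t (ρ.1 0)) ∈ Zd n r := by
  refine ⟨by rw [twist_relator ρ (commute_expT t _), hρ.1], fun P hP => ?_⟩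
  obtain ⟨U, lam, hind, hW⟩ := hW
  let q : Var n r → MvPolynomial (Fin r) ℂ := fun v => if v.1 = (0, true) then
    ∑ j, C (((ρ.2 0).val * U.val) v.2.1 j) * X j * C ((U⁻¹).val j v.2.2) else C (coord ρ v)
  have key : ∀ (μ : Fin r → ℂ) (z : SLC r), z.val = U.val * diagonal μ * (U⁻¹).val →
      eval μ (bind₁ q P) = eval (coord (twist ρ z)) P := by
    intro μ z hz
    rw [eval, eval₂Hom_bind₁]
    refine congrArg (fun f => eval₂Hom (RingHom.id ℂ) f P) (funext fun v => ?_)
    obtain ⟨⟨i, b⟩, a, c⟩ := v
    by_cases h : (i, b) = ((0 : Fin (n + 1)), true)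
    · obtain ⟨rfl, rfl⟩ := Prod.mk.injEq .. ▸ h
      simp only [q, if_true, coord, twist, Function.update_self, Matrix.SpecialLinearGroup.coe_mul,
        hz, map_sum, map_mul, eval₂Hom_C, eval₂Hom_X', RingHom.id_apply, ← Matrix.mul_assoc]
      rw [Matrix.mul_apply]
      simp [Matrix.mul_diagonal]
    · have hb : coord (twist ρ z) ((i, b), a, c) = coord ρ ((i, b), a, c) := by
        cases b
        · simp [coord, twist]
        · have : i ≠ 0 := fun e => h (by rw [e])
          simp [coord, twist, this]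
      simp only [q, if_neg h, eval₂Hom_C, RingHom.id_apply, hb]
  have hpow : ∀ m : ℕ, ((ρ.1 0) ^ m).val = U.val * diagonal (fun i => lam i ^ m) * (U⁻¹).val :=
    fun m => by
    rw [Matrix.SpecialLinearGroup.coe_pow, hW, Units.conj_pow, Matrix.diagonal_pow]
    rfl
  have hmem : ∀ m : ℕ, eval (fun i => lam i ^ m) (bind₁ q P) = 0 := fun m => by
    rw [key _ _ (hpow m)]
    exact (twist_pow_mem hρ m).2 P hP
  set μ : Fin r → ℂ := fun i => Complex.exp (t * (lam i - (∑ j, lam j) / r)) with hμ
  have htl : (expT t (ρ.1 0)).val = U.val * diagonal μ * (U⁻¹).val := by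
    have e : t • tl (ρ.1 0).val =
        U.val * diagonal (fun i => t * (lam i - (∑ j, lam j) / r)) * (U⁻¹).val := by
      have htr : (ρ.1 0).val.trace = ∑ j, lam j := by
        rw [hW, Matrix.trace_mul_comm, ← Matrix.mul_assoc, Units.inv_mul, Matrix.one_mul,
          Matrix.trace_diagonal]
      rw [tl, htr, hW, show (fun i => t * (lam i - (∑ j, lam j) / r)) =
        t • (fun i => lam i - (∑ j, lam j) / (r : ℂ)) from rfl, Matrix.diagonal_smul,
        mul_smul_comm, smul_mul_assoc t (U.val * diagonal _), ← Matrix.diagonal_sub, mul_sub,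
        sub_mul]
      congr 2
      rw [← Matrix.smul_one_eq_diagonal, mul_smul_comm, mul_one, smul_mul_assoc, Units.mul_inv]
    rw [show (expT t (ρ.1 0)).val = NormedSpace.exp (t • tl (ρ.1 0).val) from rfl, e,
      Matrix.exp_units_conj, Matrix.exp_diagonal]
    congr 3
    funext i
    simp [hμ, Complex.exp_eq_exp_ℂ]
  rw [← key μ _ htl]
  refine eval_eq_zero_of_powers hind ?_ hmem
  rw [hμ, ← Complex.exp_sum, ← Finset.mul_sum, Finset.sum_sub_distrib, Finset.sum_const,
    Finset.card_univ, Fintype.card_fin, nsmul_eq_mul,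
    mul_div_cancel₀ _ (Nat.cast_ne_zero.2 hr), sub_self, mul_zero, Complex.exp_zero]

end Vale.Agent.P002
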